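import Vale.Agent.P308.Pair

/-! Tracking the law of a population of particles under pair moves. -/

namespace Vale.Agent.P308

open Finset Function

set_option linter.unusedSectionVars false
set_option linter.unusedSimpArgs false

variable {Ω : Type} [Fintype Ω] [DecidableEq Ω] {N : ℕ}

def ten (A : Ω → Ω → ℝ) (α x : Fin N → Ω) : ℝ := ∏ i, A (α i) (x i)

def up (x : Fin N → Ω) (p : Fin N × Fin N) (z : Ω × Ω) : Fin N → Ω := update (update x p.1 z.1) p.2 z.2

def pr (x : Fin N → Ω) (p : Fin N × Fin N) : Ω × Ω := (x p.1, x p.2)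

noncomputable def hat (π : Ω → ℝ) (H : Ω → Ω → ℝ) (F : (Fin N → Ω) → ℝ) (α : Fin N → Ω) : ℝ :=
  ∑ x, ten (tt π H) α x * F x

def Wm (o : Ω) (u : (Fin N → Ω) → ℝ) : ℝ := ∑ α, (∏ i, mu o (α i)) * u α ^ 2

noncomputable def Pop (J : Ω × Ω → Ω × Ω → ℝ) (ε : ℝ) (F : (Fin N → Ω) → ℝ) (x : Fin N → Ω) : ℝ :=
  F x - ε / N ^ 2 * ∑ p ∈ univ.offDiag, ∑ y, J (pr x p) y * (F x - F (up x p y))

def Good (o : Ω) (π : Ω → ℝ) (Λ : ((Fin N → Ω) → ℝ) → ℝ) (w τ : ℝ) : Prop :=
  ∃ H, OB π o H ∧ ∃ u : (Fin N → Ω) → ℝ, u (fun _ => o) = 0 ∧ Wm o u ≤ w ∧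
    ∀ F, (∀ x, |F x| ≤ 1) → |Λ F - hat π H F (fun _ => o) - ∑ α, u α * hat π H F α| ≤ τ

variable {π π' : Ω → ℝ} {o : Ω} {H : Ω → Ω → ℝ} {Λ : ((Fin N → Ω) → ℝ) → ℝ} {w τ γ ε δ : ℝ}
  {J : Ω × Ω → Ω × Ω → ℝ} {p : Fin N × Fin N}

theorem mu_pos (o a : Ω) : 0 < mu o a := by unfold mu; split_ifs <;> norm_num

theorem ten_mul (A B : Ω → Ω → ℝ) (α x : Fin N → Ω) :
    ∑ y, ten A α y * ten B y x = ten (fun a b => ∑ c, A a c * B c b) α x := by
  simp only [ten, ← prod_mul_distrib]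
  rw [prod_univ_sum, Fintype.piFinset_univ]

theorem tensor {T : Ω → Ω → ℝ} {μ ν : Ω → ℝ} {C : ℝ} (h0 : ∀ a, 0 ≤ μ a) (h1 : ∀ a, 0 ≤ ν a) (hC : 0 ≤ C)
    (h : ∀ g : Ω → ℝ, ∑ a, μ a * (∑ b, T a b * g b) ^ 2 ≤ C * ∑ b, ν b * g b ^ 2) (v : (Fin N → Ω) → ℝ) :
    ∑ α, (∏ i, μ (α i)) * (∑ β, ten T α β * v β) ^ 2 ≤ C ^ N * ∑ β, (∏ i, ν (β i)) * v β ^ 2 := by
  induction N with
  | zero => simp [ten]
  | succ N ih =>
    have e : ∀ f : (Fin (N + 1) → Ω) → ℝ, ∑ α, f α = ∑ a, ∑ α : Fin N → Ω, f (Fin.cons a α) := fun f => by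
      rw [← (Fin.consEquiv fun _ => Ω).sum_comp, Fintype.sum_prod_type]; rfl
    simp only [e, ten, Fin.prod_univ_succ, Fin.cons_zero, Fin.cons_succ, mul_assoc, ← mul_sum]
    simp only [mul_sum, mul_left_comm (μ _)]
    rw [sum_comm]
    simp only [← mul_sum]
    refine (sum_le_sum fun α _ => mul_le_mul_of_nonneg_left (h _) (prod_nonneg fun _ _ => h0 _)).trans ?_
    simp only [mul_left_comm _ C, ← mul_sum]
    rw [pow_succ', mul_assoc]
    refine mul_le_mul_of_nonneg_left ?_ hC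
    simp only [mul_sum]
    rw [sum_comm]
    refine sum_le_sum fun b _ => ?_
    simp only [mul_left_comm _ (ν b), ← mul_sum]
    exact mul_le_mul_of_nonneg_left (ih fun β => v (Fin.cons b β)) (h1 b)

theorem OB.hat0 (O : OB π o H) (F : (Fin N → Ω) → ℝ) : hat π H F (fun _ => o) = ∑ x, (∏ i, π (x i)) * F x := by
  simp [hat, ten, tt, O.row, Real.mul_self_sqrt (O.nn _)]

theorem sum_pi (h : ∑ x, π x = 1) : ∑ x : Fin N → Ω, ∏ i, π (x i) = 1 := by
  rw [← Fintype.piFinset_univ, ← prod_univ_sum]; simp [h]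

theorem OB.cs (O : OB π o H) {F : (Fin N → Ω) → ℝ} (hF : ∀ x, |F x| ≤ 1) (u : (Fin N → Ω) → ℝ)
    (h : ∑ α, u α ^ 2 ≤ w) : |∑ α, u α * hat π H F α| ≤ √w := by
  have := tensor (T := tt π H) (μ := 1) (ν := π) (C := 1) (by simp) O.nn zero_le_one (fun g => by
    simp [tt, mul_assoc, O.iso, mul_pow, Real.sq_sqrt (O.nn _)]) F
  simp only [Pi.one_apply, prod_const_one, one_mul, one_pow] at this
  have a : ∑ α, hat π H F α ^ 2 ≤ 1 := this.trans (le_trans (sum_le_sum fun x _ => mul_le_of_le_one_right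
    (prod_nonneg fun _ _ => O.nn _) (by rw [← sq_abs]; nlinarith [hF x, abs_nonneg (F x)])) (sum_pi O.one).le)
  refine Real.abs_le_sqrt ((sum_mul_sq_le_sq_mul_sq _ _ _).trans ?_)
  exact (mul_le_of_le_one_right (by positivity) a).trans h

theorem Good.mono {w' τ' : ℝ} (G : Good o π Λ w τ) (h1 : w ≤ w') (h2 : τ ≤ τ') : Good o π Λ w' τ' := by
  obtain ⟨H, O, u, a, b, c⟩ := G
  exact ⟨H, O, u, a, b.trans h1, fun F hF => (c F hF).trans h2⟩

theorem good_init (h0 : ∀ x, 0 ≤ π x) (h1 : ∑ x, π x = 1) (h : ∀ F, Λ F = ∑ x, (∏ i, π (x i)) * F x) :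
    Good o π Λ 0 0 := by
  obtain ⟨H, O⟩ := exists_OB h0 h1 o
  exact ⟨H, O, 0, rfl, by simp [Wm], fun F _ => by simp [h, O.hat0]⟩

theorem Good.tv (G : Good o π Λ w τ) {F : (Fin N → Ω) → ℝ} (hF : ∀ x, |F x| ≤ 1) :
    Λ F ≤ ∑ x, (∏ i, π (x i)) * F x + (τ + √w) := by
  obtain ⟨H, O, u, _, b, c⟩ := G
  have := O.cs hF u (le_trans (sum_le_sum fun α _ => le_mul_of_one_le_left (sq_nonneg _)
    (le_trans (by simp) (prod_le_prod (f := fun _ => (1 : ℝ)) (by simp) fun i _ => by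
      unfold mu; split_ifs <;> norm_num))) b)
  linarith [abs_le.1 this, abs_le.1 (c F hF), O.hat0 F]

theorem Good.rew (G : Good o π Λ w τ) (h0 : ∀ x, 0 < π' x) (h1 : ∑ x, π' x = 1) (d0 : 0 ≤ δ)
    (h : ∀ x, π x ≤ (1 + δ) * π' x) : Good o π' Λ ((1 + 2 * δ) ^ N * (1 + w) - 1) τ := by
  obtain ⟨H, O, u, a, b, c⟩ := G
  obtain ⟨H', O'⟩ := exists_OB (fun x => (h0 x).le) h1 o
  let T := fun a b => ∑ x, H' a x * (√(π x) / √(π' x) * H x b)
  have s0 := fun x => (Real.sqrt_pos.2 (h0 x)).ne'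
  have e1 : ∀ b, T o b = if o = b then 1 else 0 := fun b => by
    rw [← O.orth]
    exact sum_congr rfl fun x _ => by rw [O'.row, O.row]; field_simp [s0 x]
  have e2 : ∀ b x, ∑ a, T a b * tt π' H' a x = tt π H b x := fun b x => by
    have : ∀ a y, H' a y * (√(π y) / √(π' y) * H y b) * (H' a x * √(π' x)) =
      √(π y) / √(π' y) * H y b * √(π' x) * (H' y a * H' a x) := fun a y => by rw [O'.sym y]; ring
    simp only [T, tt, sum_mul, this]
    rw [sum_comm]
    simp [← mul_sum, O'.orth, O.sym x]; field_simp [s0 x]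
  have e3 : ∀ g : Ω → ℝ, ∑ a, mu o a * g a ^ 2 = 2 * ∑ a, g a ^ 2 - g o ^ 2 := fun g => by
    have : ∀ a, mu o a * g a ^ 2 = 2 * g a ^ 2 - if a = o then g a ^ 2 else 0 := fun a => by
      unfold mu; split_ifs <;> ring
    simp [this, mul_sum]
  let v := fun β => (if β = fun _ => o then 1 else 0) + u β
  let v' := fun α => ∑ β, ten T α β * v β
  have e4 : v' (fun _ => o) = 1 := by
    have : ∀ β : Fin N → Ω, ten T (fun _ => o) β = if β = fun _ => o then 1 else 0 := fun β => by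
      simp [ten, e1, Fintype.prod_boole, funext_iff, eq_comm]
    simp [v', this, v, a]
  have e5 : ∀ v : (Fin N → Ω) → ℝ, ∀ s, Wm o (fun β => s * (if β = fun _ => o then 1 else 0) + v β) =
      s ^ 2 + 2 * s * v (fun _ => o) + Wm o v := fun v s => by
    have : ∀ β : Fin N → Ω, (∏ i, mu o (β i)) * (s * (if β = fun _ => o then 1 else 0) + v β) ^ 2 =
      (if β = fun _ => o then s ^ 2 + 2 * s * v β else 0) + (∏ i, mu o (β i)) * v β ^ 2 := fun β => by
      split_ifs with h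
      · simp [h, mu]; ring
      · ring
    simp only [Wm, this, sum_add_distrib, sum_ite_eq', mem_univ, if_true]
  have e6 := tensor (T := T) (μ := mu o) (ν := mu o) (C := 1 + 2 * δ) (fun _ => (mu_pos _ _).le)
    (fun _ => (mu_pos _ _).le) (by positivity) (fun g => by
      have a1 : ∑ a, (∑ b, T a b * g b) ^ 2 ≤ (1 + δ) * ∑ b, g b ^ 2 := by
        have : ∀ a, ∑ b, T a b * g b = ∑ x, H' a x * (√(π x) / √(π' x) * ∑ b, H x b * g b) := fun a => by
          simp only [T, sum_mul, mul_sum, mul_assoc]; exact sum_comm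
        simp only [this, O'.iso]
        rw [← O.iso g, mul_sum]
        refine sum_le_sum fun x _ => ?_
        rw [mul_pow, div_pow, Real.sq_sqrt (O.nn x), Real.sq_sqrt (h0 x).le]
        exact mul_le_mul_of_nonneg_right ((div_le_iff₀ (h0 x)).2 (h x)) (sq_nonneg _)
      have a2 : g o ^ 2 ≤ ∑ b, g b ^ 2 := single_le_sum (fun b _ => sq_nonneg (g b)) (mem_univ o)
      rw [e3, e3]
      simp only [e1, ite_mul, one_mul, zero_mul, sum_ite_eq, mem_univ, if_true]
      nlinarith) v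
  refine ⟨H', O', fun α => -1 * (if α = fun _ => o then 1 else 0) + v' α, by simp [e4], ?_, fun F hF => ?_⟩
  · have := e5 u 1
    simp only [one_mul, a] at this
    rw [e5, e4]
    change Wm o v' ≤ _ * Wm o v at e6
    rw [this] at e6
    nlinarith [mul_le_mul_of_nonneg_left b (show 0 ≤ (1 + 2 * δ) ^ N by positivity)]
  · refine le_of_eq_of_le ?_ (c F hF)
    have : ∑ α, v' α * hat π' H' F α = ∑ β, v β * hat π H F β := by
      simp only [v', sum_mul]
      rw [sum_comm]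
      refine sum_congr rfl fun β _ => ?_
      have := fun x => ten_mul (fun b a => T a b) (tt π' H') β x
      simp only [e2] at this
      simp only [hat, mul_sum, ← this, sum_mul]
      rw [sum_comm]
      exact sum_congr rfl fun _ _ => sum_congr rfl fun _ _ => by simp only [ten]; ring
    simp only [v, add_mul, sum_add_distrib] at this ⊢
    simp only [this, mul_ite, ite_mul, mul_zero, zero_mul, sum_ite_eq', mem_univ, if_true]
    ring_nf

theorem pr_up (h : p.1 ≠ p.2) (x : Fin N → Ω) (z : Ω × Ω) : pr (up x p z) p = z := by simp [pr, up, h]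

theorem up_up (x : Fin N → Ω) (z y : Ω × Ω) : up (up x p z) p y = up x p y := by
  funext k; simp only [up, update_apply]; split_ifs <;> rfl

theorem up_pr (x : Fin N → Ω) : up x p (pr x p) = x := by simp [pr, up]

theorem fib (h : p.1 ≠ p.2) (o : Ω) (Φ : (Fin N → Ω) → ℝ) :
    ∑ x, Φ x = ∑ r with pr r p = (o, o), ∑ z, Φ (up r p z) := by
  rw [← sum_product']
  refine sum_nbij' (fun x => (up x p (o, o), pr x p)) (fun q => up q.1 p q.2) (by simp [pr_up h]) (by simp)
    (fun x _ => by simp [up_up, up_pr]) (fun q hq => ?_) fun x _ => by simp [up_up, up_pr]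
  simp only [mem_product, mem_filter, mem_univ, true_and, and_true] at hq
  simp only [up_up, pr_up h]
  rw [← hq, up_pr]

theorem prod_up (h : p.1 ≠ p.2) (f : Fin N → Ω → ℝ) (x : Fin N → Ω) (z : Ω × Ω) : ∏ k, f k (up x p z k) =
    (∏ k ∈ (univ.erase p.1).erase p.2, f k (x k)) * (f p.1 z.1 * f p.2 z.2) := by
  rw [← mul_prod_erase _ _ (mem_univ p.1), ← mul_prod_erase _ _ (show p.2 ∈ univ.erase p.1 by simp [h.symm]),
    prod_congr rfl fun k hk => by
      simp only [mem_erase] at hk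
      rw [up, update_of_ne hk.1, update_of_ne hk.2.1]]
  simp [up, h]; ring

theorem abs_Pop (nn : ∀ z y, 0 ≤ J z y) (row : ∀ z, ∑ y, J z y ≤ 1) (e0 : 0 ≤ ε) (e1 : ε ≤ 1)
    {F : (Fin N → Ω) → ℝ} (hF : ∀ x, |F x| ≤ 1) (x : Fin N → Ω) : |Pop J ε F x| ≤ 1 := by
  have a : ε / N ^ 2 * ∑ p ∈ univ.offDiag, ∑ y, J (pr x p) y ≤ 1 := by
    refine (mul_le_mul_of_nonneg_left ((sum_le_card_nsmul _ _ 1 fun p _ => row _).trans (c := (N : ℝ) ^ 2)
      (by rw [nsmul_eq_mul, mul_one]; exact_mod_cast (card_le_univ _).trans (by simp [sq]))) (by positivity)).trans ?_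
    rw [div_mul_eq_mul_div, mul_div_assoc]
    exact mul_le_one₀ e1 (by positivity) (div_self_le_one _)
  have b : ∀ s : ℝ, (∀ x, s * F x ≤ 1) → s * Pop J ε F x ≤ 1 := fun s h => by
    have : (s * F x - 1) * ∑ p ∈ univ.offDiag, ∑ y, J (pr x p) y ≤
        s * ∑ p ∈ univ.offDiag, ∑ y, J (pr x p) y * (F x - F (up x p y)) := by
      simp only [mul_sum]
      exact sum_le_sum fun p _ => sum_le_sum fun y _ => by
        nlinarith [mul_le_mul_of_nonneg_left (h (up x p y)) (nn (pr x p) y)]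
    rw [Pop]
    nlinarith [mul_le_mul_of_nonneg_left this (show 0 ≤ ε / N ^ 2 by positivity),
      mul_le_mul_of_nonneg_left a (sub_nonneg.2 (h x))]
  have := b 1 fun x => by linarith [abs_le.1 (hF x)]
  have := b (-1) fun x => by linarith [abs_le.1 (hF x)]
  rw [abs_le]; constructor <;> linarith

theorem Good.step (G : Good o π Λ w τ) (K : Ker π J γ) {k : ℕ} (g0 : 0 ≤ γ) (g1 : γ ≤ 1)
    (hk : 7 * k ≤ N * γ) (N0 : 0 < N) (e0 : 0 ≤ ε) (e1 : ε ≤ 1) :
    Good o π (fun F => Λ (Pop J ε F)) ((1 - ε * γ / N + 16 * ε ^ 2) * w) (τ + √(w / 2 ^ k)) := by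
  obtain ⟨H, O, u, a, b, c⟩ := G
  obtain ⟨R, r1, r2, r3, r4, r5⟩ := K.coord O
  have n1 : (1 : ℝ) ≤ N := by exact_mod_cast N0
  have m0 : ∀ α : Fin N → Ω, 0 < ∏ i, mu o (α i) := fun α => prod_pos fun _ _ => mu_pos _ _
  let d := fun α : Fin N → Ω => (univ.filter fun i => α i ≠ o).card
  let v := fun α => if d α ≤ k then u α else 0
  let L := fun (v : (Fin N → Ω) → ℝ) p α => ∑ b, R (pr α p) b * v (up α p b)
  have hp : ∀ p ∈ (univ : Finset (Fin N)).offDiag, p.1 ≠ p.2 := fun p h => (mem_offDiag.1 h).2.2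
  have wv : Wm o v ≤ w := le_trans (sum_le_sum fun α _ => mul_le_mul_of_nonneg_left
    (by simp only [v]; split_ifs; exacts [le_rfl, by simpa using sq_nonneg _]) (m0 α).le) b
  have L0 : ∀ v p, L v p (fun _ => o) = 0 := fun v p => by simp [L, pr, r2]
  refine ⟨H, O, fun α => v α - ε / N ^ 2 * ∑ p ∈ univ.offDiag, L v p α, by simp [L0, v, a], ?_, fun F hF => ?_⟩
  · have a1 : γ * N / 2 * Wm o v ≤ ∑ p ∈ univ.offDiag, ∑ α, (∏ i, mu o (α i)) * v α * L v p α := by
      refine le_trans ?_ (sum_le_sum (f := fun p => ∑ α, (∏ i, mu o (α i)) * v α ^ 2 *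
        (γ / 2 * (ch o (α p.1) + ch o (α p.2)) - (γ + 5 / 2) * (ch o (α p.1) * ch o (α p.2)))) fun p h => ?_)
      · rw [sum_comm, Wm, mul_sum]
        refine sum_le_sum fun α _ => ?_
        rw [← mul_sum, mul_comm]
        by_cases h0 : v α = 0
        · simp [h0]
        refine mul_le_mul_of_nonneg_left ?_ (mul_nonneg (m0 α).le (sq_nonneg _))
        have d1 : (1 : ℝ) ≤ d α := by
          exact_mod_cast card_pos.2 (nonempty_iff_ne_empty.2 fun h => h0 (by
            rw [show α = fun _ => o by simpa [funext_iff] using h]; simp [v, a]))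
        have d2 : (d α : ℝ) ≤ k := by exact_mod_cast not_not.1 fun h => h0 (if_neg h)
        have d3 : ∑ i, ch o (α i) = d α := by simp [ch, d, sum_ite, filter_not]
        have d4 := sum_union (f := fun p : Fin N × Fin N => γ / 2 * (ch o (α p.1) + ch o (α p.2)) -
          (γ + 5 / 2) * (ch o (α p.1) * ch o (α p.2))) (disjoint_diag_offDiag univ)
        rw [diag_union_offDiag, sum_diag, sum_product] at d4
        have d5 : ∑ i, (γ / 2 * (ch o (α i) + ch o (α i)) - (γ + 5 / 2) * (ch o (α i) * ch o (α i))) ≤ 0 :=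
          sum_nonpos fun i _ => by unfold ch; split_ifs <;> linarith
        simp only [sum_sub_distrib (s := univ), ← mul_sum, sum_add_distrib, ← sum_mul, d3, sum_const, card_univ,
          Fintype.card_fin, nsmul_eq_mul] at d4 d5
        nlinarith [mul_le_mul_of_nonneg_left d2 (show 0 ≤ (γ + 5 / 2) * d α by positivity),
          mul_le_mul_of_nonneg_left g1 (show (0 : ℝ) ≤ k * d α by positivity),
          mul_le_mul_of_nonneg_left hk (show (0 : ℝ) ≤ d α by positivity),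
          mul_le_mul_of_nonneg_left d1 (show 0 ≤ γ * N by positivity)]
      · rw [fib (hp p h) o, fib (hp p h) o fun α => _ * _ * L v p α]
        refine sum_le_sum fun r _ => ?_
        have := fun z => Prod.ext_iff.1 (pr_up (hp p h) r z)
        simp only [pr] at this
        simp only [L, prod_up (hp p h) fun _ => mu o, pr_up (hp p h), up_up, this, mul_assoc (∏ _ ∈ _, _), ← mul_sum]
        exact mul_le_mul_of_nonneg_left (r4 _) (prod_nonneg fun _ _ => (mu_pos _ _).le)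
    have a2 : ∑ α, (∏ i, mu o (α i)) * (∑ p ∈ univ.offDiag, L v p α) ^ 2 ≤ N ^ 2 * (N ^ 2 * (16 * Wm o v)) := by
      have c1 : ((univ : Finset (Fin N)).offDiag.card : ℝ) ≤ N ^ 2 := by
        exact_mod_cast (card_le_univ _).trans (by simp [sq])
      refine (sum_le_sum fun α _ => mul_le_mul_of_nonneg_left (sq_sum_le_card_mul_sum_sq.trans
        (mul_le_mul_of_nonneg_right c1 (by positivity))) (m0 α).le).trans ?_
      simp only [mul_left_comm _ ((N : ℝ) ^ 2), ← mul_sum]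
      refine mul_le_mul_of_nonneg_left ?_ (by positivity)
      simp only [mul_sum]
      rw [sum_comm]
      refine (sum_le_card_nsmul _ _ (16 * Wm o v) fun p h => ?_).trans ?_
      · rw [fib (hp p h) o, Wm, fib (hp p h) o, mul_sum]
        refine sum_le_sum fun r _ => ?_
        simp only [L, prod_up (hp p h) fun _ => mu o, pr_up (hp p h), up_up, mul_assoc (∏ _ ∈ _, _), ← mul_sum]
        rw [mul_left_comm]
        exact mul_le_mul_of_nonneg_left (r5 _) (prod_nonneg fun _ _ => (mu_pos _ _).le)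
      · rw [nsmul_eq_mul]
        exact mul_le_mul_of_nonneg_right c1 (mul_nonneg (by norm_num)
          (sum_nonneg fun α _ => mul_nonneg (m0 α).le (sq_nonneg _)))
    have a3 : ε * γ / N ≤ 1 := by rw [div_le_one (by linarith)]; nlinarith
    refine le_trans ?_ (mul_le_mul_of_nonneg_left wv (by nlinarith))
    rw [sum_comm] at a1
    have a4 : Wm o (fun α => v α - ε / N ^ 2 * ∑ p ∈ univ.offDiag, L v p α) = Wm o v - 2 * (ε / N ^ 2) *
        ∑ α, ∑ p ∈ univ.offDiag, (∏ i, mu o (α i)) * v α * L v p α + (ε / N ^ 2) ^ 2 *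
        ∑ α, (∏ i, mu o (α i)) * (∑ p ∈ univ.offDiag, L v p α) ^ 2 := by
      simp only [Wm, ← mul_sum]
      simp only [mul_sum univ, ← sum_sub_distrib, ← sum_add_distrib]
      exact sum_congr rfl fun _ _ => by ring
    rw [a4]
    refine (add_le_add (sub_le_sub_left (mul_le_mul_of_nonneg_left a1 (by positivity)) _)
      (mul_le_mul_of_nonneg_left a2 (sq_nonneg _))).trans (le_of_eq ?_)
    field_simp
  · have b1 : ∀ α, hat π H (Pop J ε F) α = hat π H F α - ε / N ^ 2 * ∑ p ∈ univ.offDiag, L (hat π H F) p α := by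
      intro α
      simp only [hat, Pop, mul_sub, sum_sub_distrib, mul_left_comm _ (ε / _), ← mul_sum]
      simp only [← sum_sub_distrib, ← mul_sub, mul_sum _ _ (ten _ _ _)]
      rw [sum_comm]
      congr 2
      refine sum_congr rfl fun p h => ?_
      have e : ∀ b r z, ten (tt π H) (up α p b) (up r p z) = (∏ k ∈ (univ.erase p.1).erase p.2,
          tt π H (α k) (r k)) * (tt π H b.1 z.1 * tt π H b.2 z.2) := fun b r z => by
        rw [ten, prod_up (hp p h) fun k => tt π H (up α p b k), ← Prod.ext_iff.1 (pr_up (hp p h) α b) |>.1,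
          ← Prod.ext_iff.1 (pr_up (hp p h) α b) |>.2]
        refine congrArg₂ _ (prod_congr rfl fun k hk => ?_) rfl
        simp only [mem_erase] at hk
        rw [up, update_of_ne hk.1, update_of_ne hk.2.1]
      have e' := e (pr α p)
      rw [up_pr] at e'
      simp only [L, hat, ← mul_sum, fib (hp p h) o, e, e', pr_up (hp p h), up_up, mul_assoc (∏ _ ∈ _, _), r3]
      simp only [mul_sum]
      rw [sum_comm]
      exact sum_congr rfl fun _ _ => sum_congr rfl fun _ _ => sum_congr rfl fun _ _ => by ring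
    have b2 : ∀ p ∈ univ.offDiag, ∀ g : (Fin N → Ω) → ℝ, ∑ α, v α * L g p α = ∑ α, L v p α * g α := fun p h g => by
      rw [fib (hp p h) o, fib (hp p h) o fun α => L v p α * g α]
      refine sum_congr rfl fun r _ => ?_
      simp only [L, pr_up (hp p h), up_up, mul_sum, sum_mul]
      rw [sum_comm]
      exact sum_congr rfl fun _ _ => sum_congr rfl fun _ _ => by rw [r1]; ring
    have hP := abs_Pop K.nn K.row e0 e1 hF
    have b3 := O.cs hP (fun α => u α - v α) (w := w / 2 ^ k) (by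
      rw [le_div_iff₀ (by positivity), sum_mul]
      refine le_trans (sum_le_sum fun α _ => ?_) b
      simp only [v]
      split_ifs with h
      · simpa using mul_nonneg (m0 α).le (sq_nonneg _)
      · rw [sub_zero, mul_comm]
        refine mul_le_mul_of_nonneg_right ?_ (sq_nonneg _)
        simp only [mu, prod_ite, prod_const, one_pow, one_mul]
        exact pow_le_pow_right₀ (by norm_num) (not_le.1 h).le)
    have b4 : ∑ α, (v α - ε / N ^ 2 * ∑ p ∈ univ.offDiag, L v p α) * hat π H F α =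
        ∑ α, v α * hat π H (Pop J ε F) α := by
      simp only [b1, mul_sub, sub_mul, sum_sub_distrib, mul_left_comm _ (ε / _), mul_assoc, ← mul_sum]
      simp only [mul_sum _ _ (v _), sum_mul]
      rw [sum_comm, ← sum_congr rfl fun p h => b2 p h _, sum_comm]
    have b5 := c _ hP
    rw [b1, sum_eq_zero fun p _ => L0 _ p] at b5
    simp only [sub_mul, sum_sub_distrib] at b3
    rw [b4, abs_le]
    rw [abs_le] at b3 b5
    constructor <;> linarith

theorem anneal {ν : ℕ → Ω → ℝ} {J : ℕ → Ω × Ω → Ω × Ω → ℝ} {Λ : ℕ → ((Fin N → Ω) → ℝ) → ℝ} {B k : ℕ}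
    (K : ∀ t, Ker (ν t) (J t) γ) (h1 : ∀ t, ∑ x, ν t x = 1) (g0 : 0 ≤ γ) (g1 : γ ≤ 1) (hk : 7 * k ≤ N * γ)
    (N0 : 0 < N) (e0 : 0 ≤ ε) (e1 : 32 * ε ≤ γ / N) (d0 : 0 ≤ δ) (hd : ∀ t x, ν t x ≤ (1 + δ) * ν (t + 1) x)
    (hw : (1 - ε * γ / (2 * N)) ^ B ≤ w) (hδ : (1 + 2 * δ) ^ N * (1 + w) ≤ 2) (B0 : 0 < B)
    (hΛ : ∀ r F, Λ (r + 1) F = Λ r (Pop (J (r / B)) ε F)) (h0 : Good o (ν 0) (Λ 0) 1 0) (t : ℕ) :
    Good o (ν t) (Λ ((t + 1) * B)) w ((t + 1) * B * √(1 / 2 ^ k)) := by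
  have n1 : (1 : ℝ) ≤ N := by exact_mod_cast N0
  have a1 : γ / N ≤ 1 := by rw [div_le_one (by linarith)]; linarith
  have a2 : ε * γ / (2 * N) = ε * (γ / N) / 2 := by field_simp
  have a3 : 0 ≤ 1 - ε * γ / (2 * N) := by rw [a2]; nlinarith
  have a4 : 1 - ε * γ / (2 * N) ≤ 1 := sub_le_self _ (by positivity)
  have st : ∀ t, Good o (ν t) (Λ (t * B)) 1 (t * B * √(1 / 2 ^ k)) →
      Good o (ν t) (Λ ((t + 1) * B)) w ((t + 1) * B * √(1 / 2 ^ k)) := fun t G => by
    have : ∀ b ≤ B, Good o (ν t) (Λ (t * B + b)) ((1 - ε * γ / (2 * N)) ^ b) ((t * B + b) * √(1 / 2 ^ k)) := by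
      intro b hb
      induction b with
      | zero => simpa using G
      | succ b ih =>
        have := (ih (by omega)).step (K t) g0 g1 hk N0 e0 (by linarith)
        rw [← add_assoc, funext (hΛ _), show (t * B + b) / B = t by
          rw [mul_comm, Nat.mul_add_div B0, Nat.div_eq_of_lt (by omega), add_zero]]
        refine this.mono ?_ ?_
        · rw [pow_succ' (1 - _)]
          refine mul_le_mul_of_nonneg_right ?_ (pow_nonneg a3 _)
          rw [a2, mul_div_assoc]; nlinarith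
        · have : √((1 - ε * γ / (2 * N)) ^ b / 2 ^ k) ≤ √(1 / 2 ^ k) := by
            gcongr; exact pow_le_one₀ a3 a4
          push_cast; linarith
    rw [add_mul, one_mul]
    exact (this B le_rfl).mono hw (le_of_eq (by ring))
  induction t with
  | zero => exact st 0 (by simpa using h0)
  | succ t ih => exact st _ ((ih.rew (K _).pos (h1 _) d0 (hd t)).mono (by linarith) (by simp))

theorem hoeff (h0 : ∀ x, 0 ≤ π x) (h1 : ∑ x, π x = 1) {χ : Ω → ℝ} (hχ : ∀ x, |χ x| ≤ 1)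
    (hm : ∑ x, π x * χ x = 0) {ζ : ℝ} (z0 : 0 ≤ ζ) (z1 : ζ ≤ 2) :
    ∑ x : Fin N → Ω, (∏ i, π (x i)) * (if N * ζ < |∑ i, χ (x i)| then 1 else 0) ≤
      2 * Real.exp (-(N * ζ ^ 2 / 4)) := by
  have : ∀ θ : ℝ, θ ^ 2 = ζ ^ 2 / 4 → ∑ x : Fin N → Ω, (∏ i, π (x i)) * Real.exp (θ * ∑ i, χ (x i) - N * ζ ^ 2 / 2) ≤
      Real.exp (-(N * ζ ^ 2 / 4)) := fun θ h => by
    simp only [Real.exp_sub, mul_sum, Real.exp_sum, ← mul_div_assoc, ← prod_mul_distrib, ← sum_div]
    rw [← Fintype.piFinset_univ, ← prod_univ_sum (fun _ => univ) fun _ x => π x * Real.exp (θ * χ x), prod_const,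
      div_le_iff₀ (Real.exp_pos _), ← Real.exp_add, card_univ, Fintype.card_fin,
      show -(N * ζ ^ 2 / 4) + N * ζ ^ 2 / 2 = N * θ ^ 2 by rw [h]; ring, Real.exp_nat_mul]
    refine pow_le_pow_left₀ (sum_nonneg fun x _ => mul_nonneg (h0 x) (Real.exp_pos _).le) ?_ _
    refine le_trans (sum_le_sum (g := fun x => π x * (1 + θ ^ 2) + θ * (π x * χ x)) fun x _ => ?_) ?_
    · have a : χ x ^ 2 ≤ 1 := by rw [← sq_abs]; nlinarith [hχ x, abs_nonneg (χ x)]
      have b : (θ * χ x) ^ 2 ≤ θ ^ 2 := by rw [mul_pow]; exact mul_le_of_le_one_right (sq_nonneg _) a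
      have := (abs_le.1 (Real.abs_exp_sub_one_sub_id_le (x := θ * χ x) (by
        rw [← sq_le_one_iff_abs_le_one]; nlinarith))).2
      nlinarith [h0 x]
    · rw [sum_add_distrib, ← sum_mul, ← mul_sum, h1, hm]
      linarith [Real.add_one_le_exp (θ ^ 2)]
  refine le_trans ?_ ((add_le_add (this (ζ / 2) (by ring)) (this (-ζ / 2) (by ring))).trans (two_mul _).ge)
  rw [← sum_add_distrib]
  refine sum_le_sum fun x _ => ?_
  rw [← mul_add]
  refine mul_le_mul_of_nonneg_left ?_ (prod_nonneg fun _ _ => h0 _)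
  split_ifs with h
  · rcases lt_abs.1 h with h | h
    · exact le_add_of_le_of_nonneg (Real.one_le_exp (by nlinarith)) (Real.exp_pos _).le
    · exact le_add_of_nonneg_of_le (Real.exp_pos _).le (Real.one_le_exp (by nlinarith))
  · positivity

end Vale.Agent.P308
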