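import Vale.Agent.P308.Poin
import Vale.Agent.P308.L2

/-! The pair move and its spectral gap on additive functions. -/

namespace Vale.Agent.P308

open Finset Equiv
open Function hiding swap

set_option linter.unusedSectionVars false
set_option linter.unusedSimpArgs false

variable {V : Type} [Fintype V] [DecidableEq V]

abbrev Om (V : Type) [Fintype V] [DecidableEq V] := {m : V → V // m ∈ Iv ∅}

def sg (e : ℕ → V) (q : ℕ) : V → V :=
  swap (e q) (e (q + 1)) ∘ swap (e (q + 2)) (e (q + 3)) ∘ swap (e (q + 4)) (e (q + 5))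

def reg (e : ℕ → V) (b : Bool) (z : (V → V) × (V → V)) : Finset V :=
  cond b univ (orb (z.1 ∘ sg e 0) (z.2 ∘ sg e 6) (e 24))

def psi (e : ℕ → V) (b : Bool) (z : (V → V) × (V → V)) : (V → V) × (V → V) :=
  (mix (z.1 ∘ sg e 0) (z.2 ∘ sg e 6) (reg e b z) ∘ sg e 18, mix (z.2 ∘ sg e 6) (z.1 ∘ sg e 0) (reg e b z) ∘ sg e 12)

def vl (z : Om V × Om V) : (V → V) × (V → V) := (z.1, z.2)

def mv (e : ℕ → V) (b : Bool) (z : Om V × Om V) : Om V × Om V :=
  if h : (psi e b (vl z)).1 ∈ Iv ∅ ∧ (psi e b (vl z)).2 ∈ Iv ∅ then (⟨_, h.1⟩, ⟨_, h.2⟩) else z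

def dig (M a r : ℕ) : ℕ := a / M ^ r % M

noncomputable def acc (W : Om V → ℕ) (z y : Om V × Om V) : ℝ :=
  (W y.1 * W y.2 : ℕ) / 2 ^ (max (W z.1 * W z.2) (W y.1 * W y.2)).size

def lab (M : ℕ) (ρ : ℕ → V) (a : ℕ) : Om V × Om V → Om V × Om V := mv (fun r => ρ (dig M a r)) (dig M a 25 == 0)

noncomputable def JJ (M : ℕ) (ρ : ℕ → V) (W : Om V → ℕ) (z y : Om V × Om V) : ℝ :=
  (((range (M ^ 26)).filter fun a => lab M ρ a z = y).card : ℝ) / M ^ 26 * acc W z y

noncomputable def pi0 (φ : V → V → ℝ) (x : Om V) : ℝ := wt φ x / Z φ ∅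

variable {M : ℕ} {ρ : ℕ → V} {W : Om V → ℕ} {φ : V → V → ℝ} {η : ℝ} {o X : V → V}

theorem psi_rev {e e' : ℕ → V} (h : ∀ r < 24, e' r = e (23 - r)) (h' : e' 24 = e 24) (b : Bool)
    (z : (V → V) × (V → V)) : psi e' b (psi e b z) = z := by
  have a : ∀ (X : V → V) q, q ≤ 18 → (X ∘ sg e q) ∘ sg e' (18 - q) = X := fun X q hq => by
    funext v
    simp only [sg, comp, h _ (show 18 - q < 24 by omega), h _ (show 18 - q + 1 < 24 by omega),
      h _ (show 18 - q + 2 < 24 by omega), h _ (show 18 - q + 3 < 24 by omega),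
      h _ (show 18 - q + 4 < 24 by omega), h _ (show 18 - q + 5 < 24 by omega)]
    rw [show 23 - (18 - q) = q + 5 by omega, show 23 - (18 - q + 1) = q + 4 by omega,
      show 23 - (18 - q + 2) = q + 3 by omega, show 23 - (18 - q + 3) = q + 2 by omega,
      show 23 - (18 - q + 4) = q + 1 by omega, show 23 - (18 - q + 5) = q by omega,
      swap_comm (e (q + 5)), swap_comm (e (q + 3)), swap_comm (e (q + 1))]
    simp
  have a1 := fun X => a X 18 le_rfl
  have a2 := fun X => a X 12 (by norm_num)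
  have a3 := fun X => a X 0 (by norm_num)
  have a4 := fun X => a X 6 (by norm_num)
  have r : reg e' b (psi e b z) = reg e b z := by cases b <;> simp only [reg, psi, a1, a2, orb_mix, h', cond]
  rw [psi, r]
  simp only [psi, a1, a2, mix_mix, a3, a4]

theorem vl_inj : Injective (vl (V := V)) := fun _ _ h =>
  Prod.ext (Subtype.ext (congrArg Prod.fst h)) (Subtype.ext (congrArg Prod.snd h))

theorem mv_eq {e : ℕ → V} {b : Bool} {z y : Om V × Om V} (h : psi e b (vl z) = vl y) : mv e b z = y := by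
  rw [mv, dif_pos (by rw [h]; exact ⟨y.1.2, y.2.2⟩)]
  exact vl_inj h

theorem dig_surj (L : ℕ) (D : ℕ → ℕ) (h : ∀ r < L, D r < M) : ∃ a < M ^ L, ∀ r < L, dig M a r = D r := by
  let ω : Fin L → Fin M := fun r => ⟨D r, h r r.2⟩
  refine ⟨finFunctionFinEquiv ω, Fin.is_lt _, fun r hr => ?_⟩
  rw [dig, ← finFunctionFinEquiv_symm_apply_val (finFunctionFinEquiv ω) ⟨r, hr⟩, symm_apply_apply]

theorem dig_inj {L a b : ℕ} (ha : a < M ^ L) (hb : b < M ^ L) (h : ∀ r < L, dig M a r = dig M b r) : a = b := by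
  have : finFunctionFinEquiv.symm ⟨a, ha⟩ = finFunctionFinEquiv.symm ⟨b, hb⟩ := funext fun r => Fin.ext (by
    rw [finFunctionFinEquiv_symm_apply_val, finFunctionFinEquiv_symm_apply_val]; exact h r r.2)
  simpa using this

theorem cnt_le (M0 : 0 < M) {z y : Om V × Om V} (h : z ≠ y) : ((range (M ^ 26)).filter fun a => lab M ρ a z = y).card ≤
    ((range (M ^ 26)).filter fun a => lab M ρ a y = z).card := by
  choose rv r1 r2 using fun a => dig_surj 26 (fun r => dig M a (if r < 24 then 23 - r else r))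
    fun _ _ => Nat.mod_lt _ M0
  refine card_le_card_of_injOn rv (fun a ha => ?_) fun a ha b hb e => ?_
  · refine mem_filter.2 ⟨mem_range.2 (r1 a), mv_eq ?_⟩
    have := (mem_filter.1 ha).2
    rw [lab, mv] at this
    split_ifs at this with c
    · rw [← this, r2 a 25 (by norm_num)]
      exact psi_rev (fun r hr => by rw [r2 a r (by omega), if_pos hr]) (by rw [r2 a 24 (by norm_num)]; rfl) _ _
    · exact absurd this h
  · refine dig_inj (mem_range.1 (mem_filter.1 ha).1) (mem_range.1 (mem_filter.1 hb).1) fun r hr => ?_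
    have e1 := r2 a (if r < 24 then 23 - r else r) (by split_ifs <;> omega)
    have e2 := r2 b (if r < 24 then 23 - r else r) (by split_ifs <;> omega)
    have : (if (if r < 24 then 23 - r else r) < 24 then 23 - if r < 24 then 23 - r else r else
      if r < 24 then 23 - r else r) = r := by split_ifs <;> omega
    rw [this] at e1 e2
    rw [← e1, e, e2]

theorem sum_JJ (g : Om V × Om V → ℝ) (z : Om V × Om V) : ∑ y, JJ M ρ W z y * g y =
    (∑ a ∈ range (M ^ 26), acc W z (lab M ρ a z) * g (lab M ρ a z)) / M ^ 26 := by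
  simp only [JJ, card_filter, Nat.cast_sum, sum_div, sum_mul]
  rw [sum_comm]
  refine sum_congr rfl fun a _ => ?_
  rw [sum_eq_single (lab M ρ a z) (fun y _ h => by simp [h.symm]) (by simp)]
  simp; ring

theorem acc_le (z y : Om V × Om V) : acc W z y ≤ 1 := by
  rw [acc, div_le_one (by positivity)]
  exact_mod_cast (le_max_right _ _).trans (Nat.lt_size_self _).le

theorem size_min (a b : ℕ) : (min a b : ℕ) ≤ 2 * (a * ((b : ℝ) / 2 ^ (max a b).size)) := by
  rw [← mul_div_assoc, ← mul_div_assoc, le_div_iff₀ (by positivity)]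
  norm_cast
  rw [← min_mul_max a b, mul_left_comm]
  rcases Nat.eq_zero_or_pos (max a b) with h | h
  · simp [show min a b = 0 by omega]
  · obtain ⟨j, hj⟩ : ∃ j, (max a b).size = j + 1 := ⟨_, (Nat.succ_pred (Nat.size_pos.2 h).ne').symm⟩
    have : 2 ^ j ≤ max a b := Nat.lt_size.1 (by omega)
    rw [hj, pow_succ]
    exact Nat.mul_le_mul_left _ (by omega)

theorem swaps (b : V) (hX : X ∈ Iv ∅) (ho : Involutive o) (h : Le o X) (hc : (fx o).card ≤ 6) :
    ∃ a0 a1 a2 a3 a4 a5, X ∘ swap a0 a1 ∘ swap a2 a3 ∘ swap a4 a5 = o ∧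
      o ∘ swap a4 a5 ∘ swap a2 a3 ∘ swap a0 a1 = X := by
  have h1 := mem_Iv0.1 hX
  have st : ∀ k (o : V → V), Involutive o → Le o X → (fx o).card ≤ k + 2 → ∃ a b, Involutive (o ∘ swap a b) ∧
      Le (o ∘ swap a b) X ∧ (fx (o ∘ swap a b)).card ≤ k := fun k o ho h hc => by
    rcases (fx o).eq_empty_or_nonempty with e | ⟨a, ha⟩
    · exact ⟨b, b, by simpa using ⟨ho, h, by simp [e]⟩⟩
    have a1 := mem_fx.1 ha
    have a2 : o (X a) = X a := by
      by_contra hc
      have := h _ hc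
      rw [h1.1] at this
      exact h1.2 a (by rw [← ho (X a), ← this, a1])
    have a3 := h1.1 a
    have a4 := h1.2 a
    refine ⟨a, X a, inv_swap ho (Or.inl ⟨a1, a2⟩), fun u => ?_, ?_⟩
    · have := h u
      simp only [comp, swap_apply_def]; grind
    · have : fx (o ∘ swap a (X a)) ⊆ ((fx o).erase a).erase (X a) := fun u => by
        simp only [mem_fx, mem_erase, comp, swap_apply_def]; grind
      have := card_le_card this
      rw [card_erase_of_mem (by simp [a2, a4]), card_erase_of_mem ha] at this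
      omega
  obtain ⟨a4, a5, b1, b2, b3⟩ := st 4 o ho h hc
  obtain ⟨a2, a3, c1, c2, c3⟩ := st 2 _ b1 b2 b3
  obtain ⟨a0, a1, d1, d2, d3⟩ := st 0 _ c1 c2 c3
  have : o ∘ swap a4 a5 ∘ swap a2 a3 ∘ swap a0 a1 = X := funext fun u => (d2 u fun e => by
    have := card_pos.2 ⟨u, mem_fx.2 e⟩; omega).symm
  exact ⟨a0, a1, a2, a3, a4, a5, by rw [← this]; funext u; simp, this⟩

theorem orb_comm (X Y : V → V) (v : V) : orb X Y v = orb Y X v :=
  Subset.antisymm (orb_min (mem_orb _ _ _) fun u hu => (orb_cl _ _ _ u hu).symm)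
    (orb_min (mem_orb _ _ _) fun u hu => (orb_cl _ _ _ u hu).symm)

theorem Mv.swap {z y : (V → V) × (V → V)} (h : Mv z y) : Mv z.swap y.swap := by
  obtain ⟨o, o', b, h1, h2, h3, h4, h5, h6, h7⟩ := h
  exact ⟨o', o, b, h2, h1, h4, h3, by rwa [sw, orb_comm], by rwa [sw, orb_comm], by rwa [union_comm]⟩

theorem Mv.psi {z y : Om V × Om V} (h : Mv (vl z) (vl y)) : ∃ e, psi e false (vl z) = vl y := by
  obtain ⟨o, o', b, h1, h2, h3, h4, h5, h6, h7⟩ := h
  have c := orb_cl o o' b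
  have s : ∀ X Y : V → V, ∀ D, fx (mix X Y D) ⊆ fx X ∪ fx Y := fun X Y D =>
    fx_mix.trans_subset (union_subset_union sdiff_subset inter_subset_left)
  obtain ⟨a0, a1, a2, a3, a4, a5, e1, -⟩ := swaps b z.1.2 h1 h3 ((card_le_card subset_union_left).trans h7)
  obtain ⟨b0, b1, b2, b3, b4, b5, e2, -⟩ := swaps b z.2.2 h2 h4 ((card_le_card subset_union_right).trans h7)
  obtain ⟨c0, c1, c2, c3, c4, c5, -, e3⟩ := swaps b y.1.2 (inv_mix h1 h2 c) h5 ((card_le_card (s _ _ _)).trans h7)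
  obtain ⟨d0, d1, d2, d3, d4, d5, -, e4⟩ := swaps b y.2.2 (inv_mix h2 h1 fun u hu => (c u hu).symm) h6
    ((card_le_card (s _ _ _)).trans (by rwa [union_comm]))
  refine ⟨fun r => [a0, a1, a2, a3, a4, a5, b0, b1, b2, b3, b4, b5, d4, d5, d2, d3, d0, d1, c4, c5, c2, c3, c0,
    c1].getD r b, ?_⟩
  simp only [P308.psi, reg, sg, vl, cond_false, List.getD_cons_succ, List.getD_cons_zero, List.getD_nil, zero_add,
    e1, e2, e3, e4]

theorem sum_PP (Φ : (V → V) × (V → V) → ℝ) : ∑ z ∈ PP, Φ z = ∑ z : Om V × Om V, Φ (vl z) := by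
  rw [PP, sum_product, Fintype.sum_prod_type, ← sum_coe_sort]
  exact sum_congr rfl fun _ _ => (sum_coe_sort _ _).symm

theorem sum_pi0 (hV : Even (Fintype.card V)) (h0 : ∀ u v, 0 < φ u v) : ∑ x, pi0 φ x = 1 := by
  simp only [pi0, ← sum_div]
  rw [sum_coe_sort _ (wt φ), ← Z, div_self (Z_pos hV h0).ne']

theorem Band.ker (B : Band φ η) {c : ℝ} (c0 : 0 < c) (hW : ∀ x : Om V, wt φ x = c * W x) (M2 : 2 ≤ M) (hρ : ∀ v, ∃ a < M, ρ a = v) (b : V)
    {γ : ℝ} (g0 : 0 ≤ γ) (hγ : γ * (M ^ 26 * (4 * ((Fintype.card V + 1) ^ 2 * (Fintype.card V ^ 8 *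
      (4 * (16 * Fintype.card V ^ 3 / η) ^ 6))) + 1)) ≤ 1) : Ker (pi0 φ) (JJ M ρ W) γ := by
  classical
  have z0 := Z_pos B.ev B.h0
  have M0 : (0 : ℝ) < M ^ 26 := by positivity
  have p0 : ∀ x, 0 < pi0 φ x := fun x => div_pos (wt_pos B.h0 _) z0
  have j0 : ∀ z y, 0 ≤ JJ M ρ W z y := fun z y => by unfold JJ acc; positivity
  have ep : ∀ z, p2 (pi0 φ) z = c ^ 2 * (W z.1 * W z.2 : ℕ) / Z φ ∅ ^ 2 := fun z => by
    simp only [p2, pi0, hW]; push_cast; ring
  refine ⟨p0, j0, fun z => ?_, fun z y => ?_, fun f g => ?_⟩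
  · have := sum_JJ (M := M) (ρ := ρ) (W := W) 1 z
    simp only [Pi.one_apply, mul_one] at this
    rw [this, div_le_one M0]
    exact (sum_le_card_nsmul _ _ 1 fun _ _ => acc_le _ _).trans (by simp)
  · rcases eq_or_ne z y with rfl | h
    · rfl
    simp only [ep, JJ, acc, le_antisymm (cnt_le (M := M) (by omega) h) (cnt_le (ρ := ρ) (by omega) h.symm),
      max_comm (W y.1 * _)]
    ring
  have lo : ∀ e b z y, psi e b (vl z) = vl y →
      min (W2 φ (vl z)) (W2 φ (vl y)) / Z φ ∅ ^ 2 ≤ 2 * M ^ 26 * (p2 (pi0 φ) z * JJ M ρ W z y) := by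
    intro e b z y h
    choose σ s1 s2 using hρ
    obtain ⟨a, a1, a2⟩ := dig_surj 26 (fun r => if r < 25 then σ (e r) else cond b 0 1) fun r _ => by
      split_ifs; exacts [s1 _, by cases b <;> simp <;> omega]
    have : (1 : ℝ) ≤ ((range (M ^ 26)).filter fun a => lab M ρ a z = y).card := by
      exact_mod_cast card_pos.2 ⟨a, mem_filter.2 ⟨mem_range.2 a1, mv_eq (by
        rw [← h, a2 25 (by norm_num), show ((if 25 < 25 then σ (e 25) else cond b 0 1) == 0) = b by cases b <;> rfl]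
        simp (disch := norm_num) only [psi, reg, sg, a2, if_pos, s2])⟩⟩
    have e := size_min (W z.1 * W z.2) (W y.1 * W y.2)
    rw [← acc, Nat.cast_min] at e
    have : 0 ≤ acc W z y := by unfold acc; positivity
    simp only [ep, JJ, W2, vl, hW, mul_mul_mul_comm c, ← Nat.cast_mul]
    rw [div_le_iff₀ (by positivity), ← mul_min_of_nonneg _ _ (by positivity)]
    refine (mul_le_mul_of_nonneg_left e (by positivity)).trans ?_
    field_simp
    nlinarith [mul_nonneg (Nat.cast_nonneg (α := ℝ) (W z.1 * W z.2)) this]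
  let s : (V → V) → ℝ := fun m => if h : m ∈ Iv ∅ then (f ⟨m, h⟩ + g ⟨m, h⟩) / 2 else 0
  have es : ∀ x : Om V, s x = (f x + g x) / 2 := fun x => dif_pos x.2
  set E := ∑ z, ∑ y, p2 (pi0 φ) z * JJ M ρ W z y * (f z.1 + g z.2 - (f y.1 + g y.2)) ^ 2
  have eE : 2 * Bf (p2 (pi0 φ)) (JJ M ρ W) (fun z => f z.1 + g z.2) (fun z => f z.1 + g z.2) = E := by
    simp only [Bf, ← sum_div, E, sq]; ring
  have n0 := fun z y => mul_nonneg (mul_pos (p0 z.1) (p0 z.2)).le (j0 z y)
  have a1 : ∑ z, p2 (pi0 φ) z * (f z.1 + g z.2 - (f z.2 + g z.1)) ^ 2 ≤ 2 * M ^ 26 * E := by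
    rw [mul_sum]
    refine sum_le_sum fun z _ => le_trans ?_ (mul_le_mul_of_nonneg_left (single_le_sum
      (fun y _ => mul_nonneg (n0 z y) (sq_nonneg _)) (mem_univ z.swap)) (by positivity))
    rw [← mul_assoc]
    refine mul_le_mul_of_nonneg_right (le_of_eq_of_le ?_ (lo (fun _ => b) true z z.swap ?_)) (sq_nonneg _)
    · simp only [W2, vl, Prod.fst_swap, Prod.snd_swap, mul_comm (wt φ z.2), min_self, p2, pi0]; ring
    · simp [psi, reg, sg, vl, show ∀ X Y : V → V, mix X Y univ = Y from fun _ _ => funext fun _ => if_pos (mem_univ _)]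
  have a2 : En φ s / Z φ ∅ ^ 2 ≤ 2 * M ^ 26 * E := by
    have : E = ∑ z : Om V × Om V, ∑ y : Om V × Om V, p2 (pi0 φ) z.swap * JJ M ρ W z.swap y.swap *
        (f z.2 + g z.1 - (f y.2 + g y.1)) ^ 2 := by
      rw [← (prodComm _ _).sum_comp]
      exact sum_congr rfl fun z _ => by rw [← (prodComm _ _).sum_comp]; rfl
    rw [← add_self_div_two E]
    nth_rewrite 2 [this]
    simp only [En, sum_PP, E, ← sum_add_distrib, sum_div, mul_sum]
    refine sum_le_sum fun z _ => sum_le_sum fun y _ => ?_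
    have n1 := n0 z y
    have n2 := n0 z.swap y.swap
    split_ifs with h
    · obtain ⟨e, he⟩ := h.psi
      obtain ⟨e', he'⟩ := Mv.psi (z := z.swap) (y := y.swap) h.swap
      have b1 := lo _ _ _ _ he
      have b2 := lo _ _ _ _ he'
      have m0 : 0 ≤ min (W2 φ (vl z)) (W2 φ (vl y)) / Z φ ∅ ^ 2 := div_nonneg (le_min
        (mul_pos (wt_pos B.h0 _) (wt_pos B.h0 _)).le (mul_pos (wt_pos B.h0 _) (wt_pos B.h0 _)).le) (by positivity)
      rw [show ∀ z : Om V × Om V, W2 φ (vl z.swap) = W2 φ (vl z) from fun _ => mul_comm _ _,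
        show ∀ z : Om V × Om V, W2 φ (vl z.swap) = W2 φ (vl z) from fun _ => mul_comm _ _] at b2
      rw [mul_div_right_comm]
      simp only [Dd, vl, es] at *
      nlinarith [mul_le_mul_of_nonneg_right b1 (sq_nonneg (f z.1 + g z.2 - (f y.1 + g y.2))),
        mul_le_mul_of_nonneg_right b2 (sq_nonneg (f z.2 + g z.1 - (f y.2 + g y.1))),
        mul_nonneg m0 (sq_nonneg (f z.1 + g z.2 - (f y.1 + g y.2) - (f z.2 + g z.1 - (f y.2 + g y.1))))]
    · rw [zero_div]
      exact mul_nonneg (by positivity) (div_nonneg (add_nonneg (mul_nonneg n1 (sq_nonneg _))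
        (mul_nonneg n2 (sq_nonneg _))) (by norm_num))
  have a3 := div_le_div_of_nonneg_right (B.poin s) (sq_nonneg (Z φ ∅))
  rw [← mul_assoc, ← mul_assoc, mul_assoc _ (_ ^ 8), mul_div_assoc, sum_PP, sum_div] at a3
  have e0 := B.e0
  have E0 : 0 ≤ E := sum_nonneg fun z _ => sum_nonneg fun y _ => mul_nonneg (n0 z y) (sq_nonneg _)
  have a4 := a3.trans (mul_le_mul_of_nonneg_left a2 (by positivity))
  have a5 : ∑ z, p2 (pi0 φ) z * ((f z.1 - f z.2) ^ 2 + (g z.1 - g z.2) ^ 2) =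
      2 * ∑ z : Om V × Om V, W2 φ (vl z) * (s (vl z).2 - s (vl z).1) ^ 2 / Z φ ∅ ^ 2 +
      (∑ z, p2 (pi0 φ) z * (f z.1 + g z.2 - (f z.2 + g z.1)) ^ 2) / 2 := by
    rw [mul_sum, sum_div, ← sum_add_distrib]
    exact sum_congr rfl fun z _ => by simp only [vl, es, W2, p2, pi0]; ring
  rw [eE, a5]
  nlinarith [mul_le_mul_of_nonneg_right hγ E0, mul_le_mul_of_nonneg_left a4 g0, mul_le_mul_of_nonneg_left a1 g0]

end Vale.Agent.P308
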