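import Vale.Agent.P328.BT
import Vale.Agent.P308.Ker

/-! The population annealing algorithm on bit strings and its running time. -/

namespace Vale.Agent.P308

open Vale.Agent.PT Vale.Agent.P328
open Vale.Agent.P317 (bit b2n valU sumR allR mapR valB length_mapR)

def Par : Type := ℕ × ℕ × ℕ × ℕ × ℕ × ℕ × ℕ × ℕ × ℕ × ℕ × ℕ × ℕ

namespace Par

variable (p : Par)

def n : ℕ := p.1
def N : ℕ := p.2.1
def κ : ℕ := p.2.2.1
def s : ℕ := p.2.2.2.1
def M : ℕ := p.2.2.2.2.1
def D : ℕ := p.2.2.2.2.2.1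
def J : ℕ := p.2.2.2.2.2.2.1
def T : ℕ := p.2.2.2.2.2.2.2.1
def B : ℕ := p.2.2.2.2.2.2.2.2.1
def e : ℕ := p.2.2.2.2.2.2.2.2.2.1
def kb : ℕ := p.2.2.2.2.2.2.2.2.2.2.1
def ab : ℕ := p.2.2.2.2.2.2.2.2.2.2.2
def W : ℕ := p.N * p.n * p.n
def ib : ℕ := p.N * (p.n * p.kb)
def cm : ℕ := p.e + (p.κ + (p.κ + (26 * p.s + p.ab)))
def cs : ℕ := p.ib + (p.T + 1) * p.B * p.cm

end Par

variable (p : Par) (g : List Bool)

def dfl (v : ℕ) : ℕ := v + 1 - 2 * (v % 2)

def raw (l : List Bool) (q v : ℕ) : ℕ := sumR p.n fun u => b2n (bit l ((q * p.n + v) * p.n + u))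

def okf (f : ℕ → ℕ) : Bool :=
  allR p.n fun v => Nat.ble (f v + 1) p.n && (Nat.beq (f (f v)) v && !Nat.beq (f v) v)

def get (l : List Bool) (q v : ℕ) : ℕ := cond (okf p (raw p l q)) (raw p l q v) (dfl v)

def enc (f : ℕ → ℕ → ℕ) : List Bool :=
  mapR p.W fun x => Nat.ble (x % p.n + 1) (f (x / p.n / p.n) (x / p.n % p.n))

def adj (u v : ℕ) : Bool := bit g (u * p.n + v)

def pw (j : ℕ) : ℕ := p.D ^ j * (p.D + 1) ^ (2 * p.J * p.T - j)

def cw (t k : ℕ) : ℕ := (p.n - 1) * pw p (p.J * (p.T + t - 2 * k))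

def aw (t u v : ℕ) : ℕ := (4 * p.n ^ 2 - p.n + 1) * pw p (p.J * p.T + cond (adj p g u v) 0 t)

def cnt (l : List Bool) (u v : ℕ) : ℕ := sumR p.N fun q => b2n (Nat.beq (get p l q u) v)

def upc (H : ℕ → List Bool) (u v : ℕ) : ℕ → ℕ
  | 0 => 0
  | t + 1 => upc H u v t + b2n (decide (4 * p.n ^ 2 * cw p t (upc H u v t) * cnt p (H t) u v <
      p.N * (aw p g t u v + cw p t (upc H u v t))))

def phi (H : ℕ → List Bool) (t u v : ℕ) : ℕ := aw p g t u v + cw p t (upc p g H u v t)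

def wgt (H : ℕ → List Bool) (t : ℕ) (f : ℕ → ℕ) : ℕ := prodR p.n fun v => phi p g H t v (f v)

def swp (a b v : ℕ) : ℕ := cond (Nat.beq v a) b (cond (Nat.beq v b) a v)

def ev (a r : ℕ) : ℕ := dig p.M a r % p.n

def sgN (a q v : ℕ) : ℕ :=
  swp (ev p a q) (ev p a (q + 1)) (swp (ev p a (q + 2)) (ev p a (q + 3)) (swp (ev p a (q + 4)) (ev p a (q + 5)) v))

def grL (o y : ℕ → ℕ) (l : List Bool) : List Bool :=
  mapR p.n fun v => bit l v || !allR p.n fun u => !(bit l u && (Nat.beq (o u) v || Nat.beq (y u) v))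

def orbL (o y : ℕ → ℕ) (b : ℕ) : ℕ → List Bool
  | 0 => mapR p.n fun v => Nat.beq v b
  | t + 1 => grL p o y (orbL o y b t)

def mixN (o y : ℕ → ℕ) (a : ℕ) (X Y : ℕ → ℕ) (v : ℕ) : ℕ :=
  cond (Nat.beq (dig p.M a 25) 0 || bit (orbL p o y (ev p a 24) p.n) v) (Y v) (X v)

def oN (l : List Bool) (i a q v : ℕ) : ℕ := get p l i (sgN p a q v)

def x1 (l : List Bool) (i j a v : ℕ) : ℕ :=
  mixN p (oN p l i a 0) (oN p l j a 6) a (oN p l i a 0) (oN p l j a 6) (sgN p a 18 v)

def x2 (l : List Bool) (i j a v : ℕ) : ℕ :=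
  mixN p (oN p l i a 0) (oN p l j a 6) a (oN p l j a 6) (oN p l i a 0) (sgN p a 12 v)

def okm (H : ℕ → List Bool) (t : ℕ) (l z : List Bool) (i j a : ℕ) (y : List Bool) : Bool :=
  (allR p.e (bit z) && !Nat.beq i j) && ((okf p (x1 p l i j a) && okf p (x2 p l i j a)) &&
    decide (valU (y.take (max (wgt p g H t (get p l i) * wgt p g H t (get p l j))
      (wgt p g H t (x1 p l i j a) * wgt p g H t (x2 p l i j a))).size) <
        wgt p g H t (x1 p l i j a) * wgt p g H t (x2 p l i j a)))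

def mvN (H : ℕ → List Bool) (t : ℕ) (l z : List Bool) (i j a : ℕ) (y : List Bool) : List Bool :=
  enc p fun q v => cond (okm p g H t l z i j a y)
    (cond (Nat.beq q j) (x2 p l i j a v) (cond (Nat.beq q i) (x1 p l i j a v) (get p l q v))) (get p l q v)

def move (H : ℕ → List Bool) (t : ℕ) (l c : List Bool) : List Bool :=
  mvN p g H t l (c.take p.e) (valB p.N ((c.drop p.e).take p.κ)) (valB p.N (((c.drop p.e).drop p.κ).take p.κ))
    (valB (p.M ^ 26) ((((c.drop p.e).drop p.κ).drop p.κ).take (26 * p.s)))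
    ((((c.drop p.e).drop p.κ).drop p.κ).drop (26 * p.s))

def sl (c : List Bool) (k i : ℕ) : List Bool := (c.drop (i * k)).take k

def rk (c : List Bool) (v : ℕ) : ℕ := sumR p.n fun u => b2n (decide (valU (sl c p.kb u) < valU (sl c p.kb v)))

def ini (c : List Bool) (v : ℕ) : ℕ := sumR p.n fun u => cond (Nat.beq (rk p c u) (dfl (rk p c v))) u 0

def run (H : ℕ → List Bool) (s : ℕ) (c : List Bool) : ℕ → List Bool
  | 0 => enc p fun q => ini p (sl c (p.n * p.kb) q)
  | r + 1 => move p g H (min (r / p.B) s) (run H s c r) (sl (c.drop p.ib) p.cm r)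

def st (s : ℕ) (H : ℕ → List Bool) (c : List Bool) : List Bool := run p g H s c ((p.T + 1) * p.B)

def trj (ρ : List Bool) : ℕ → List Bool
  | 0 => []
  | s + 1 => trj ρ s ++ st p g s (sl (trj ρ s) p.W) (sl ρ p.cs s)

def cow (H : ℕ → List Bool) (t : ℕ) (f : ℕ → ℕ) : ℕ :=
  prodR p.n fun u => prodR p.n fun v => cond (Nat.beq (f u) v) 1 (phi p g H t u v)

def alw (H : ℕ → List Bool) (t : ℕ) : ℕ := p.N * prodR p.n fun u => prodR p.n fun v => phi p g H t u v

def rat (H : ℕ → List Bool) (t : ℕ) : ℕ :=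
  sumR p.N fun q => wgt p g H t (get p (H (t + 1)) q) * cow p g H (t + 1) (get p (H (t + 1)) q)

def yh (H : ℕ → List Bool) : ℕ :=
  sumR p.N fun q => cond (allR p.n fun v => adj p g v (get p (H p.T) q v)) (cow p g H p.T (get p (H p.T) q)) 0

def numE (H : ℕ → List Bool) : ℕ := prodR (p.n / 2) (fun i => 2 * i + 1) * (4 * p.n ^ 2 * pw p (p.J * p.T)) ^ p.n *
  yh p g H * prodR p.T fun t => alw p g H (t + 1)

def denE (H : ℕ → List Bool) : ℕ := alw p g H p.T * prodR p.T (rat p g H)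

end Vale.Agent.P308

namespace Vale.Agent.P308

open Vale.Agent.PT Vale.Agent.P328
open Vale.Agent.P317 (bit b2n valU sumR allR mapR valB length_mapR)

instance : Ctx Bool Par := inferInstanceAs (Ctx Bool (ℕ × ℕ × ℕ × ℕ × ℕ × ℕ × ℕ × ℕ × ℕ × ℕ × ℕ × ℕ))

variable {α : Type} [Ctx Bool α] {p : α → Par} {g l c z y : α → List Bool} {i j a b s t u v q k : α → ℕ}
  {H : α → ℕ → List Bool} {f o w X Y : α → ℕ → ℕ}

@[fun_prop] theorem pt_n (hp : PT Bool p) : PT Bool fun x => (p x).n := PT.fst hp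
@[fun_prop] theorem pt_N (hp : PT Bool p) : PT Bool fun x => (p x).N := PT.fst (PT.snd hp)
@[fun_prop] theorem pt_κ (hp : PT Bool p) : PT Bool fun x => (p x).κ := PT.fst (PT.snd (PT.snd hp))
@[fun_prop] theorem pt_s (hp : PT Bool p) : PT Bool fun x => (p x).s := PT.fst (PT.snd (PT.snd (PT.snd hp)))
@[fun_prop] theorem pt_M (hp : PT Bool p) : PT Bool fun x => (p x).M := PT.fst (PT.snd (PT.snd (PT.snd (PT.snd hp))))
@[fun_prop] theorem pt_D (hp : PT Bool p) : PT Bool fun x => (p x).D := PT.fst (PT.snd (PT.snd (PT.snd (PT.snd (PT.snd hp)))))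
@[fun_prop] theorem pt_J (hp : PT Bool p) : PT Bool fun x => (p x).J := PT.fst (PT.snd (PT.snd (PT.snd (PT.snd (PT.snd (PT.snd hp))))))
@[fun_prop] theorem pt_T (hp : PT Bool p) : PT Bool fun x => (p x).T := PT.fst (PT.snd (PT.snd (PT.snd (PT.snd (PT.snd (PT.snd (PT.snd hp)))))))
@[fun_prop] theorem pt_B (hp : PT Bool p) : PT Bool fun x => (p x).B := PT.fst (PT.snd (PT.snd (PT.snd (PT.snd (PT.snd (PT.snd (PT.snd (PT.snd hp))))))))
@[fun_prop] theorem pt_e (hp : PT Bool p) : PT Bool fun x => (p x).e := PT.fst (PT.snd (PT.snd (PT.snd (PT.snd (PT.snd (PT.snd (PT.snd (PT.snd (PT.snd hp)))))))))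
@[fun_prop] theorem pt_kb (hp : PT Bool p) : PT Bool fun x => (p x).kb := PT.fst (PT.snd (PT.snd (PT.snd (PT.snd (PT.snd (PT.snd (PT.snd (PT.snd (PT.snd (PT.snd hp))))))))))
@[fun_prop] theorem pt_ab (hp : PT Bool p) : PT Bool fun x => (p x).ab := (PT.snd (PT.snd (PT.snd (PT.snd (PT.snd (PT.snd (PT.snd (PT.snd (PT.snd (PT.snd (PT.snd hp)))))))))))
@[fun_prop] theorem pt_W (hp : PT Bool p) : PT Bool fun x => (p x).W := by unfold Par.W; fun_prop
@[fun_prop] theorem pt_ib (hp : PT Bool p) : PT Bool fun x => (p x).ib := by unfold Par.ib; fun_prop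
@[fun_prop] theorem pt_cm (hp : PT Bool p) : PT Bool fun x => (p x).cm := by unfold Par.cm; fun_prop
@[fun_prop] theorem pt_cs (hp : PT Bool p) : PT Bool fun x => (p x).cs := by unfold Par.cs; fun_prop

@[fun_prop] theorem pt_dfl (hv : PT Bool v) :
    PT Bool fun x => dfl (v x) := by
  unfold dfl; fun_prop

@[fun_prop] theorem pt_raw (hp : PT Bool p) (hl : PT Bool l) (hq : PT Bool q) (hv : PT Bool v) :
    PT Bool fun x => raw (p x) (l x) (q x) (v x) := by
  unfold raw; fun_prop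

@[fun_prop] theorem pt_okf (hp : PT Bool p) (hf : PT Bool fun x : α × ℕ => f x.1 x.2) :
    PT Bool fun x => okf (p x) (f x) := by
  unfold okf; fun_prop

@[fun_prop] theorem pt_get (hp : PT Bool p) (hl : PT Bool l) (hq : PT Bool q) (hv : PT Bool v) :
    PT Bool fun x => get (p x) (l x) (q x) (v x) := by
  unfold get; fun_prop

@[fun_prop] theorem pt_enc {F : α → ℕ → ℕ → ℕ} (hp : PT Bool p) (hF : PT Bool fun x : (α × ℕ) × ℕ => F x.1.1 x.1.2 x.2) :
    PT Bool fun x => enc (p x) (F x) := by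
  have : PT Bool fun x : α × ℕ => F x.1 (x.2 / (p x.1).n / (p x.1).n) (x.2 / (p x.1).n % (p x.1).n) :=
    hF.comp (g := fun x : α × ℕ => ((x.1, x.2 / (p x.1).n / (p x.1).n), x.2 / (p x.1).n % (p x.1).n)) (by fun_prop)
  exact P317.pt_mapR (by fun_prop) (PT.ble (by fun_prop) this)

@[fun_prop] theorem pt_adj (hp : PT Bool p) (hg : PT Bool g) (hu : PT Bool u) (hv : PT Bool v) :
    PT Bool fun x => adj (p x) (g x) (u x) (v x) := by
  unfold adj; fun_prop

@[fun_prop] theorem pt_pw (hp : PT Bool p) (hj : PT Bool j) :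
    BT fun x => pw (p x) (j x) := by
  unfold pw; fun_prop

@[fun_prop] theorem pt_cw (hp : PT Bool p) (ht : PT Bool t) (hk : PT Bool k) :
    BT fun x => cw (p x) (t x) (k x) := by
  unfold cw; fun_prop

@[fun_prop] theorem pt_aw (hp : PT Bool p) (hg : PT Bool g) (ht : PT Bool t) (hu : PT Bool u) (hv : PT Bool v) :
    BT fun x => aw (p x) (g x) (t x) (u x) (v x) := by
  unfold aw; fun_prop

@[fun_prop] theorem pt_cnt (hp : PT Bool p) (hl : PT Bool l) (hu : PT Bool u) (hv : PT Bool v) :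
    PT Bool fun x => cnt (p x) (l x) (u x) (v x) := by
  unfold cnt; fun_prop

omit [Ctx Bool α] in
theorem upc_le (p : Par) (g : List Bool) (H : ℕ → List Bool) (u v t : ℕ) : upc p g H u v t ≤ t := by
  induction t with
  | zero => rfl
  | succ t ih => exact Nat.add_le_add ih ((show ∀ b, b2n b ≤ 1 by decide) _)

@[fun_prop] theorem pt_upc (hp : PT Bool p) (hg : PT Bool g) (hH : PT Bool fun x : α × ℕ => H x.1 x.2) (hu : PT Bool u) (hv : PT Bool v) (ht : PT Bool t) :
    PT Bool fun x => upc (p x) (g x) (H x) (u x) (v x) (t x) :=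
  PT.natRecN ht (fun x i => upc (p x) (g x) (H x) (u x) (v x) i) (PT.const _)
    (fun x => x.2.2 + b2n (decide (4 * (p x.1).n ^ 2 * cw (p x.1) x.2.1 x.2.2 * cnt (p x.1) (H x.1 x.2.1) (u x.1) (v x.1) <
      (p x.1).N * (aw (p x.1) (g x.1) x.2.1 (u x.1) (v x.1) + cw (p x.1) x.2.1 x.2.2)))) (by fun_prop) (fun _ _ => rfl)
    ⟨t, ht.pb, fun _ _ hi => (upc_le _ _ _ _ _ _).trans hi⟩

@[fun_prop] theorem pt_phi (hp : PT Bool p) (hg : PT Bool g) (hH : PT Bool fun x : α × ℕ => H x.1 x.2) (ht : PT Bool t) (hu : PT Bool u) (hv : PT Bool v) :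
    BT fun x => phi (p x) (g x) (H x) (t x) (u x) (v x) := by
  unfold phi; fun_prop

@[fun_prop] theorem pt_wgt (hp : PT Bool p) (hg : PT Bool g) (hH : PT Bool fun x : α × ℕ => H x.1 x.2) (ht : PT Bool t) (hf : PT Bool fun x : α × ℕ => f x.1 x.2) :
    BT fun x => wgt (p x) (g x) (H x) (t x) (f x) := by
  unfold wgt; fun_prop

@[fun_prop] theorem pt_swp (ha : PT Bool a) (hb : PT Bool b) (hv : PT Bool v) :
    PT Bool fun x => swp (a x) (b x) (v x) := by
  unfold swp; fun_prop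

@[fun_prop] theorem pt_dig (r : ℕ) (hk : PT Bool k) (ha : PT Bool a) :
    PT Bool fun x => dig (k x) (a x) r := by
  unfold dig; fun_prop

@[fun_prop] theorem pt_ev (r : ℕ) (hp : PT Bool p) (ha : PT Bool a) :
    PT Bool fun x => ev (p x) (a x) r := by
  unfold ev; fun_prop

@[fun_prop] theorem pt_sgN (r : ℕ) (hp : PT Bool p) (ha : PT Bool a) (hv : PT Bool v) :
    PT Bool fun x => sgN (p x) (a x) r (v x) := by
  unfold sgN; fun_prop

@[fun_prop] theorem pt_grL (hp : PT Bool p) (ho : PT Bool fun x : α × ℕ => o x.1 x.2) (hw : PT Bool fun x : α × ℕ => w x.1 x.2) (hl : PT Bool l) :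
    PT Bool fun x => grL (p x) (o x) (w x) (l x) := by
  unfold grL; fun_prop

@[fun_prop] theorem pt_orbL (hp : PT Bool p) (ho : PT Bool fun x : α × ℕ => o x.1 x.2) (hw : PT Bool fun x : α × ℕ => w x.1 x.2) (hb : PT Bool b) (ht : PT Bool t) :
    PT Bool fun x => orbL (p x) (o x) (w x) (b x) (t x) :=
  PT.natRec ht (fun x i => orbL (p x) (o x) (w x) (b x) i) (by unfold orbL; fun_prop)
    (fun x => grL (p x.1) (o x.1) (w x.1) x.2.2) (by fun_prop) (fun _ _ => rfl)
    ⟨fun x => (p x).n, PT.pb (by fun_prop), fun x i _ => by cases i <;> simp [orbL, grL]⟩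

@[fun_prop] theorem pt_mixN (hp : PT Bool p) (ho : PT Bool fun x : α × ℕ => o x.1 x.2) (hw : PT Bool fun x : α × ℕ => w x.1 x.2) (ha : PT Bool a) (hX : PT Bool fun x : α × ℕ => X x.1 x.2) (hY : PT Bool fun x : α × ℕ => Y x.1 x.2) (hv : PT Bool v) :
    PT Bool fun x => mixN (p x) (o x) (w x) (a x) (X x) (Y x) (v x) := by
  unfold mixN; fun_prop

@[fun_prop] theorem pt_oN (r : ℕ) (hp : PT Bool p) (hl : PT Bool l) (hi : PT Bool i) (ha : PT Bool a) (hv : PT Bool v) :
    PT Bool fun x => oN (p x) (l x) (i x) (a x) r (v x) := by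
  unfold oN; fun_prop

@[fun_prop] theorem pt_x1 (hp : PT Bool p) (hl : PT Bool l) (hi : PT Bool i) (hj : PT Bool j) (ha : PT Bool a) (hv : PT Bool v) :
    PT Bool fun x => x1 (p x) (l x) (i x) (j x) (a x) (v x) := by
  unfold x1; fun_prop

@[fun_prop] theorem pt_x2 (hp : PT Bool p) (hl : PT Bool l) (hi : PT Bool i) (hj : PT Bool j) (ha : PT Bool a) (hv : PT Bool v) :
    PT Bool fun x => x2 (p x) (l x) (i x) (j x) (a x) (v x) := by
  unfold x2; fun_prop

@[fun_prop] theorem pt_okm (hp : PT Bool p) (hg : PT Bool g) (hH : PT Bool fun x : α × ℕ => H x.1 x.2) (ht : PT Bool t) (hl : PT Bool l) (hz : PT Bool z) (hi : PT Bool i) (hj : PT Bool j) (ha : PT Bool a) (hy : PT Bool y) :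
    PT Bool fun x => okm (p x) (g x) (H x) (t x) (l x) (z x) (i x) (j x) (a x) (y x) := by
  unfold okm; fun_prop

@[fun_prop] theorem pt_mvN (hp : PT Bool p) (hg : PT Bool g) (hH : PT Bool fun x : α × ℕ => H x.1 x.2) (ht : PT Bool t) (hl : PT Bool l) (hz : PT Bool z) (hi : PT Bool i) (hj : PT Bool j) (ha : PT Bool a) (hy : PT Bool y) :
    PT Bool fun x => mvN (p x) (g x) (H x) (t x) (l x) (z x) (i x) (j x) (a x) (y x) := by
  unfold mvN; fun_prop

@[fun_prop] theorem pt_move (hp : PT Bool p) (hg : PT Bool g) (hH : PT Bool fun x : α × ℕ => H x.1 x.2) (ht : PT Bool t) (hl : PT Bool l) (hc : PT Bool c) :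
    PT Bool fun x => move (p x) (g x) (H x) (t x) (l x) (c x) := by
  unfold move; fun_prop

@[fun_prop] theorem pt_sl (hc : PT Bool c) (hk : PT Bool k) (hi : PT Bool i) :
    PT Bool fun x => sl (c x) (k x) (i x) := by
  unfold sl; fun_prop

@[fun_prop] theorem pt_rk (hp : PT Bool p) (hc : PT Bool c) (hv : PT Bool v) :
    PT Bool fun x => rk (p x) (c x) (v x) := by
  unfold rk; fun_prop

@[fun_prop] theorem pt_ini (hp : PT Bool p) (hc : PT Bool c) (hv : PT Bool v) :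
    PT Bool fun x => ini (p x) (c x) (v x) := by
  unfold ini; fun_prop

omit [Ctx Bool α] in
theorem length_run (p : Par) (g : List Bool) (H : ℕ → List Bool) (s : ℕ) (c : List Bool) (r : ℕ) :
    (run p g H s c r).length = p.W := by
  cases r <;> simp [run, move, mvN, enc]

@[fun_prop] theorem pt_run (hp : PT Bool p) (hg : PT Bool g) (hH : PT Bool fun x : α × ℕ => H x.1 x.2) (hs : PT Bool s) (hc : PT Bool c) (ht : PT Bool t) :
    PT Bool fun x => run (p x) (g x) (H x) (s x) (c x) (t x) :=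
  PT.natRec ht (fun x i => run (p x) (g x) (H x) (s x) (c x) i) (by unfold run; fun_prop)
    (fun x => move (p x.1) (g x.1) (H x.1) (min (x.2.1 / (p x.1).B) (s x.1)) x.2.2
      (sl ((c x.1).drop (p x.1).ib) (p x.1).cm x.2.1)) (by fun_prop) (fun _ _ => rfl)
    ⟨fun x => (p x).W, PT.pb (by fun_prop), fun x i _ => (length_run ..).le⟩

@[fun_prop] theorem pt_st (hp : PT Bool p) (hg : PT Bool g) (hs : PT Bool s) (hH : PT Bool fun x : α × ℕ => H x.1 x.2) (hc : PT Bool c) :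
    PT Bool fun x => st (p x) (g x) (s x) (H x) (c x) := by
  unfold st; fun_prop

omit [Ctx Bool α] in
theorem length_trj (p : Par) (g ρ : List Bool) (s : ℕ) : (trj p g ρ s).length = s * p.W := by
  induction s with
  | zero => simp [trj]
  | succ s ih => simp [trj, st, length_run, ih, Nat.succ_mul]

@[fun_prop] theorem pt_trj (hp : PT Bool p) (hg : PT Bool g) (hc : PT Bool c) (ht : PT Bool t) :
    PT Bool fun x => trj (p x) (g x) (c x) (t x) :=
  PT.natRec ht (fun x i => trj (p x) (g x) (c x) i) (PT.const _)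
    (fun x => x.2.2 ++ st (p x.1) (g x.1) x.2.1 (sl x.2.2 (p x.1).W) (sl (c x.1) (p x.1).cs x.2.1))
    (by fun_prop) (fun _ _ => rfl) ⟨fun x => t x * (p x).W, PT.pb (by fun_prop), fun x i hi => by
      rw [length_trj]; exact Nat.mul_le_mul_right _ hi⟩

@[fun_prop] theorem pt_cow (hp : PT Bool p) (hg : PT Bool g) (hH : PT Bool fun x : α × ℕ => H x.1 x.2) (ht : PT Bool t) (hf : PT Bool fun x : α × ℕ => f x.1 x.2) :
    BT fun x => cow (p x) (g x) (H x) (t x) (f x) := by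
  unfold cow; fun_prop

@[fun_prop] theorem pt_alw (hp : PT Bool p) (hg : PT Bool g) (hH : PT Bool fun x : α × ℕ => H x.1 x.2) (ht : PT Bool t) :
    BT fun x => alw (p x) (g x) (H x) (t x) := by
  unfold alw; fun_prop

@[fun_prop] theorem pt_rat (hp : PT Bool p) (hg : PT Bool g) (hH : PT Bool fun x : α × ℕ => H x.1 x.2) (ht : PT Bool t) :
    BT fun x => rat (p x) (g x) (H x) (t x) := by
  unfold rat; fun_prop

@[fun_prop] theorem pt_yh (hp : PT Bool p) (hg : PT Bool g) (hH : PT Bool fun x : α × ℕ => H x.1 x.2) :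
    BT fun x => yh (p x) (g x) (H x) := by
  unfold yh; fun_prop

@[fun_prop] theorem pt_numE (hp : PT Bool p) (hg : PT Bool g) (hH : PT Bool fun x : α × ℕ => H x.1 x.2) :
    BT fun x => numE (p x) (g x) (H x) := by
  unfold numE; fun_prop

@[fun_prop] theorem pt_denE (hp : PT Bool p) (hg : PT Bool g) (hH : PT Bool fun x : α × ℕ => H x.1 x.2) :
    BT fun x => denE (p x) (g x) (H x) := by
  unfold denE; fun_prop

end Vale.Agent.P308
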