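import Mathlib

namespace Vale.Agent.P308

/-- A string function computed by a multi-stack Turing machine with finite alphabets in
polynomial time. -/
def PolyTime (f : List Bool → List Bool) : Prop :=
  ∃ h : Turing.TM2ComputableInPolyTime id id f, ∀ k, Finite (h.tm.Γ k)

/-- Unary code of `n`: `n` ones and a zero. -/
def unary (n : ℕ) : List Bool := List.replicate n true ++ [false]

/-- The code of a graph: the number of vertices in unary, then the adjacency matrix row by row. -/
def code {n : ℕ} (G : SimpleGraph (Fin n)) [DecidableRel G.Adj] : List Bool :=
  unary n ++ List.ofFn fun i : Fin (n * n) => decide (G.Adj i.divNat i.modNat)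

/-- The input string: `k`, `l` and the length of the instance `w` in unary, the instance, and the
random bits. -/
def input (k l : ℕ) (w ρ : List Bool) : List Bool :=
  unary k ++ unary l ++ unary w.length ++ w ++ ρ

/-- The natural number with the given binary digits, least significant digit first. -/
def binVal (l : List Bool) : ℕ := l.foldr Nat.bit 0

/-- The number of perfect matchings of a graph. -/
noncomputable def pmCount {n : ℕ} (G : SimpleGraph (Fin n)) : ℕ :=
  {M : G.Subgraph | M.IsPerfectMatching}.ncard

/-- The string pair `(a, b)` is a fraction in binary within relative error `ε` of `N`. -/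
def Approx (ε : ℚ) (N : ℕ) (a b : List Bool) : Prop :=
  0 < binVal b ∧ (1 - ε) * N ≤ (binVal a : ℚ) / binVal b ∧ (binVal a : ℚ) / binVal b ≤ (1 + ε) * N

end Vale.Agent.P308
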