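import Vale.Agent.P308.Main

/-! Accuracy of the output. -/

namespace Vale.Agent.P308

open Finset Function Real
open Vale.Agent.P328 (prodR)
open Vale.Agent.P317 (bit b2n sumR allR allR_iff)

set_option linter.unusedSectionVars false
set_option linter.unusedSimpArgs false

theorem prod_bd {Z r : ℕ → ℝ} {a : ℝ} (a1 : a ≤ 1) (z : ∀ t, 0 < Z t) (T : ℕ)
    (h : ∀ t < T, |r t - Z t / Z (t + 1)| ≤ a * (Z t / Z (t + 1))) :
    (1 - a) ^ T * (Z 0 / Z T) ≤ ∏ t ∈ range T, r t ∧ ∏ t ∈ range T, r t ≤ (1 + a) ^ T * (Z 0 / Z T) := by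
  induction T with
  | zero => simp [(z 0).ne']
  | succ T ih =>
    obtain ⟨b, c⟩ := ih fun t ht => h t (by omega)
    obtain ⟨d, e⟩ := abs_le.1 (h T (by omega))
    have f : Z 0 / Z (T + 1) = Z 0 / Z T * (Z T / Z (T + 1)) := by field_simp [(z _).ne']
    have g := mul_nonneg (sub_nonneg.2 a1) (div_pos (z T) (z (T + 1))).le
    have g' := mul_nonneg (pow_nonneg (sub_nonneg.2 a1) T) (div_pos (z 0) (z T)).le
    rw [prod_range_succ, pow_succ, pow_succ, f, mul_mul_mul_comm, mul_mul_mul_comm ((1 + a) ^ T)]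
    exact ⟨mul_le_mul b (by linarith) g (g'.trans b), mul_le_mul c (by linarith) (by linarith) (g'.trans (b.trans c))⟩

theorem fin_bd {ε a b g P y : ℝ} (k4 : 0 < ε) (k2 : ε ≤ 1) (a0 : 0 < a) (b0 : 0 < b) (g0 : 0 ≤ g)
    (r1 : (1 - ε / 8) * (a / b) ≤ P) (r2 : P ≤ (1 + ε / 4) * (a / b)) (y3 : |y - g / b| ≤ ε / 8 * (g / b)) :
    (1 - ε) * g ≤ a * y / P ∧ a * y / P ≤ (1 + ε) * g := by
  obtain ⟨y4, y5⟩ := abs_le.1 y3
  have q0 := div_pos a0 b0
  have P0 := lt_of_lt_of_le (mul_pos (by linarith) q0) r1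
  rw [le_div_iff₀ P0, div_le_iff₀ P0]
  have e3 : a * (g / b) = g * (a / b) := by ring
  have f := mul_nonneg g0 q0.le
  constructor
  · nlinarith [mul_le_mul_of_nonneg_left r2 (mul_nonneg (sub_nonneg.2 k2) g0), mul_le_mul_of_nonneg_left y4 a0.le,
      mul_nonneg f k4.le, mul_nonneg f (sq_nonneg ε)]
  · nlinarith [mul_le_mul_of_nonneg_left r1 (mul_nonneg (show 0 ≤ 1 + ε by linarith) g0),
      mul_le_mul_of_nonneg_left y5 a0.le, mul_nonneg f k4.le, mul_nonneg f (mul_nonneg k4.le (sub_nonneg.2 k2))]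

theorem df_eq (j : ℕ) : prodR j (fun i => 2 * i + 1) = df (2 * j) := by
  induction j with
  | zero => rfl
  | succ j ih => rw [prodR, prod_range_succ, ← prodR, ih, mul_comm]; rfl

variable {p : Par} {g : List Bool} {H : ℕ → List Bool} {A G m k l : ℕ} [NeZero p.n] [h2 : Fact (Even p.n)]

theorem cow_eq {f : ℕ → ℕ} {x : Om (Fin p.n)} (h : Rp p f x.1) (t : ℕ) :
    p.N * (WW p g H t x * cow p g H t f) = alw p g H t := by
  simp only [alw, WW, cow, prodR, prod_range, ← prod_mul_distrib, h _, cond_fin]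
  congr 1
  refine prod_congr rfl fun u _ => ?_
  rw [← mul_prod_erase _ _ (mem_univ (x.1 u)), ← mul_prod_erase _ (fun v : Fin p.n => phi p g H t u v)
    (mem_univ (x.1 u)), if_pos rfl, one_mul, prod_congr rfl fun v hv => if_neg (ne_of_mem_erase hv).symm]

namespace Cond

variable (C : Cond p A G m k l)
include C

theorem phi0 (t u v : ℕ) : 0 < phi p g H t u v := by
  have := C.D0
  unfold phi aw pw; positivity

theorem alw0 (t : ℕ) : (0 : ℝ) < alw p g H t := by
  exact_mod_cast Nat.mul_pos C.N0 (prod_pos fun _ _ => prod_pos fun _ _ => C.phi0 _ _ _)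

theorem cow_div (t : ℕ) (l : List Bool) (q : Fin p.N) :
    (cow p g H t (get p l q) : ℝ) / alw p g H t = 1 / WW p g H t (toSt p l q) / p.N := by
  have a := C.alw0 (g := g) (H := H) t
  have : (0 : ℝ) < WW p g H t (toSt p l q) := by exact_mod_cast prod_pos fun _ _ => C.phi0 _ _ _
  have N0 : (0 : ℝ) < p.N := by exact_mod_cast C.N0
  rw [div_div, div_eq_div_iff a.ne' (by positivity), ← cow_eq (rp_get l q)]
  push_cast; simp only [toSt]; ring

set_option maxHeartbeats 800000 in
theorem acc (hG : Gd p g H A (p.T + 1)) : 0 < denE p g H ∧ (1 - 1 / k : ℝ) * ZG p g ≤ numE p g H / denE p g H ∧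
    (numE p g H : ℝ) / denE p g H ≤ (1 + 1 / k) * ZG p g := by
  have n2 : (2 : ℝ) ≤ p.n := by exact_mod_cast C.n2
  have l0 := C.lq0
  have N0 : (0 : ℝ) < p.N := by exact_mod_cast C.N0
  have J1 : (1 : ℝ) ≤ p.J := by exact_mod_cast C.J0
  have k1 : (1 : ℝ) ≤ k := by exact_mod_cast C.k0
  have D0 : (0 : ℝ) < p.D := by exact_mod_cast C.D0
  have A1 : (128 * p.n ^ 3 * p.J * k : ℝ) ≤ A := by exact_mod_cast C.ac
  have A2 : (128 * k : ℝ) ≤ A := le_trans (by
    nlinarith [one_le_mul_of_one_le_of_one_le (one_le_pow₀ (n := 3) (show (1 : ℝ) ≤ p.n by linarith)) J1]) A1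
  have A0 : (0 : ℝ) < A := by linarith
  have S0 := C.S0
  have z := fun t => Z_pos evn (ff_pos (p := p) (g := g) (H := H) t)
  have w := fun t (x : Om (Fin p.n)) => wt_pos (ff_pos (p := p) (g := g) (H := H) t) x.1
  have d := C.del'
  have b0 : 0 < 4 * p.n * (p.J * lq p) := by positivity
  have r := prod_bd (Z := fun t => Z (ff p g H t) ∅) (r := fun t => rat p g H t / alw p g H (t + 1))
    (a := 8 * p.n * (p.J * lq p) / A) ((div_le_one A0).2 (by linarith)) z p.T fun t ht => by
      have a := hG (t + 1) (by omega) (some none)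
      have e1 : Z (ff p g H t) ∅ / Z (ff p g H (t + 1)) ∅ = ∑ y, pi0 (ff p g H (t + 1)) y *
          (wt (ff p g H t) y / wt (ff p g H (t + 1)) y) := by
        rw [Z_ratio evn (ff_pos _)]; simp only [prod_div_distrib, wt]
      have e2 : (rat p g H t : ℝ) / alw p g H (t + 1) = (∑ q, wt (ff p g H t) (toSt p (H (t + 1)) q) /
          wt (ff p g H (t + 1)) (toSt p (H (t + 1)) q)) / p.N := by
        rw [rat, sumR, sum_range]
        push_cast
        simp only [sum_div, mul_div_assoc, C.cow_div, C.wt_eq ht.le, C.wt_eq ht, wgt_eq g H t (rp_get _ _)]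
        exact sum_congr rfl fun q _ => by simp only [toSt]; field_simp
      have e3 : 1 / 2 ≤ Z (ff p g H t) ∅ / Z (ff p g H (t + 1)) ∅ := by
        rw [e1]
        refine le_trans (le_of_eq ?_) (sum_le_sum fun y _ => mul_le_mul_of_nonneg_left
          (show 1 / 2 ≤ _ by linarith [C.wt_step (g := g) (H := H) t y]) (pi0_pos evn (ff_pos _) y).le)
        rw [← sum_mul, sum_pi0 evn (ff_pos _), one_mul]
      rw [e2]
      generalize Z (ff p g H t) ∅ / Z (ff p g H (t + 1)) ∅ = u at *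
      simp only [xi, Nat.add_sub_cancel, ← mul_div_assoc (pi0 _ _) (_ / _), ← sum_div, ← e1, sum_sub_distrib,
        sum_const, card_univ, Fintype.card_fin, nsmul_eq_mul] at a
      rw [← mul_div_assoc, ← sub_div, abs_div, abs_of_pos b0, div_le_iff₀ b0] at a
      rw [← mul_div_cancel_left₀ u N0.ne', ← sub_div, abs_div, abs_of_pos N0, div_le_iff₀ N0,
        mul_div_cancel_left₀ u N0.ne']
      refine a.trans (le_trans (le_of_eq ?_) (mul_le_mul_of_nonneg_right (mul_le_mul_of_nonneg_left e3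
        (div_nonneg (by linarith) A0.le)) N0.le))
      ring
  have u0 : 0 ≤ 8 * p.n * (p.J * lq p) / A := by positivity
  have u1 : p.T * (8 * p.n * (p.J * lq p) / A) ≤ 1 / k / 8 := by
    have : (p.T : ℝ) ≤ 2 * p.n ^ 2 * p.D := by exact_mod_cast C.T2
    have := mul_le_mul this C.lq_bd.2 l0.le (by positivity)
    rw [mul_one_div, mul_div_cancel_right₀ _ D0.ne'] at this
    field_simp
    nlinarith [mul_le_mul_of_nonneg_left this (show (0 : ℝ) ≤ p.n * p.J * k by positivity)]
  have k2 : (1 : ℝ) / k ≤ 1 := (div_le_one (by linarith)).2 k1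
  have k3 : 4 * (1 / A : ℝ) ≤ 1 / k / 8 := by field_simp; linarith
  have k4 : (0 : ℝ) < 1 / k := by positivity
  generalize 8 * p.n * (p.J * lq p) / A = a at *
  have q0 := div_pos (z 0) (z p.T)
  have T1 : (1 : ℝ) ≤ p.T := by
    exact_mod_cast le_trans (Nat.succ_le_of_lt (by have := C.n2; positivity)) C.T1
  have r1 := le_trans (mul_le_mul_of_nonneg_right (le_trans (show 1 - 1 / (k : ℝ) / 8 ≤ _ by linarith)
    (one_add_mul_le_pow (a := -a) (by nlinarith) p.T)) q0.le) r.1
  have r2 := r.2.trans (mul_le_mul_of_nonneg_right (show _ ≤ 1 + 1 / (k : ℝ) / 4 by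
    refine (pow_le_pow_left₀ (by positivity) ((add_comm _ _).trans_le (add_one_le_exp _)) _).trans ?_
    have b : 0 ≤ p.T * a := by positivity
    have := abs_le.1 (abs_exp_sub_one_le (x := p.T * a) (by rw [abs_of_nonneg b]; linarith))
    rw [abs_of_nonneg b] at this
    rw [← exp_nat_mul]; linarith) q0.le)
  have P0 := lt_of_lt_of_le (mul_pos (by linarith) q0) r1
  have y1 : ∑ y, pi0 (ff p g H p.T) y * xi p g H p.T none y = ZG p g / Z (ff p g H p.T) ∅ := by
    rw [ZG, card_filter]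
    push_cast
    rw [sum_div]
    refine sum_congr rfl fun y _ => ?_
    have := w p.T y
    simp only [xi, pi0]
    split_ifs <;> field_simp
    ring
  have y2 : (yh p g H : ℝ) / alw p g H p.T * SS p ^ p.n = (∑ q, xi p g H p.T none (toSt p (H p.T) q)) / p.N := by
    rw [yh, sumR, sum_range]
    push_cast
    simp only [sum_div, sum_mul]
    refine sum_congr rfl fun q _ => ?_
    rw [cond_ite (P := ∀ v : Fin p.n, adj p g v ((toSt p (H p.T) q).1 v)) (by
      simp only [allR_iff, Fin.forall_iff]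
      exact forall₂_congr fun v hv => by rw [show get p (H p.T) q v = _ from rp_get _ _ ⟨v, hv⟩]; rfl), xi]
    split_ifs
    · rw [C.cow_div, C.wt_eq le_rfl]; field_simp
    · simp
  have y3 : |(yh p g H : ℝ) / alw p g H p.T * SS p ^ p.n - ZG p g / Z (ff p g H p.T) ∅| ≤
      1 / k / 8 * (ZG p g / Z (ff p g H p.T) ∅) := by
    rw [y2]
    rcases Nat.eq_zero_or_pos (ZG p g) with h | h
    · have : ∀ x, xi p g H p.T none x = 0 := fun x => if_neg fun a => by
        exact absurd h (card_pos.2 ⟨x, mem_filter.2 ⟨mem_univ x, a⟩⟩).ne'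
      simp [this, h]
    have a := hG p.T (by omega) none
    simp only [y1, sum_sub_distrib, sum_const, card_univ, Fintype.card_fin, nsmul_eq_mul] at a
    have b := (C.sub hG p.T (by omega) le_rfl).pure evn (al_pos _) (by positivity) C.hg.2 C.hg.1
      (le_of_eq (by rw [Fintype.card_fin]; field_simp))
    have c : Z (al p g p.T) ∅ ≤ ZG p g + 1 := by
      have c1 : (Fintype.card (Om (Fin p.n)) : ℝ) * exp (-(p.T * lq p)) ≤ 1 := by
        have : (p.n ^ 2 * (p.D + 1) : ℝ) ≤ p.T := by exact_mod_cast C.T1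
        have := mul_le_mul this C.lq_bd.1 (by positivity) (by positivity)
        rw [mul_one_div, mul_div_cancel_right₀ _ (by positivity)] at this
        rw [exp_neg, ← div_eq_mul_inv, div_le_one (exp_pos _), card_Om]
        refine le_trans (b := (p.n : ℝ) ^ p.n) (by exact_mod_cast df_le _) (le_trans ?_ (exp_le_exp.2 this))
        rw [sq, exp_nat_mul]
        exact pow_le_pow_left₀ (by positivity) (by linarith [add_one_le_exp (p.n : ℝ)]) _
      refine le_trans ?_ (add_le_add_right c1 _)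
      rw [Z, ← sum_coe_sort, ZG, card_filter, ← nsmul_eq_mul, ← card_univ, ← sum_const]
      push_cast
      rw [← sum_add_distrib]
      refine sum_le_sum fun x _ => ?_
      have o : ∀ s : Finset (Fin p.n), ∏ v ∈ s, al p g p.T v (x.1 v) ≤ 1 := fun s =>
        prod_le_one (fun _ _ => (al_pos _ _ _).le) fun _ _ => (C.al_bd _ _ _).2.2.1
      split_ifs with e
      · exact (o _).trans (le_add_of_nonneg_right (exp_pos _).le)
      · obtain ⟨v, hv⟩ := not_forall.1 e
        rw [wt, ← mul_prod_erase _ _ (mem_univ v), al, if_neg hv, zero_add]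
        exact mul_le_of_le_one_right (exp_pos _).le (o _)
    have h' : (1 : ℝ) ≤ ZG p g := by exact_mod_cast h
    have e : 1 / 4 ≤ ZG p g / Z (ff p g H p.T) ∅ := by rw [le_div_iff₀ (z _), ff]; linarith
    generalize (ZG p g : ℝ) / Z (ff p g H p.T) ∅ = u at *
    rw [← mul_div_cancel_left₀ u N0.ne', ← sub_div, abs_div, abs_of_pos N0, div_le_iff₀ N0,
      mul_div_cancel_left₀ u N0.ne', mul_comm _ (p.N : ℝ)]
    exact a.trans (mul_le_mul_of_nonneg_left (by nlinarith) N0.le)
  have a0 := C.alw0 (g := g) (H := H)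
  have a1 : (0 : ℝ) < ∏ t ∈ range p.T, alw p g H (t + 1) := by push_cast; exact prod_pos fun _ _ => a0 _
  have e1 : ((prodR p.T (rat p g H) : ℕ) : ℝ) = (∏ t ∈ range p.T, (rat p g H t : ℝ) / alw p g H (t + 1)) *
      (∏ t ∈ range p.T, alw p g H (t + 1) : ℕ) := by
    rw [prod_div_distrib, prodR, ← Nat.cast_prod, ← Nat.cast_prod, div_mul_cancel₀ _ a1.ne']
  have e2 : (numE p g H : ℝ) / denE p g H = Z (ff p g H 0) ∅ * (yh p g H / alw p g H p.T * SS p ^ p.n) /
      ∏ t ∈ range p.T, (rat p g H t : ℝ) / alw p g H (t + 1) := by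
    have b := C.a0.2
    have := a0 p.T
    rw [numE, denE, df_eq, Nat.two_mul_div_two_of_even h2.out, (pi0_const (by positivity) C.ff0 (san p id)).1,
      card_Om, Nat.cast_mul, Nat.cast_mul (alw _ _ _ _), e1, prodR, SS, Fintype.card_fin, div_pow, mul_pow _ (pw _ _ : ℝ)]
    push_cast at a1 ⊢
    generalize (4 * p.n ^ 2 - p.n + 1 : ℝ) = c at *
    rw [mul_pow]
    field_simp
  exact ⟨by rw [← Nat.cast_pos (α := ℝ), denE, Nat.cast_mul, e1]; exact mul_pos (a0 _) (mul_pos P0 a1),
    e2 ▸ fin_bd k4 k2 (z 0) (z _) (Nat.cast_nonneg _) r1 r2 y3⟩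

end Cond

end Vale.Agent.P308
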