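import Vale.Agent.P308.Est
import Vale.Agent.P308.Defs

/-! Parameters, parsing of the input and the approximation scheme. -/

namespace Vale.Agent.P308

open Finset Vale.Agent.PT Vale.Agent.P328
open Vale.Agent.P317 (bit lead rest Ex Ex_Et Ex_eq_sum pt_take pt_drop)

def mkP (n y s : ℕ) : Par :=
  (n, y ^ 80, 80 * s, s, y, y ^ 98, y ^ 16, n ^ 2 * (y ^ 98 + 1), y ^ 313, 155 * s, y ^ 3, y ^ 123)

theorem cond_mk {n y s k l : ℕ} (hy : y = 2 ^ s) (y1 : 128 ≤ y) (n2 : 2 ≤ n) (ny : n + 1 ≤ y) (k0 : 0 < k)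
    (ky : k ≤ y) (ly : l ≤ y) : Cond (mkP n y s) (y ^ 21) (y ^ 74) (y ^ 3) k l := by
  have sy : s ≤ y := hy ▸ Nat.lt_two_pow_self.le
  have y0 : 0 < y := by omega
  have n1 : n ≤ y := by omega
  have pl : ∀ a b, a ≤ b → y ^ a ≤ y ^ b := fun a b h => Nat.pow_le_pow_right y0 h
  have pe : ∀ a, y ^ a = 2 ^ (a * s) := fun a => by rw [hy, ← pow_mul, mul_comm]
  have c2 : 128 ^ 2 ≤ y ^ 2 := Nat.pow_le_pow_left y1 2
  have c3 : 128 ^ 3 ≤ y ^ 3 := Nat.pow_le_pow_left y1 3
  have su : ∀ a, y ^ a + y ^ a ≤ y ^ (a + 1) := fun a => by rw [pow_succ, ← mul_two]; gcongr; omega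
  have s1 : ∀ a, y ^ a + 1 ≤ y ^ (a + 1) := fun a => le_trans (by gcongr; exact Nat.one_le_pow _ _ y0) (su a)
  have hT : n ^ 2 * (y ^ 98 + 1) ≤ y ^ 101 :=
    le_trans (Nat.mul_le_mul (Nat.pow_le_pow_left n1 2) (s1 98)) (le_of_eq (by ring))
  have hT' : n ^ 2 * (y ^ 98 + 1) + 1 ≤ y ^ 102 := (Nat.add_le_add_right hT 1).trans (s1 _)
  constructor <;> try dsimp only [mkP, Par.n, Par.N, Par.κ, Par.s, Par.M, Par.D, Par.J, Par.T, Par.B, Par.e, Par.kb,
    Par.ab]
  · exact n2
  · positivity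
  · positivity
  · positivity
  · exact k0
  · exact pe _
  · exact hy
  · exact n1
  · exact le_rfl
  · have := Nat.one_le_pow 98 _ y0
    rw [mul_comm 2, mul_assoc]; exact Nat.mul_le_mul_left _ (by omega)
  · calc _ ≤ y * y * y ^ 16 * y ^ 80 := by gcongr; omega
      _ = _ := by ring
  · calc _ ≤ y ^ 3 * y ^ 14 := by gcongr; omega
      _ ≤ _ := by rw [← pow_add]; exact pl _ _ (by norm_num)
  · calc _ ≤ y ^ 3 * y ^ 14 * y ^ 16 := by gcongr; omega
      _ ≤ _ := by rw [← pow_add, ← pow_add]; exact pl _ _ (by norm_num)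
  · calc _ ≤ y ^ 3 * y ^ 13 := by gcongr; omega
      _ = _ := by ring
  · calc _ ≤ y * y ^ 3 * y ^ 16 * y := by gcongr
      _ = _ := by ring
  · calc _ ≤ y ^ 26 * (y * y ^ 2 * y ^ 8 * (y * y ^ 5) ^ 6 + 1) := by gcongr; omega
      _ = y ^ 26 * (y ^ 47 + 1) := by ring
      _ ≤ y ^ 26 * y ^ (47 + 1) := Nat.mul_le_mul_left _ (s1 _)
      _ = _ := by ring
  · calc _ ≤ y * y ^ 3 * y ^ 74 := by gcongr; omega
      _ = y ^ 78 := by ring
      _ ≤ _ := pl _ _ (by norm_num)
  · calc _ ≤ y * y ^ 74 * y ^ 80 := by gcongr; omega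
      _ = _ := by rw [← pe]; ring
  · rw [← pe]
    calc _ ≤ y * y ^ 3 * y ^ 155 * y ^ 74 * y ^ 80 := by gcongr; omega
      _ = _ := by ring
  · calc _ ≤ y * y ^ 3 * (y ^ 21) ^ 2 := by gcongr; omega
      _ = y ^ 46 := by ring
      _ ≤ _ := pl _ _ (by norm_num)
  · calc _ ≤ y ^ 2 * y ^ y * y ^ (98 + 1) := Nat.mul_le_mul (Nat.mul_le_mul (Nat.pow_le_pow_left n1 _)
          ((Nat.pow_le_pow_left n1 _).trans (pl _ _ n1))) (s1 _)
      _ = 2 ^ ((y + 101) * s) := by rw [← pe]; ring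
      _ ≤ _ := Nat.pow_le_pow_right (by norm_num) (by nlinarith)
  · have a : 2 * y ^ 16 * (n ^ 2 * (y ^ 98 + 1)) ≤ y ^ 118 :=
      calc _ ≤ y * y ^ 16 * y ^ 101 := by gcongr; omega
        _ = _ := by ring
    generalize 2 * y ^ 16 * (n ^ 2 * (y ^ 98 + 1)) = j at a
    have b : (3 + 99 * j) * (2 * n) * s < y ^ 123 :=
      calc _ ≤ (y ^ 118 + 99 * y ^ 118) * (y * y) * y := by
            gcongr
            exacts [le_trans (by omega) (y1.trans (Nat.le_self_pow (by norm_num) _)), by omega]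
        _ = 100 * y ^ 121 := by ring
        _ < y * y ^ 121 := by gcongr; omega
        _ = y ^ 122 := by ring
        _ ≤ _ := pl _ _ (by norm_num)
    calc _ ≤ (y * y ^ 2 * (y ^ (98 + 1)) ^ j) ^ (2 * n) := by gcongr; exacts [by omega, s1 _]
      _ = 2 ^ ((3 + 99 * j) * (2 * n) * s) := by rw [← pe, ← pow_mul, ← pow_succ', ← pow_add, ← pow_mul]
      _ < _ := Nat.pow_lt_pow_right (by norm_num) b
  · have a : 2 * n ^ 2 + 5 ≤ y ^ 415 := le_trans (by nlinarith [Nat.pow_le_pow_left n1 2]) (pl 3 _ (by norm_num))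
    calc _ ≤ y ^ 102 * (y ^ 415 + y ^ 102 * y ^ 313) * 2 ^ y := by gcongr; norm_num
      _ ≤ y ^ 102 * y ^ (415 + 1) * 2 ^ y := by rw [← pow_add y 102]; gcongr; exact su _
      _ = 2 ^ (518 * s + y) := by rw [pow_add 2, ← pe, ← pow_add]
      _ ≤ _ := Nat.pow_le_pow_right (by norm_num) (by nlinarith)

variable (z : List Bool)

def sZ : ℕ := (z.length + 128).size
def nZ : ℕ := lead (rest (rest (rest z)))
def gZ : List Bool := rest (rest (rest (rest z)))
def pZ : Par := mkP (nZ z) (2 ^ sZ z) (sZ z)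
def cuZ : ℕ := lead z + 1 + (lead (rest z) + 1) + (lead (rest (rest z)) + 1) + lead (rest (rest z))
def hist (ρ : List Bool) : ℕ → List Bool := sl (trj (pZ z) (gZ z) ρ ((pZ z).T + 1)) (pZ z).W
def nm (ρ : List Bool) : ℕ :=
  cond (Nat.beq (nZ z % 2) 1) 0 (cond (Nat.beq (nZ z) 0) 1 (numE (pZ z) (gZ z) (hist z ρ)))
def dn (ρ : List Bool) : ℕ :=
  cond (Nat.beq (nZ z % 2) 1) 1 (cond (Nat.beq (nZ z) 0) 1 (denE (pZ z) (gZ z) (hist z ρ)))
def numF : List Bool := (nm (z.take (cuZ z)) (z.drop (cuZ z))).bits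
def denF : List Bool := (dn (z.take (cuZ z)) (z.drop (cuZ z))).bits

section

variable {α : Type} [Ctx Bool α] {z ρ : α → List Bool} {n y s : α → ℕ}

theorem pt_mkP (hn : PT Bool n) (hy : PT Bool y) (hs : PT Bool s) : PT Bool fun a => mkP (n a) (y a) (s a) := by
  have : PT Bool fun a => (n a, y a ^ 80, 80 * s a, s a, y a, y a ^ 98, y a ^ 16, n a ^ 2 * (y a ^ 98 + 1),
    y a ^ 313, 155 * s a, y a ^ 3, y a ^ 123) := by fun_prop
  exact this

@[fun_prop] theorem pt_nZ (hz : PT Bool z) : PT Bool fun a => nZ (z a) := by unfold nZ; fun_prop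

@[fun_prop] theorem pt_gZ (hz : PT Bool z) : PT Bool fun a => gZ (z a) := by unfold gZ; fun_prop

@[fun_prop] theorem pt_pZ (hz : PT Bool z) : PT Bool fun a => pZ (z a) := by
  have hs : PT Bool fun a => sZ (z a) := P317.pt_size (by fun_prop)
  refine pt_mkP (by fun_prop) ((BT.pow2 hs).toU (i := fun a => 2 * ((z a).length + 128)) (by fun_prop) fun a => ?_) hs
  obtain ⟨j, hj⟩ : ∃ j, sZ (z a) = j + 1 := ⟨_, (Nat.succ_pred (Nat.size_pos.2 (by omega)).ne').symm⟩
  have : 2 ^ j ≤ (z a).length + 128 := Nat.lt_size.1 (by rw [← sZ]; omega)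
  rw [hj, pow_succ]; omega

theorem bt_out (hz : PT Bool z) (hρ : PT Bool ρ) : (BT fun a => nm (z a) (ρ a)) ∧ BT fun a => dn (z a) (ρ a) := by
  have : PT Bool fun x : α × ℕ => hist (z x.1) (ρ x.1) x.2 := by unfold hist; fun_prop
  have a := pt_numE (H := fun a => hist (z a) (ρ a)) (pt_pZ hz) (pt_gZ hz) this
  have b := pt_denE (H := fun a => hist (z a) (ρ a)) (pt_pZ hz) (pt_gZ hz) this
  exact ⟨BT.cond' (by fun_prop) (BT.const _) (BT.cond' (by fun_prop) (BT.const _) a),
    BT.cond' (by fun_prop) (BT.const _) (BT.cond' (by fun_prop) (BT.const _) b)⟩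

end

theorem pt_out : PT Bool numF ∧ PT Bool denF := by
  have h : PT Bool cuZ := by unfold cuZ; fun_prop
  obtain ⟨a, b⟩ := bt_out (pt_take PT.id' h) (pt_drop PT.id' h)
  exact ⟨a.bits.congr fun _ => by rw [numF], b.bits.congr fun _ => by rw [denF]⟩

theorem poly_of {f : List Bool → List Bool} (h : PT Bool f) : PolyTime f :=
  PT.toTM2 id id f h fun _ => rfl

theorem lead_un (k : ℕ) (z : List Bool) : lead (unary k ++ z) = k := by
  induction k with
  | zero => simp [lead, unary]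
  | succ k ih =>
    simp only [lead, unary, List.replicate_succ, List.cons_append, List.foldr_cons, cond_true] at ih ⊢
    rw [ih]

theorem length_un (k : ℕ) : (unary k).length = k + 1 := by simp [unary]

theorem rest_un (k : ℕ) (z : List Bool) : rest (unary k ++ z) = z := by
  rw [rest, lead_un]
  exact List.drop_left' (length_un k)

theorem binVal_bits (a : ℕ) : binVal a.bits = a := by
  induction a using Nat.binaryRec' with
  | zero => rfl
  | bit b n h ih => rw [Nat.bits_append_bit n b h, binVal, List.foldr_cons, ← binVal, ih]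

theorem length_input (k l : ℕ) (w : List Bool) : (input k l w []).length = k + l + 2 * w.length + 3 := by
  simp only [input, List.length_append, length_un, List.length_nil]; omega

theorem cut_input (k l : ℕ) (w ρ : List Bool) :
    (input k l w ρ).take (cuZ (input k l w ρ)) = input k l w [] ∧
      (input k l w ρ).drop (cuZ (input k l w ρ)) = ρ := by
  have e : cuZ (input k l w ρ) = (input k l w []).length := by
    rw [length_input]; simp only [cuZ, input, List.append_assoc, lead_un, rest_un]; omega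
  have e2 : input k l w ρ = input k l w [] ++ ρ := by simp [input]
  rw [e, e2]
  exact ⟨List.take_left' rfl, List.drop_left' rfl⟩

theorem exists_poly : ∃ P : Polynomial ℕ, ∀ (k l : ℕ) (w : List Bool),
    ((pZ (input k l w [])).T + 1) * (pZ (input k l w [])).cs ≤ P.eval (w.length + k + l) := by
  have : PT Bool fun z : List Bool => ((pZ z).T + 1) * (pZ z).cs := by fun_prop
  obtain ⟨c, d, h⟩ := this.pb
  refine ⟨Polynomial.C c * (2 * Polynomial.X + 4) ^ d, fun k l w => (h _).trans ?_⟩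
  simp only [Polynomial.eval_mul, Polynomial.eval_C, Polynomial.eval_pow, Polynomial.eval_add,
    Polynomial.eval_X, Polynomial.eval_ofNat, size_list, length_input]
  exact Nat.mul_le_mul_left _ (Nat.pow_le_pow_left (by omega) _)

theorem pm_eq {n : ℕ} (G : SimpleGraph (Fin n)) [DecidableRel G.Adj] :
    pmCount G = (univ.filter fun x : Om (Fin n) => ∀ v, G.Adj v (x.1 v)).card := by
  rw [pmCount, ← Set.ncard_coe_finset]
  refine (Set.ncard_congr (fun x hx => ⟨Set.univ, fun u v => x.1 u = v, fun h => h ▸ (mem_filter.1 hx).2 _,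
    fun _ => trivial, ⟨fun u v h => h ▸ (mem_Iv0.1 x.2).1 u⟩⟩) (fun x hx => ?_) (fun x y _ _ e => ?_)
    fun M hM => ?_).symm
  · exact SimpleGraph.Subgraph.isPerfectMatching_iff.2 fun v => ⟨_, rfl, fun _ h => Eq.symm h⟩
  · exact Subtype.ext (funext fun v => (congrFun (congrFun (congrArg (·.Adj) e) v) _).mpr rfl)
  · choose m h1 h2 using SimpleGraph.Subgraph.isPerfectMatching_iff.1 hM
    refine ⟨⟨m, mem_Iv0.2 ⟨fun v => (h2 _ _ (h1 v).symm).symm, fun v => (h1 v).ne.symm⟩⟩,
      mem_filter.2 ⟨mem_univ _, fun v => M.adj_sub (h1 v)⟩, ?_⟩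
    ext u v
    · simpa using hM.2 u
    · exact ⟨fun h => h ▸ h1 u, fun h => (h2 u v h).symm⟩

theorem mkP_n (n y s : ℕ) : (mkP n y s).n = n := rfl

theorem main {p : Par} {A G' m k l s : ℕ} (C : Cond p A G' m k l) (he : Even p.n) (G : SimpleGraph (Fin p.n))
    [DecidableRel G.Adj] {g : List Bool} (hg : ∀ u v : Fin p.n, adj p g u v = decide (G.Adj u v))
    (hs : (p.T + 1) * p.cs ≤ s) {ε : ℚ} (hε : 1 / (k : ℚ) ≤ ε) : (1 - 1 / 2 ^ l : ℝ) * 2 ^ s ≤
      {ρ : Fin s → Bool | Approx ε (pmCount G) (numE p g (sl (trj p g (List.ofFn ρ) (p.T + 1)) p.W)).bits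
        (denE p g (sl (trj p g (List.ofFn ρ) (p.T + 1)) p.W)).bits}.ncard := by
  classical
  have : NeZero p.n := ⟨by have := C.n2; omega⟩
  have := Fact.mk he
  have f := (C.fail (g := g) _ le_rfl).trans (c := 1 / 2 ^ l) (by
    rw [← mul_div_assoc, div_le_div_iff₀ (by positivity) (by positivity), one_mul]
    exact_mod_cast C.hf)
  rw [← Ex_Et _ _ _ _ s hs] at f
  have f2 := mul_le_mul_of_nonneg_right f (show (0 : ℝ) ≤ 2 ^ s by positivity)
  rw [Ex_eq_sum] at f2
  rw [Set.ncard_eq_toFinset_card', Set.toFinset_ofPred, card_filter]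
  push_cast
  have : (2 : ℝ) ^ s = ∑ ρ : Fin s → Bool, 1 := by simp
  rw [sub_mul, one_mul, sub_le_iff_le_add]
  refine le_trans ?_ (add_le_add_right f2 _)
  rw [← sum_add_distrib, this]
  refine sum_le_sum fun ρ _ => ?_
  split_ifs with a1 a2 a2
  · simp
  · simp
  · refine absurd ?_ a1
    obtain ⟨g1, g2, g3⟩ := C.acc a2
    rw [Approx, binVal_bits, binVal_bits, sl_trj, pm_eq]
    simp only [ZG, hg, decide_eq_true_eq] at g2 g3
    have hε' : (1 : ℝ) / k ≤ ε := by simpa using (Rat.cast_le (K := ℝ)).2 hε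
    refine ⟨g1, (Rat.cast_le (K := ℝ)).1 ?_, (Rat.cast_le (K := ℝ)).1 ?_⟩ <;> push_cast
    · exact (mul_le_mul_of_nonneg_right (by linarith) (Nat.cast_nonneg _)).trans g2
    · exact g3.trans (mul_le_mul_of_nonneg_right (by linarith) (Nat.cast_nonneg _))
  · simp

theorem fpras : ∃ P : Polynomial ℕ, ∀ (n : ℕ) (G : SimpleGraph (Fin n)) [DecidableRel G.Adj] (k l : ℕ) (ε : ℚ),
    1 ≤ k → 1 / (k : ℚ) ≤ ε → (1 - 1 / 2 ^ l : ℝ) * 2 ^ P.eval ((code G).length + k + l) ≤
      {ρ : Fin (P.eval ((code G).length + k + l)) → Bool | Approx ε (pmCount G)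
        (numF (input k l (code G) (List.ofFn ρ))) (denF (input k l (code G) (List.ofFn ρ)))}.ncard := by
  obtain ⟨P, hP⟩ := exists_poly
  refine ⟨P, fun n G _ k l ε hk hε => ?_⟩
  have h2 := hP k l (code G)
  have p1 : nZ (input k l (code G) []) = n := by simp only [nZ, input, code, List.append_assoc, rest_un, lead_un]
  have p2 : ∀ u v : Fin n, bit (gZ (input k l (code G) [])) (u * n + v) = decide (G.Adj u v) := fun u v => by
    have : u * n + v < n * n := by nlinarith [u.2, v.2]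
    simp only [gZ, input, code, List.append_assoc, rest_un, List.append_nil, bit]
    rw [List.getD_eq_getElem _ _ (by simpa), List.getElem_ofFn]
    congr <;> ext
    · simp [mul_comm _ n, Nat.mul_add_div u.pos, Nat.div_eq_of_lt v.2]
    · simp [Nat.mod_eq_of_lt v.2]
  have p3 : k + l + n ≤ (input k l (code G) []).length := by
    simp only [length_input, code, List.length_append, length_un]; omega
  have e0 : 0 ≤ ε := le_trans (by positivity) hε
  simp only [numF, denF, cut_input, nm, dn, hist]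
  generalize P.eval ((code G).length + k + l) = s at *
  generalize input k l (code G) [] = z at *
  have tr : ∀ a : ℕ, pmCount G = a → (1 - 1 / 2 ^ l : ℝ) * 2 ^ s ≤
      {ρ : Fin s → Bool | Approx ε (pmCount G) a.bits (Nat.bits 1)}.ncard := fun a ha => by
    have : Approx ε (pmCount G) a.bits (Nat.bits 1) := by
      have : (0 : ℚ) ≤ ε * a := by positivity
      rw [Approx, binVal_bits, binVal_bits, ha, Nat.cast_one, div_one]
      exact ⟨one_pos, by linarith, by linarith⟩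
    simp only [this]
    simp [Set.ncard_univ, mul_le_of_le_one_left]
  rw [p1]
  rcases Nat.even_or_odd n with he | ho
  · rw [Nat.even_iff.1 he]
    rcases Nat.eq_zero_or_pos n with rfl | hn
    · exact tr 1 (by rw [pm_eq]; simp [card_Iv 0, df])
    have y1 : z.length + 128 < 2 ^ sZ z := Nat.lt_size_self _
    have C := cond_mk (n := nZ z) (k := k) (l := l) (rfl : 2 ^ sZ z = _) (by omega)
      (by obtain ⟨j, hj⟩ := he; omega) (by omega) hk (by omega) (by omega)
    rw [← pZ] at C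
    have hp : (pZ z).n = n := by rw [pZ, mkP_n, p1]
    rw [show Nat.beq n 0 = false from Bool.eq_false_iff.2 (by simp; omega)]
    generalize pZ z = p at *
    subst hp
    exact main C he G p2 h2 hε
  · rw [Nat.odd_iff.1 ho]
    refine tr 0 ?_
    rw [pm_eq, card_eq_zero, eq_empty_iff_forall_notMem]
    intro x
    have := (df_pos n).1 (card_Iv n (∅ : Finset (Fin n)) (by simp) ▸ card_pos.2 ⟨_, x.2⟩)
    exact absurd this (Nat.not_even_iff_odd.2 ho)

end Vale.Agent.P308
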