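import Vale.Agent.P308.Tri

/-! The effect of switching along an arc does not depend on the context. -/

namespace Vale.Agent.P308

open Finset Function

set_option linter.unusedSectionVars false

variable {V : Type} [Fintype V] [DecidableEq V]

def Le (o X : V → V) : Prop := ∀ u, o u ≠ u → X u = o u

open Classical in
noncomputable def cl (o : V → V) : V → V := if h : ∃ X ∈ Iv ∅, Le o X then h.choose else o

def cut (m : V → V) (A B : Finset V) : V → V :=
  fun v => if (v ∈ A ↔ m v ∈ A) ∧ (v ∈ B ↔ m v ∈ B) then m v else v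

def tw (I F : V → V) (U : Finset V) : V → V := mix (cut I U U) (cut F U U) U

def Mv (z z' : (V → V) × (V → V)) : Prop := ∃ o y b, Involutive o ∧ Involutive y ∧ Le o z.1 ∧ Le y z.2 ∧
  Le (sw b (o, y)).1 z'.1 ∧ Le (sw b (o, y)).2 z'.2 ∧ (fx o ∪ fx y).card ≤ 6

def Dd (f : (V → V) → ℝ) (z z' : (V → V) × (V → V)) : ℝ := f z'.1 + f z'.2 - f z.1 - f z.2

def PP : Finset ((V → V) × (V → V)) := Iv ∅ ×ˢ Iv ∅

def W2 (φ : V → V → ℝ) (z : (V → V) × (V → V)) : ℝ := wt φ z.1 * wt φ z.2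

open Classical in
noncomputable def En (φ : V → V → ℝ) (f : (V → V) → ℝ) : ℝ :=
  ∑ z ∈ PP, ∑ z' ∈ PP, if Mv z z' then min (W2 φ z) (W2 φ z') * Dd f z z' ^ 2 else 0

structure Tri (E : V → V → Prop) (a b : V) (p : ((V → V) × (V → V)) × Finset V × Finset V) : Prop where
  pp : p.1 ∈ PP
  dis : Disjoint p.2.1 p.2.2
  cr : ∀ m, m = p.1.1 ∨ m = p.1.2 → ∀ u, cut m p.2.1 p.2.2 u = u → E u (m u)
  oa : p.2.1 = orb (cut p.1.1 p.2.1 p.2.2) (cut p.1.2 p.2.1 p.2.2) a
  ob : p.2.2 = orb (cut p.1.1 p.2.1 p.2.2) (cut p.1.2 p.2.1 p.2.2) b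

noncomputable def dif (f : (V → V) → ℝ) (z : (V → V) × (V → V)) (U B : Finset V) : ℝ :=
  f (cl (tw z.1 z.2 (U ∪ B))) - f (cl (tw z.1 z.2 U))

variable {ψ : V → V → ℝ} {o X Y m I F : V → V} {A B U H : Finset V} {θ κ : ℝ}

theorem Le.trans (h1 : Le o X) (h2 : Le X Y) : Le o Y := fun u hu => by
  rw [h2 u (by rwa [h1 u hu]), h1 u hu]

theorem cl_spec (hV : Even (Fintype.card V)) (ho : Involutive o) : cl o ∈ Iv ∅ ∧ Le o (cl o) := by
  have : ∃ X ∈ Iv ∅, Le o X := by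
    obtain ⟨J, hJ⟩ : (Iv (fx o)ᶜ).Nonempty := by
      rw [← card_pos, card_Iv _ _ rfl, df_pos, compl_compl]
      have := even_moved ho
      rwa [← card_add_card_compl (fx o), Nat.even_add, iff_true_intro this, iff_true] at hV
    have h := mem_Iv.1 hJ
    refine ⟨mix o J (fx o), ?_, fun u hu => by simp [mix, hu]⟩
    have := mix_Iv (mem_Iv.2 ⟨ho, rfl⟩) hJ (D := fx o) fun u hu => ⟨by rwa [mem_fx.1 hu], by
      by_contra h1
      have h2 := mem_fx.1 (h.2 ▸ mem_compl.2 h1)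
      rw [h.1 u] at h2
      exact h1 (h2 ▸ hu)⟩
    rwa [sdiff_self, bot_eq_empty, empty_union, inter_comm, ← sdiff_eq_inter_compl, sdiff_self] at this
  rw [cl, dif_pos this]
  exact this.choose_spec

theorem cl_eq (hV : Even (Fintype.card V)) (ho : Involutive o) (hX : X ∈ Iv ∅) (h : Le o X) {a b : V}
    (hf : ∀ u, o u = u → u = a ∨ u = b) : cl o = X := by
  obtain ⟨h1, h2⟩ := cl_spec hV ho
  generalize cl o = Y at h1 h2
  simp only [mem_Iv, Finset.ext_iff, mem_fx, notMem_empty, iff_false] at h1 hX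
  funext u
  by_cases hu : o u = u
  · have e : ∀ Y : V → V, Involutive Y → Le o Y → o (Y u) = Y u := fun Y i l => by
      by_contra hc
      have := l _ hc
      rw [i u] at this
      exact hc (by rw [← this]; nth_rewrite 1 [← hu, this]; rw [ho])
    have := hf _ (e X hX.1 h)
    have := hf _ (e Y h1.1 h2)
    have := hf _ hu
    have := h1.2 u
    have := hX.2 u
    grind
  · rw [h2 u hu, h u hu]

attribute [irreducible] cl

theorem inv_cut (hm : Involutive m) : Involutive (cut m A B) := fun v => by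
  have := hm v
  simp only [cut]; grind

theorem inv_tw (hI : Involutive I) (hF : Involutive F) : Involutive (tw I F U) :=
  inv_mix (inv_cut hI) (inv_cut hF) fun u hu => by simp only [cut]; grind

theorem wt_le (h0 : ∀ u v, 0 < ψ u v) {c : ℝ} (hc : 1 ≤ c) (hH : H.card ≤ 6)
    (h : ∀ u, X u = Y u ∨ u ∈ H ∧ ψ u (X u) ≤ c * ψ u (Y u)) : wt ψ X ≤ c ^ 6 * wt ψ Y := by
  refine le_trans ?_ (mul_le_mul_of_nonneg_right (pow_le_pow_right₀ hc hH) (wt_pos h0 Y).le)
  rw [← prod_const, ← Fintype.prod_ite_mem, wt, wt, ← prod_mul_distrib]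
  refine prod_le_prod (fun _ _ => (h0 _ _).le) fun u _ => ?_
  rcases h u with h | h
  · rw [h]; split_ifs
    exacts [le_mul_of_one_le_left (h0 _ _).le hc, by simp]
  · rw [if_pos h.1]; exact h.2

def OO (H : Finset V) : Finset (V → V) := univ.filter fun o => (∀ v, o (o v) = v) ∧ fx o ⊆ H

theorem mem_OO : o ∈ OO H ↔ Involutive o ∧ fx o ⊆ H := by simp [OO, Involutive]

theorem mix_OO (hX : X ∈ OO H) (hY : Y ∈ OO H) (h : Cl X Y U) : mix X Y U ∈ OO H := by
  rw [mem_OO] at *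
  exact ⟨inv_mix hX.1 hY.1 h, fx_mix.trans_subset (union_subset (sdiff_subset.trans hX.2)
    (inter_subset_left.trans hY.2))⟩

abbrev TP (V : Type) := ((V → V) × (V → V)) × Finset V × Finset V

def ci (p : TP V) : V → V := cut p.1.1 p.2.1 p.2.2

def cf (p : TP V) : V → V := cut p.1.2 p.2.1 p.2.2

def gc (H : Finset V) (p : TP V) : Finset (V → V) := (OO H).filter fun y => ∀ u ∈ p.2.2, y u = cf p u

open Classical in
noncomputable def hh (ψ : V → V → ℝ) (θ : ℝ) (f : (V → V) → ℝ) (o y : V → V) : ℝ :=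
  ∑ z ∈ PP, ∑ z' ∈ PP, if Le o z.1 ∧ Le y z.2 ∧ Mv z z' ∧
    wt ψ o * wt ψ y ≤ (1 / θ) ^ 12 * min (W2 ψ z) (W2 ψ z') then Dd f z z' ^ 2 else 0

theorem hh_nn (f : (V → V) → ℝ) (o y : V → V) : 0 ≤ hh ψ θ f o y :=
  sum_nonneg fun _ _ => sum_nonneg fun _ _ => by positivity

variable {E : V → V → Prop} {a b : V} {p : TP V}

theorem Tri.iv (T : Tri E a b p) : Involutive p.1.1 ∧ Involutive p.1.2 :=
  ⟨(mem_Iv.1 (mem_product.1 T.pp).1).1, (mem_Iv.1 (mem_product.1 T.pp).2).1⟩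

theorem Tri.oo (T : Tri E a b p) (hE : ∀ u v, E u v → u ∈ H) : ci p ∈ OO H ∧ cf p ∈ OO H :=
  ⟨mem_OO.2 ⟨inv_cut T.iv.1, fun u hu => hE _ _ (T.cr _ (Or.inl rfl) u (mem_fx.1 hu))⟩,
    mem_OO.2 ⟨inv_cut T.iv.2, fun u hu => hE _ _ (T.cr _ (Or.inr rfl) u (mem_fx.1 hu))⟩⟩

theorem Tri.ob' (T : Tri E a b p) (hU : Disjoint U p.2.2) {y : V → V} (hy : y ∈ gc H p) :
    orb (mix (ci p) (cf p) U) y b = p.2.2 := by
  have e : ∀ u ∈ p.2.2, mix (ci p) (cf p) U u = ci p u ∧ y u = cf p u := fun u hu =>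
    ⟨if_neg (disjoint_right.1 hU hu), (mem_filter.1 hy).2 u hu⟩
  have c := orb_cl (ci p) (cf p) b
  have s : orb (mix (ci p) (cf p) U) y b ⊆ p.2.2 := orb_min (T.ob ▸ mem_orb _ _ _) fun u hu => by
    rw [(e u hu).1, (e u hu).2]; rw [T.ob] at hu ⊢; exact c u hu
  refine s.antisymm (T.ob.subset.trans (orb_min (mem_orb _ _ _) fun u hu => ?_))
  have := orb_cl _ _ _ u hu
  rwa [(e u (s hu)).1, (e u (s hu)).2] at this

theorem Tri.cc (T : Tri E a b p) (hU : U = p.2.1 ∨ U = ∅) : Cl (ci p) (cf p) U ∧ Disjoint U p.2.2 := by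
  rcases hU with rfl | rfl
  exacts [⟨by rw [T.oa]; exact orb_cl _ _ _, T.dis⟩, by simp [Cl]]

theorem s1 (hV : Even (Fintype.card V)) (hd : ∀ v, ψ v v = 1) (h1 : ∀ u v, θ ≤ ψ u v) (t0 : 0 < θ)
    (hH : H.card ≤ 6) (hE : ∀ u v, E u v → u ∈ H) (f : (V → V) → ℝ) (T : Tri E a b p)
    (hU : U = p.2.1 ∨ U = ∅) {y : V → V} (hy : y ∈ gc H p) :
    (dif f p.1 U p.2.2 + (f (cl (mix y (ci p) p.2.2)) - f (cl y))) ^ 2 ≤ hh ψ θ f (mix (ci p) (cf p) U) y := by
  classical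
  have h0 : ∀ u v, 0 < ψ u v := fun u v => t0.trans_le (h1 u v)
  have t1 : 1 ≤ 1 / θ := by rw [le_div_iff₀ t0, one_mul, ← hd a]; exact h1 a a
  have w0 := wt_pos h0
  have up : ∀ o ∈ OO H, ∀ X, Le o X → wt ψ o ≤ (1 / θ) ^ 6 * wt ψ X := fun o ho X hX =>
    wt_le h0 t1 hH fun u => by
      by_cases hu : o u = u
      · refine Or.inr ⟨(mem_OO.1 ho).2 (mem_fx.2 hu), ?_⟩
        rw [hu, hd, one_div_mul_eq_div, le_div_iff₀ t0, one_mul]; exact h1 _ _
      · exact Or.inl (hX u hu).symm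
  have hy' := mem_filter.1 hy
  have di := disjoint_left.1 T.dis
  have e := T.ob' (T.cc hU).2 hy
  have o1 : mix (ci p) (cf p) U ∈ OO H := mix_OO (T.oo hE).1 (T.oo hE).2 (T.cc hU).1
  have c := orb_cl (mix (ci p) (cf p) U) y b
  have o2 := mix_OO o1 hy'.1 c
  have o3 := mix_OO hy'.1 o1 fun u hu => (c u hu).symm
  have e3 : mix y (mix (ci p) (cf p) U) p.2.2 = mix y (ci p) p.2.2 := by
    funext u; simp only [mix]; grind
  rw [e] at o2 o3
  have c1 := cl_spec hV (inv_tw (U := U) T.iv.1 T.iv.2)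
  have c2 := cl_spec hV (mem_OO.1 hy'.1).1
  have c3 := cl_spec hV (inv_tw (U := U ∪ p.2.2) T.iv.1 T.iv.2)
  have c4 := cl_spec hV (mem_OO.1 o3).1
  have l1 : Le (mix (ci p) (cf p) U) (cl (tw p.1.1 p.1.2 U)) := Le.trans (fun u => by
    simp only [mix, tw, cut, ci, cf]; grind) c1.2
  have l3 : Le (mix (mix (ci p) (cf p) U) y p.2.2) (cl (tw p.1.1 p.1.2 (U ∪ p.2.2))) := Le.trans (fun u => by
    have := hy'.2 u
    simp only [mix, tw, cut, ci, cf, mem_union] at this ⊢; grind) c3.2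
  refine le_trans ?_ (single_le_sum (fun _ _ => sum_nonneg fun _ _ => by positivity)
    (mem_product.2 ⟨c1.1, c2.1⟩ : (_, _) ∈ PP))
  refine le_trans ?_ (single_le_sum (fun _ _ => by positivity) (mem_product.2 ⟨c3.1, c4.1⟩ : (_, _) ∈ PP))
  refine le_of_eq_of_le ?_ (if_pos ⟨l1, c2.2, ⟨_, y, b, (mem_OO.1 o1).1, (mem_OO.1 hy'.1).1, l1, c2.2,
    by rwa [sw, e], by rw [sw, e]; exact c4.2,
    (card_le_card (union_subset (mem_OO.1 o1).2 (mem_OO.1 hy'.1).2)).trans hH⟩, ?_⟩).ge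
  · simp only [Dd, dif, e3]; ring
  · rw [mul_min_of_nonneg _ _ (by positivity), le_min_iff]
    refine ⟨(mul_le_mul (up _ o1 _ l1) (up _ hy'.1 _ c2.2) (w0 _).le (mul_pos (by positivity) (w0 _)).le).trans
      (le_of_eq (by simp only [W2]; ring)), ?_⟩
    rw [← wt_mix _ _ p.2.2]
    exact (mul_le_mul (up _ o2 _ l3) (up _ o3 _ c4.2) (w0 _).le (mul_pos (by positivity) (w0 _)).le).trans
      (le_of_eq (by simp only [W2]; ring))

theorem s3 (h0 : ∀ u v, 0 < ψ u v) (t0 : 0 < θ) (hH : H.card ≤ 6) (f : (V → V) → ℝ) :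
    ∑ o ∈ OO H, ∑ y ∈ OO H, wt ψ o * wt ψ y * hh ψ θ f o y ≤ (2 / θ) ^ 12 * En ψ f := by
  classical
  have w0 := wt_pos h0
  have cn : ∀ X, ∑ o ∈ OO H, (if Le o X then 1 else 0 : ℝ) ≤ 2 ^ 6 := fun X => by
    rw [sum_boole]
    have := card_le_card_of_injOn fx (s := (OO H).filter fun o => Le o X) (t := H.powerset)
      (fun o ho => mem_powerset.2 (mem_OO.1 (mem_filter.1 ho).1).2) fun o ho o' ho' e => by
        funext u
        have e1 := (mem_filter.1 ho).2 u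
        have e2 := (mem_filter.1 ho').2 u
        have e3 : o u = u ↔ o' u = u := by rw [← mem_fx, e, mem_fx]
        grind
    exact_mod_cast (card_powerset H ▸ this).trans (Nat.pow_le_pow_right (by norm_num) hH)
  simp only [hh, mul_sum, En]
  rw [sum_congr rfl fun _ _ => sum_comm, sum_comm]
  refine sum_le_sum fun z _ => ?_
  rw [sum_congr rfl fun _ _ => sum_comm, sum_comm]
  refine sum_le_sum fun z' _ => ?_
  have m0 : 0 ≤ min (W2 ψ z) (W2 ψ z') := (lt_min (mul_pos (w0 _) (w0 _)) (mul_pos (w0 _) (w0 _))).le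
  refine le_trans (sum_le_sum (g := fun o => ∑ y ∈ OO H, (if Le o z.1 then 1 else 0) * (if Le y z.2 then 1 else 0) *
    ((1 / θ) ^ 12 * if Mv z z' then min (W2 ψ z) (W2 ψ z') * Dd f z z' ^ 2 else 0)) fun o _ =>
      sum_le_sum fun y _ => ?_) ?_
  · by_cases c : Le o z.1 ∧ Le y z.2 ∧ Mv z z' ∧ wt ψ o * wt ψ y ≤ (1 / θ) ^ 12 * min (W2 ψ z) (W2 ψ z')
    · rw [if_pos c, if_pos c.1, if_pos c.2.1, if_pos c.2.2.1, one_mul, one_mul, ← mul_assoc]
      exact mul_le_mul_of_nonneg_right c.2.2.2 (sq_nonneg _)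
    · rw [if_neg c, mul_zero]; positivity
  · simp only [← sum_mul, ← sum_mul_sum]
    refine (mul_le_mul_of_nonneg_right (mul_le_mul (cn _) (cn _) (by positivity) (by positivity))
      (by positivity)).trans (le_of_eq (by ring))

open Classical in
theorem s2 (hd : ∀ v, ψ v v = 1) (h0 : ∀ u v, 0 < ψ u v) (k1 : 1 ≤ κ) (hH : H.card ≤ 6)
    (hE : ∀ u v, E u v → u ∈ H ∧ ψ u v ≤ κ) {h : (V → V) → (V → V) → ℝ} (hh : ∀ o y, 0 ≤ h o y) (i : Bool) :
    ∑ p with Tri E a b p, W2 ψ p.1 / (∑ y ∈ gc H p, wt ψ y) *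
      ∑ y ∈ gc H p, wt ψ y * h (mix (ci p) (cf p) (cond i p.2.1 ∅)) y ≤
      (Fintype.card V * κ) ^ 12 * ∑ o ∈ OO H, ∑ y ∈ OO H, wt ψ o * wt ψ y * h o y := by
  have w0 := wt_pos h0
  have oo := fun p (T : Tri E a b p) => T.oo fun u v h => (hE u v h).1
  have cd := fun p (T : Tri E a b p) => T.cc (U := cond i p.2.1 ∅) (by cases i <;> simp)
  have di := fun p T => (cd p T).2
  have cc := fun p T => (cd p T).1
  rw [← sum_fiberwise_of_maps_to (g := fun p => mix (ci p) (cf p) (cond i p.2.1 ∅)) (t := OO H) fun p hp =>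
    mix_OO (oo p (mem_filter.1 hp).2).1 (oo p (mem_filter.1 hp).2).2 (cc p (mem_filter.1 hp).2), mul_sum]
  refine sum_le_sum fun o _ => ?_
  set P := (univ.filter (Tri E a b)).filter fun p => mix (ci p) (cf p) (cond i p.2.1 ∅) = o
  have hP : ∀ p ∈ P, Tri E a b p ∧ mix (ci p) (cf p) (cond i p.2.1 ∅) = o := fun p hp => by simpa [P] using hp
  rw [sum_congr rfl (g := fun p => ∑ y ∈ OO H, wt ψ y * h o y *
    if y ∈ gc H p then W2 ψ p.1 / ∑ y ∈ gc H p, wt ψ y else 0) fun p hp => by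
      rw [(hP p hp).2, mul_sum]
      simp only [mul_ite, mul_zero, ← sum_filter]
      exact sum_congr (by ext; simp [gc]) fun y hy => mul_comm _ _, sum_comm, mul_sum]
  refine sum_le_sum fun y _ => ?_
  rw [← mul_sum, ← sum_filter, mul_assoc (wt ψ o), ← mul_assoc (_ ^ _), mul_comm _ (_ * h o y)]
  refine mul_le_mul_of_nonneg_left ?_ (mul_nonneg (w0 _).le (hh _ _))
  let G := (OO H).filter fun y' => ∀ u ∈ orb o y b, y' u = y u
  have hG : ∀ p ∈ P.filter fun p => y ∈ gc H p, gc H p = G := fun p hp => by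
    obtain ⟨a1, a2⟩ := mem_filter.1 hp
    have e := (hP p a1).1.ob' (di p (hP p a1).1) a2
    rw [(hP p a1).2] at e
    exact filter_congr fun y' _ => by
      rw [e]; exact forall₂_congr fun u hu => by rw [(mem_filter.1 a2).2 u hu]
  rw [sum_congr rfl fun p hp => by rw [hG p hp], ← sum_div]
  refine div_le_of_le_mul₀ (sum_nonneg fun _ _ => (w0 _).le) (mul_nonneg (by positivity) (w0 _).le) ?_
  rw [← sum_fiberwise_of_maps_to (g := fun p => mix (cf p) (ci p) (cond i p.2.1 ∅)) (t := G) fun p hp => by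
    have T := (hP p (mem_filter.1 hp).1).1
    rw [← hG p hp]
    exact mem_filter.2 ⟨mix_OO (oo p T).2 (oo p T).1 fun u hu => (cc p T u hu).symm,
      fun u hu => if_neg (disjoint_right.1 (di p T) hu)⟩, mul_sum]
  refine sum_le_sum fun y' _ => (sum_le_card_nsmul _ _ (κ ^ 12 * (wt ψ o * wt ψ y')) fun p hp => ?_).trans ?_
  · obtain ⟨a1, a2⟩ := mem_filter.1 hp
    obtain ⟨T, a3⟩ := hP p (mem_filter.1 a1).1
    have dn : ∀ m, m = p.1.1 ∨ m = p.1.2 → wt ψ m ≤ κ ^ 6 * wt ψ (cut m p.2.1 p.2.2) := fun m hm =>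
      wt_le h0 k1 hH fun u => by
        by_cases hu : cut m p.2.1 p.2.2 u = u
        · have := hE _ _ (T.cr m hm u hu)
          exact Or.inr ⟨this.1, by rw [hu, hd, mul_one]; exact this.2⟩
        · exact Or.inl (by simp only [cut] at hu ⊢; grind)
    rw [← a2, ← a3, wt_mix]
    exact (mul_le_mul (dn _ (Or.inl rfl)) (dn _ (Or.inr rfl)) (w0 _).le
      (mul_pos (by positivity) (w0 _)).le).trans (le_of_eq (by simp only [ci, cf]; ring))
  · rw [nsmul_eq_mul, mul_pow, mul_assoc, mul_assoc]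
    refine mul_le_mul_of_nonneg_right ?_ (mul_pos (by positivity) (mul_pos (w0 _) (w0 _))).le
    have := card_le_card_of_injOn (fun p => ((fun u : H => p.1.1 u), fun u : H => p.1.2 u))
      (s := (P.filter fun p => y ∈ gc H p).filter fun p => mix (cf p) (ci p) (cond i p.2.1 ∅) = y') (t := univ)
      (by simp) fun p hp q hq e => by
        obtain ⟨a1, a2⟩ := mem_filter.1 hp
        obtain ⟨T, a3⟩ := hP p (mem_filter.1 a1).1
        obtain ⟨b1, b2⟩ := mem_filter.1 hq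
        obtain ⟨T', b3⟩ := hP q (mem_filter.1 b1).1
        have e0 : ∀ v, orb (ci p) (cf p) v = orb (ci q) (cf q) v := fun v => by
          rw [← orb_mix, ← orb_mix (X := ci q), a2, a3, b2, b3]
        have eA : p.2.1 = q.2.1 := T.oa.trans ((e0 a).trans T'.oa.symm)
        have eB : p.2.2 = q.2.2 := T.ob.trans ((e0 b).trans T'.ob.symm)
        have e1 : ci p = ci q := by rw [← mix_mix (ci p), ← mix_mix (ci q), a2, a3, b2, b3, eA]
        have e2 : cf p = cf q := by rw [← mix_mix (cf p), ← mix_mix (cf q), a2, a3, b2, b3, eA]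
        simp only [Prod.mk.injEq, funext_iff, Subtype.forall] at e e1 e2
        refine Prod.ext (Prod.ext (funext fun u => ?_) (funext fun u => ?_)) (Prod.ext eA eB)
        · have := fun h => e.1 u ((mem_OO.1 (oo p T).1).2 (mem_fx.2 h))
          have := e1 u
          simp only [ci, cut] at *; grind
        · have := fun h => e.2 u ((mem_OO.1 (oo p T).2).2 (mem_fx.2 h))
          have := e2 u
          simp only [cf, cut] at *; grind
    simp only [card_univ, Fintype.card_prod, Fintype.card_pi, prod_const, Fintype.card_coe, ← pow_add] at this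
    exact_mod_cast this.trans (Nat.pow_le_pow_right (Fintype.card_pos_iff.2 ⟨a⟩) (by omega))

open Classical in
theorem guide (hV : Even (Fintype.card V)) (hd : ∀ v, ψ v v = 1) (h1 : ∀ u v, θ ≤ ψ u v) (t0 : 0 < θ)
    (k1 : 1 ≤ κ) (hH : H.card ≤ 6) (hE : ∀ u v, E u v → u ∈ H ∧ ψ u v ≤ κ) (a b : V)
    (f : (V → V) → ℝ) : ∑ p with Tri E a b p, W2 ψ p.1 * (dif f p.1 p.2.1 p.2.2 - dif f p.1 ∅ p.2.2) ^ 2 ≤
      4 * (2 * Fintype.card V * κ / θ) ^ 12 * En ψ f := by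
  have h0 : ∀ u v, 0 < ψ u v := fun u v => t0.trans_le (h1 u v)
  have w0 := wt_pos h0
  have a1 := s2 (a := a) (b := b) hd h0 k1 hH hE (hh_nn (ψ := ψ) (θ := θ) f) true
  have a2 := s2 (a := a) (b := b) hd h0 k1 hH hE (hh_nn (ψ := ψ) (θ := θ) f) false
  have a3 := mul_le_mul_of_nonneg_left (s3 h0 t0 hH f) (show 0 ≤ (Fintype.card V * κ) ^ 12 by positivity)
  rw [show 4 * (2 * Fintype.card V * κ / θ) ^ 12 * En ψ f =
    2 * ((Fintype.card V * κ) ^ 12 * ((2 / θ) ^ 12 * En ψ f) + (Fintype.card V * κ) ^ 12 * ((2 / θ) ^ 12 * En ψ f))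
    by ring]
  refine le_trans ?_ (mul_le_mul_of_nonneg_left (add_le_add (a1.trans a3) (a2.trans a3)) (by norm_num))
  rw [← sum_add_distrib, mul_sum]
  refine sum_le_sum fun p hp => ?_
  have T := (mem_filter.1 hp).2
  have hE' := fun u v h => (hE u v h).1
  have z0 : 0 < ∑ y ∈ gc H p, wt ψ y :=
    sum_pos (fun _ _ => w0 _) ⟨cf p, mem_filter.2 ⟨(T.oo hE').2, fun _ _ => rfl⟩⟩
  rw [← mul_add, ← sum_add_distrib, mul_left_comm, mul_sum, div_mul_eq_mul_div, mul_div_assoc]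
  refine mul_le_mul_of_nonneg_left ?_ (mul_pos (w0 _) (w0 _)).le
  rw [le_div_iff₀ z0, mul_sum]
  refine sum_le_sum fun y hy => ?_
  have b1 := s1 hV hd h1 t0 hH hE' f T (Or.inl rfl) hy
  have b2 := s1 hV hd h1 t0 hH hE' f T (Or.inr rfl) hy
  rw [cond_true, cond_false, ← mul_add, mul_left_comm, mul_comm]
  refine mul_le_mul_of_nonneg_left ?_ (w0 _).le
  generalize f (cl (mix y (ci p) p.2.2)) - f (cl y) = c at *
  nlinarith [sq_nonneg (dif f p.1 p.2.1 p.2.2 + dif f p.1 ∅ p.2.2 + 2 * c)]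

end Vale.Agent.P308
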