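import Vale.Agent.P308.Sem

/-! The initial population is nearly uniform. -/

namespace Vale.Agent.P308

open Finset Equiv
open Function hiding swap
open Vale.Agent.P317 (bit b2n valU sumR Ex Ex_congr Ex_const Ex_append Ex_val Ex_mul Ex_sum Ex_mono)

set_option linter.unusedSectionVars false
set_option linter.unusedSimpArgs false

theorem Ex_law {Ω : Type} [Fintype Ω] [DecidableEq Ω] (L : ℕ) (φ : List Bool → Ω) (G : Ω → ℝ) :
    Ex L (fun c => G (φ c)) = ∑ ω, G ω * Ex L fun c => if φ c = ω then 1 else 0 := by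
  simp only [← Ex_mul, ← Ex_sum]; simp

theorem Ex_prod {Ω : Type} [Fintype Ω] [DecidableEq Ω] (N L : ℕ) (φ : List Bool → Ω) (F : (Fin N → Ω) → ℝ) :
    Ex (N * L) (fun c => F fun q => φ (sl c L q)) =
      ∑ x, (∏ q, Ex L fun c => if φ c = x q then 1 else 0) * F x := by
  induction N with
  | zero => simp [Ex]; congr; exact Subsingleton.elim _ _
  | succ N ih =>
    rw [Nat.succ_mul, add_comm, Ex_append, Ex_congr (g := fun a => ∑ x : Fin N → Ω,
      (∏ q, Ex L fun c => if φ c = x q then 1 else 0) * F (Fin.cons (φ a) x)) fun a ha => ?_,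
      Ex_law L φ fun ω => ∑ x : Fin N → Ω, (∏ q, Ex L fun c => if φ c = x q then 1 else 0) * F (Fin.cons ω x),
      ← (Fin.consEquiv fun _ => Ω).sum_comp, Fintype.sum_prod_type]
    · simp only [sum_mul, Fin.prod_univ_succ, Fin.consEquiv_apply, Fin.cons_zero, Fin.cons_succ]
      exact sum_congr rfl fun _ _ => sum_congr rfl fun _ _ => by rw [mul_right_comm, mul_comm (∏ _, _)]; rfl
    · rw [← ih fun x => F (Fin.cons (φ a) x)]
      congr 1
      funext b
      congr 1
      funext q
      refine Fin.cases (by simp [sl, List.take_left' ha]) (fun q => ?_) q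
      simp only [sl, Fin.cons_succ, Fin.val_succ, Nat.succ_mul, add_comm _ L, ← List.drop_drop, List.drop_left' ha]

theorem conj_Om {V : Type} [Fintype V] [DecidableEq V] (x y : Om V) : ∃ σ : Perm V, ∀ v, y.1 (σ v) = σ (x.1 v) := by
  have : ∀ x : Om V, ∃ k, (mem_Iv0.1 x.2).1.toPerm.cycleType = Multiset.replicate k 2 ∧ k * 2 = Fintype.card V :=
    fun x => by
      have h := mem_Iv0.1 x.2
      have e := Perm.cycleType_of_pow_prime_eq_one (σ := h.1.toPerm) (p := 2) (by ext v; simp [sq, h.1 v])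
      refine ⟨_, e, ?_⟩
      rw [← smul_eq_mul, ← Multiset.sum_replicate, ← e, Perm.sum_cycleType, ← card_univ]
      congr 1; ext v; simp [h.2 v]
  obtain ⟨k, a, b⟩ := this x
  obtain ⟨k', a', b'⟩ := this y
  obtain ⟨σ, h⟩ := isConj_iff.1 (Perm.isConj_iff_cycleType_eq.2 (a.trans (by rw [a', show k = k' by omega])))
  exact ⟨σ, fun v => by simpa using (congrArg (· (σ v)) h).symm⟩

variable (p : Par) [NeZero p.n] [h2 : Fact (Even p.n)]

def rnk {n K : ℕ} (κ : Fin n → Fin K) (v : Fin n) : ℕ := (univ.filter fun u => κ u < κ v).card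

def i1 {K : ℕ} (κ : Fin p.n → Fin K) : Om (Fin p.n) :=
  san p fun v => min (∑ u : Fin p.n, if rnk κ u = dfl (rnk κ (Fin.ofNat p.n v)) then u.1 else 0) p.n

def i0 (c : List Bool) : Om (Fin p.n) := san p fun v => min (ini p c v) p.n

noncomputable def nu (x : Om (Fin p.n)) : ℝ := Ex (p.n * p.kb) fun c => if i0 p c = x then 1 else 0

variable {p}

theorem i1_spec {K : ℕ} {κ : Fin p.n → Fin K} (h : Injective κ) (u v : Fin p.n) :
    (i1 p κ).1 v = u ↔ rnk κ u = dfl (rnk κ v) := by
  have lt : ∀ u v, κ u < κ v → rnk κ u < rnk κ v := fun u v a => card_lt_card ((ssubset_iff_of_subset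
    fun w => by simpa using fun b => b.trans a).2 ⟨u, by simpa using a, by simp⟩)
  let R : Fin p.n → Fin p.n := fun v => ⟨rnk κ v, (card_lt_card (filter_ssubset.2 ⟨v, mem_univ _, by simp⟩)).trans_eq
    (by simp)⟩
  have hR : Injective R := fun u v e => by
    have e' : rnk κ u = rnk κ v := congrArg Fin.val e
    rcases lt_trichotomy (κ u) (κ v) with a | a | a
    exacts [absurd (lt _ _ a) (by omega), h a, absurd (lt _ _ a) (by omega)]
  let E := Equiv.ofBijective R hR.bijective_of_finite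
  have d := ok_san (p := p) (fun _ => p.n)
  rw [show okf p (fun _ => p.n) = false by
    rw [← Bool.not_eq_true, okf_iff]; exact fun a => (a 0 (Nat.pos_of_neZero _)).1.false] at d
  have d1 := rp_tf (f := dfl) d
  have d2 := mem_Iv0.1 (d1.ok.1 d)
  have e : ∀ u v, E.symm (tf p dfl (E v)) = u ↔ rnk κ u = dfl (rnk κ v) := fun u v => by
    rw [symm_apply_eq, eq_comm, Fin.ext_iff, ← d1]; rfl
  rw [i1, san_eq (x := ⟨fun v => E.symm (tf p dfl (E v)), mem_Iv0.2 ⟨fun v => by
    simp only [apply_symm_apply, d2.1 _, symm_apply_apply], fun v a => d2.2 _ (E.symm_apply_eq.1 a)⟩⟩) fun v => by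
      simp [← e]]
  exact e u v

theorem nu_le (x : Om (Fin p.n)) : nu p x ≤ 1 / Fintype.card (Om (Fin p.n)) + p.n ^ 2 / 2 ^ p.kb := by
  classical
  let φ := fun c => Fin.ofNat (2 ^ p.kb) (valU c)
  have e0 : ∀ c (v : Fin p.n), ((φ (sl c p.kb v) : Fin _) : ℕ) = valU (sl c p.kb v) := fun c v =>
    Nat.mod_eq_of_lt ((P337.valU_lt _).trans_le (Nat.pow_le_pow_right (by norm_num) (by simp [sl])))
  have e1 : ∀ c, i0 p c = i1 p fun v => φ (sl c p.kb v) := fun c => san_congr fun v hv => by
    have : ∀ v : Fin p.n, rk p c v = rnk (fun v => φ (sl c p.kb v)) v := fun v => by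
      rw [rk, sumR, sum_range, rnk, card_filter]
      exact sum_congr rfl fun u _ => cond_ite (by rw [decide_eq_true_eq, Fin.lt_def, e0, e0]) _ _
    rw [ini, sumR, sum_range, show v = (Fin.ofNat p.n v : Fin _) from (Nat.mod_eq_of_lt hv).symm]
    simp only [this, Fin.ofNat_val_eq_self, cond_ite Nat.beq_eq.to_iff]
  have e2 : ∀ k, (Ex p.kb fun c => if φ c = k then 1 else 0) = 1 / 2 ^ p.kb := fun k => by
    rw [Ex_val p.kb fun a => if Fin.ofNat (2 ^ p.kb) a = k then 1 else 0, sum_range]; simp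
  let A := fun x => (univ : Finset (Fin p.n → Fin (2 ^ p.kb))).filter fun κ => Injective κ ∧ i1 p κ = x
  have a1 : ∀ y, (A x).card ≤ (A y).card := fun y => by
    obtain ⟨σ, hσ⟩ := conj_Om x y
    refine card_le_card_of_injOn (· ∘ σ.symm) (fun κ hκ => ?_) fun κ _ κ' _ e => σ.symm.surjective.injective_comp_right e
    obtain ⟨b1, b2⟩ := (mem_filter.1 hκ).2
    refine mem_filter.2 ⟨mem_univ _, b1.comp σ.symm.injective, Subtype.ext (funext fun v => ?_)⟩
    obtain ⟨v, rfl⟩ := σ.surjective v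
    have : ∀ v, rnk (κ ∘ σ.symm) (σ v) = rnk κ v := fun v => (card_equiv σ (by simp)).symm
    rw [i1_spec (b1.comp σ.symm.injective), hσ, this, this, ← i1_spec b1, b2]
  have a2 : (A x).card * Fintype.card (Om (Fin p.n)) ≤ (2 ^ p.kb) ^ p.n := by
    have := card_eq_sum_card_fiberwise (f := i1 p) (s := univ.filter fun κ : Fin p.n → Fin (2 ^ p.kb) => Injective κ)
      (t := univ) (by simp)
    simp only [filter_filter] at this
    rw [mul_comm, ← smul_eq_mul]
    exact (card_nsmul_le_sum _ _ _ fun y _ => a1 y).trans (this.ge.trans ((card_le_univ _).trans (by simp)))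
  have a3 : ∀ e ∈ (univ : Finset (Fin p.n)).offDiag, (univ.filter fun κ : Fin p.n → Fin (2 ^ p.kb) =>
      κ e.1 = κ e.2).card * 2 ^ p.kb ≤ (2 ^ p.kb) ^ p.n := fun e he => by
    have h := (mem_offDiag.1 he).2.2
    have := card_le_card_of_injOn (fun q => update q.1 e.1 q.2) (s := (univ.filter fun κ : Fin p.n → Fin (2 ^ p.kb) =>
      κ e.1 = κ e.2) ×ˢ univ) (t := univ) (by simp) fun q hq q' hq' a => by
        simp only [coe_product, coe_filter, Set.mem_prod, Set.mem_ofPred_eq] at hq hq'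
        have b := fun u => congrFun a u
        refine Prod.ext (funext fun u => ?_) (by simpa using b e.1)
        have := b u
        have := b e.2
        simp only [update_apply] at *
        grind
    simpa using this
  have a4 : (univ.filter fun κ : Fin p.n → Fin (2 ^ p.kb) => i1 p κ = x).card ≤ (A x).card +
      ∑ e ∈ (univ : Finset (Fin p.n)).offDiag, (univ.filter fun κ : Fin p.n → Fin (2 ^ p.kb) => κ e.1 = κ e.2).card := by
    refine le_trans (card_le_card fun κ hκ => ?_) ((card_union_le _ _).trans (add_le_add_right card_biUnion_le _))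
    by_cases h : Injective κ
    · exact mem_union_left _ (mem_filter.2 ⟨mem_univ _, h, (mem_filter.1 hκ).2⟩)
    · obtain ⟨a, b, c, d⟩ := not_injective_iff.1 h
      exact mem_union_right _ (mem_biUnion.2 ⟨(a, b), by simpa using d, by simpa using c⟩)
  have a5 := sum_le_card_nsmul _ _ _ a3
  rw [← sum_mul, smul_eq_mul] at a5
  have a6 := a5.trans (Nat.mul_le_mul_right _ ((card_le_univ _).trans_eq (c := p.n ^ 2) (by simp [sq])))
  have c0 : (0 : ℝ) < Fintype.card (Om (Fin p.n)) := by exact_mod_cast Fintype.card_pos_iff.2 ⟨x⟩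
  simp only [nu, e1]
  rw [Ex_prod p.n p.kb φ fun κ => if i1 p κ = x then 1 else 0]
  simp only [e2, prod_const, card_univ, Fintype.card_fin, ← mul_sum, sum_boole]
  rw [one_div_pow, one_div_mul_eq_div, div_le_iff₀ (by positivity), add_mul]
  refine ((Nat.cast_le.2 a4).trans_eq (Nat.cast_add _ _)).trans (add_le_add ?_ ?_)
  · rw [one_div_mul_eq_div, le_div_iff₀ c0]; exact_mod_cast a2
  · rw [div_mul_eq_mul_div, le_div_iff₀ (by positivity)]; exact_mod_cast a6

theorem nu_nn (x : Om (Fin p.n)) : 0 ≤ nu p x := (Ex_const _ 0).ge.trans (Ex_mono fun _ _ => by positivity)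

theorem sum_nu : ∑ x, nu p x = 1 := by simp only [nu, ← Ex_sum]; simp [Ex_const]

theorem Ex_init (g : List Bool) (H : ℕ → List Bool) (s : ℕ) (F : (Fin p.N → Om (Fin p.n)) → ℝ) :
    Ex p.ib (fun c => F (toSt p (run p g H s c 0))) = ∑ x, (∏ q, nu p (x q)) * F x := by
  rw [← show _ = ∑ x, (∏ q, nu p (x q)) * F x from Ex_prod p.N _ (i0 p) F]
  congr 1
  funext c
  congr 1
  funext q
  exact san_congr fun v hv => raw_enc _ q.2 hv

end Vale.Agent.P308
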