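import Mathlib

/-! Matchings as involutions, switching along components. -/

namespace Vale.Agent.P308

open Finset Function Equiv

set_option linter.unusedSectionVars false

variable {V : Type} [Fintype V] [DecidableEq V]

def wt (φ : V → V → ℝ) (m : V → V) : ℝ := ∏ v, φ v (m v)

def mix (X Y : V → V) (D : Finset V) : V → V := fun v => if v ∈ D then Y v else X v

def fx (m : V → V) : Finset V := univ.filter fun v => m v = v

def Iv (S : Finset V) : Finset (V → V) := univ.filter fun m => (∀ v, m (m v) = v) ∧ fx m = S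

def Z (φ : V → V → ℝ) (S : Finset V) : ℝ := ∑ m ∈ Iv S, wt φ m

def grow (X Y : V → V) (D : Finset V) : Finset V := D ∪ D.image X ∪ D.image Y

def orb (X Y : V → V) (v : V) : Finset V := (grow X Y)^[Fintype.card V] {v}

def Cl (X Y : V → V) (D : Finset V) : Prop := ∀ u ∈ D, X u ∈ D ∧ Y u ∈ D

variable {φ : V → V → ℝ} {X Y m : V → V} {D S S' : Finset V} {a b v : V}

@[simp] theorem mem_fx : v ∈ fx m ↔ m v = v := by simp [fx]

theorem mem_Iv : m ∈ Iv S ↔ Involutive m ∧ fx m = S := by simp [Iv, Involutive]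

theorem wt_pos (h : ∀ u v, 0 < φ u v) (m : V → V) : 0 < wt φ m := prod_pos fun _ _ => h _ _

theorem wt_mix (X Y : V → V) (D : Finset V) : wt φ (mix X Y D) * wt φ (mix Y X D) = wt φ X * wt φ Y := by
  simp only [wt, ← prod_mul_distrib, mix]
  exact prod_congr rfl fun v _ => by split_ifs <;> ring

theorem mix_mix (X Y : V → V) (D : Finset V) : mix (mix X Y D) (mix Y X D) D = X := by
  funext v; simp only [mix]; split_ifs <;> rfl

theorem orb_cl (X Y : V → V) (v : V) : Cl X Y (orb X Y v) := by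
  have : ∀ t, Cl X Y ((grow X Y)^[t] {v}) ∨ t + 1 ≤ ((grow X Y)^[t] {v}).card := by
    intro t
    induction t with
    | zero => simp
    | succ t ih =>
      rw [iterate_succ_apply']
      generalize (grow X Y)^[t] {v} = D at ih
      by_cases h : grow X Y D = D
      · refine Or.inl fun u hu => ?_
        rw [h] at hu ⊢
        constructor <;> rw [← h] <;> simp only [grow, mem_union, mem_image]
        exacts [Or.inl (Or.inr ⟨u, hu, rfl⟩), Or.inr ⟨u, hu, rfl⟩]
      · have h1 : D ⊆ grow X Y D := fun u hu => by simp [grow, hu]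
        rcases ih with ih | ih
        · refine absurd (Subset.antisymm (fun u hu => ?_) h1) h
          simp only [grow, mem_union, mem_image] at hu
          rcases hu with (hu | ⟨w, hw, rfl⟩) | ⟨w, hw, rfl⟩
          exacts [hu, (ih w hw).1, (ih w hw).2]
        · exact Or.inr (lt_of_le_of_lt ih (card_lt_card (h1.ssubset_of_ne (Ne.symm h))))
  exact (this _).resolve_right fun h => by have := h.trans (card_le_univ _); omega

theorem orb_min (hv : v ∈ D) (h : Cl X Y D) : orb X Y v ⊆ D := by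
  unfold orb
  induction Fintype.card V with
  | zero => simpa
  | succ t ih =>
    rw [iterate_succ_apply']
    intro u hu
    simp only [grow, mem_union, mem_image] at hu
    rcases hu with (hu | ⟨w, hw, rfl⟩) | ⟨w, hw, rfl⟩
    exacts [ih hu, (h w (ih hw)).1, (h w (ih hw)).2]

theorem mem_orb (X Y : V → V) (v : V) : v ∈ orb X Y v := by
  unfold orb
  induction Fintype.card V with
  | zero => simp
  | succ t ih => rw [iterate_succ_apply']; simp [grow, ih]

theorem cl_mix (U : Finset V) : Cl (mix X Y U) (mix Y X U) D ↔ Cl X Y D := by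
  refine forall₂_congr fun u _ => ?_
  simp only [mix]; split_ifs
  exacts [and_comm, Iff.rfl]

theorem orb_mix (U : Finset V) : orb (mix X Y U) (mix Y X U) v = orb X Y v :=
  Subset.antisymm (orb_min (mem_orb _ _ _) ((cl_mix U).2 (orb_cl _ _ _)))
    (orb_min (mem_orb _ _ _) ((cl_mix U).1 (orb_cl _ _ _)))

theorem inv_mix (hX : Involutive X) (hY : Involutive Y) (h : Cl X Y D) : Involutive (mix X Y D) := by
  intro v
  by_cases hv : v ∈ D
  · simp [mix, hv, (h v hv).2, hY v]
  · have : X v ∉ D := fun h1 => hv (hX v ▸ (h _ h1).1)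
    simp [mix, hv, this, hX v]

theorem fx_mix : fx (mix X Y D) = fx X \ D ∪ fx Y ∩ D := by
  ext v; by_cases hv : v ∈ D <;> simp [mix, hv]

theorem mix_Iv (hX : X ∈ Iv S) (hY : Y ∈ Iv S') (h : Cl X Y D) : mix X Y D ∈ Iv (S \ D ∪ S' ∩ D) := by
  rw [mem_Iv] at *
  exact ⟨inv_mix hX.1 hY.1 h, by rw [fx_mix, hX.2, hY.2]⟩

/-- switching along the component of a vertex -/
def sw (v : V) (z : (V → V) × (V → V)) : (V → V) × (V → V) :=
  (mix z.1 z.2 (orb z.1 z.2 v), mix z.2 z.1 (orb z.1 z.2 v))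

theorem sw_sw (v : V) : Involutive (sw v) := fun z => by
  simp only [sw, orb_mix, mix_mix]

theorem inv_swap (hm : Involutive m) (h : m a = a ∧ m b = b ∨ m a = b) : Involutive (m ∘ swap a b) := by
  intro v
  have := hm.injective
  have e := hm a
  simp only [comp, swap_apply_def]
  rcases h with ⟨h1, h2⟩ | h <;> grind [Involutive]

theorem wt_swap (hd : ∀ v, φ v v = 1) (ha : m a = a) (hb : m b = b) (h : a ≠ b) :
    wt φ (m ∘ swap a b) = φ a b * φ b a * wt φ m := by
  have e : ∀ f : V → ℝ, ∏ v, f v = f a * f b * ∏ v ∈ (univ.erase a).erase b, f v := fun f => by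
    rw [mul_assoc, mul_prod_erase _ _ (by simp [h.symm]), mul_prod_erase _ _ (mem_univ a)]
  rw [wt, wt, e, e fun v => φ v (m v)]
  simp only [comp, swap_apply_left, swap_apply_right, ha, hb, hd, one_mul]
  congr 1
  exact prod_congr rfl fun v hv => by
    simp only [mem_erase] at hv
    rw [swap_apply_of_ne_of_ne hv.2.1 hv.1]

theorem Z_add (hd : ∀ v, φ v v = 1) (ha : a ∉ S) (hb : b ∉ S) (h : a ≠ b) :
    φ a b * φ b a * Z φ (insert a (insert b S)) = ∑ m ∈ Iv S with m a = b, wt φ m := by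
  rw [Z, mul_sum]
  refine sum_nbij' (· ∘ swap a b) (· ∘ swap a b) (fun m hm => ?_) (fun m hm => ?_)
    (fun m _ => by funext v; simp) (fun m _ => by funext v; simp) fun m hm => ?_
  · simp only [mem_filter, mem_Iv, Finset.ext_iff, mem_fx, mem_insert] at hm ⊢
    have h1 := (hm.2 a).2 (Or.inl rfl)
    have h2 := (hm.2 b).2 (Or.inr (Or.inl rfl))
    refine ⟨⟨inv_swap hm.1 (Or.inl ⟨h1, h2⟩), fun v => ?_⟩, by simp [h2]⟩
    have := hm.2 v
    simp only [comp, swap_apply_def]
    grind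
  · simp only [mem_filter, mem_Iv, Finset.ext_iff, mem_fx, mem_insert] at hm ⊢
    refine ⟨inv_swap hm.1.1 (Or.inr hm.2), fun v => ?_⟩
    have := hm.1.2 v
    have := hm.1.1 a
    simp only [comp, swap_apply_def]
    grind
  · simp only [mem_Iv, Finset.ext_iff, mem_fx, mem_insert] at hm
    exact (wt_swap hd ((hm.2 a).2 (Or.inl rfl)) ((hm.2 b).2 (Or.inr (Or.inl rfl))) h).symm

theorem Z_nn (h : ∀ u v, 0 < φ u v) (S : Finset V) : 0 ≤ Z φ S := sum_nonneg fun m _ => (wt_pos h m).le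

theorem Z_le (h0 : ∀ u v, 0 < φ u v) (hd : ∀ v, φ v v = 1) (ha : a ∉ S) (hb : b ∉ S) (h : a ≠ b) :
    φ a b * φ b a * Z φ (insert a (insert b S)) ≤ Z φ S := by
  rw [Z_add hd ha hb h]
  exact sum_le_sum_of_subset_of_nonneg (filter_subset _ _) fun m _ _ => (wt_pos h0 m).le

def df : ℕ → ℕ
  | 0 => 1
  | 1 => 0
  | k + 2 => (k + 1) * df k

theorem card_fib (ha : a ∉ S) (hb : b ∉ S) (h : a ≠ b) :
    ((Iv S).filter fun m => m a = b).card = (Iv (insert a (insert b S))).card := by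
  have := Z_add (φ := fun _ _ => 1) (fun _ => rfl) ha hb h
  simpa [Z, wt] using this.symm

theorem card_Iv (k : ℕ) : ∀ S : Finset V, Sᶜ.card = k → (Iv S).card = df k := by
  induction k using Nat.strong_induction_on with
  | _ k ih =>
    intro S hS
    rcases Sᶜ.eq_empty_or_nonempty with h | ⟨a, ha⟩
    · have h1 : S = univ := by simpa using h
      have : Iv S = {id} := by
        ext m; simp [mem_Iv, h1, Finset.ext_iff, funext_iff, Involutive]; grind
      rw [this, ← hS, h]; rfl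
    · have h1 : (Sᶜ.erase a).card + 1 = k := by rw [card_erase_add_one ha, hS]
      rw [card_eq_sum_card_fiberwise (f := fun m => m a) (t := Sᶜ.erase a) fun m hm => by
        have h2 := mem_Iv.1 hm
        have h3 := h2.1 a
        simp only [← h2.2, coe_erase, Set.mem_sdiff, mem_coe, mem_compl, mem_fx] at ha ⊢
        grind]
      have h2 : ∀ b ∈ Sᶜ.erase a, ((Iv S).filter fun m => m a = b).card = df (k - 2) ∧ 2 ≤ k := fun b hb => by
        have h3 := card_pos.2 ⟨b, hb⟩
        have h4 := card_erase_add_one hb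
        rw [mem_erase, mem_compl] at hb
        rw [card_fib (mem_compl.1 ha) hb.2 hb.1.symm, ih (k - 2) (by omega)]
        · omega
        · rw [compl_insert, compl_insert, erase_right_comm]; omega
      rw [sum_congr rfl fun b hb => (h2 b hb).1, sum_const, smul_eq_mul]
      rcases k with _ | _ | k
      · omega
      · rw [show (Sᶜ.erase a).card = 0 by omega, zero_mul]; rfl
      · rw [df, show (Sᶜ.erase a).card = k + 1 by omega]; rfl

theorem df_pos (k : ℕ) : 0 < df k ↔ Even k := by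
  induction k using Nat.strong_induction_on with
  | _ k ih =>
    rcases k with _ | _ | k
    · simp [df]
    · simp [df]
    · simp [df, ih k (by omega), Nat.even_add]

theorem even_moved (hm : Involutive m) : Even (fx m)ᶜ.card := by
  rw [← df_pos, ← card_Iv _ _ rfl]
  exact card_pos.2 ⟨m, mem_Iv.2 ⟨hm, rfl⟩⟩

theorem par (hX : Involutive X) (hY : Involutive Y) (h : Cl X Y D) :
    Even (fx X ∩ D).card ↔ Even (fx Y ∩ D).card := by
  have : ∀ X : V → V, Involutive X → (∀ u ∈ D, X u ∈ D) → (Even (fx X ∩ D).card ↔ Even D.card) := by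
    intro X hX h
    have h1 := even_moved (inv_mix (X := id) (D := D) (fun _ => rfl) hX fun u hu => ⟨hu, h u hu⟩)
    have h2 : (fx (mix id X D))ᶜ = D \ fx X := by ext v; by_cases hv : v ∈ D <;> simp [mix, hv]
    rw [h2] at h1
    rw [← card_sdiff_add_card_inter D (fx X), inter_comm, Nat.even_add]
    simp [h1]
  rw [this X hX fun u hu => (h u hu).1, this Y hY fun u hu => (h u hu).2]

theorem dihedral (hX : Involutive X) (hY : Involutive Y) (ha : X a = a) {p q : V} (hp : X p = p)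
    (hq : Y q = q) (h1 : p ∈ orb X Y a) (h2 : q ∈ orb X Y a) : p = a := by
  classical
  let x : Perm V := hX.toPerm
  let r : Perm V := hX.toPerm * hY.toPerm
  have hx : ∀ i : ℤ, X ((r ^ i) a) = (r ^ (-i)) a := fun i => by
    have e : x * r * x⁻¹ = r⁻¹ := by ext v; simp [x, r, hX _]
    have : (x * r ^ i * x⁻¹) a = (r ^ (-i)) a := by rw [← conj_zpow, e, inv_zpow']
    simpa [x, ha] using this
  have e : ∀ (i j : ℤ), (r ^ i) ((r ^ j) a) = (r ^ (i + j)) a := fun i j => by rw [zpow_add]; rfl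
  have hy : ∀ i : ℤ, Y ((r ^ i) a) = (r ^ (-(1 + i))) a := fun i => by rw [← hx, ← e]; simp [r, hX _]
  have hm : orb X Y a ⊆ univ.filter fun u => ∃ i : ℤ, u = (r ^ i) a := orb_min (by simpa using ⟨0, rfl⟩) (by
    simp only [Cl, mem_filter, mem_univ, true_and]
    rintro _ ⟨i, rfl⟩
    exact ⟨⟨_, hx i⟩, ⟨_, hy i⟩⟩)
  obtain ⟨i, rfl⟩ := (mem_filter.1 (hm h1)).2
  obtain ⟨j, rfl⟩ := (mem_filter.1 (hm h2)).2
  rw [hx] at hp
  rw [hy] at hq
  have a1 : (r ^ (2 * i)) a = a := by rw [two_mul, ← e, ← hp, e]; simp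
  have a2 : (r ^ (2 * j + 1)) a = a := by
    rw [show 2 * j + 1 = (1 + j) + j by ring, ← e, ← hq, e, add_neg_cancel]; simp
  have f : ∀ (s t : ℤ), (r ^ s) a = a → (r ^ (s * t)) a = a := fun s t h => by
    rw [zpow_mul]; exact Perm.zpow_apply_eq_self_of_apply_eq_self h t
  rw [show i = (2 * j + 1) * i + 2 * i * (-j) by ring, ← e, f _ _ a1, f _ _ a2]

theorem sum_sw {P : (V → V) × (V → V) → Prop} [DecidablePred P] (v : V) :
    ∑ z with P z, wt φ z.1 * wt φ z.2 = ∑ z with P (sw v z), wt φ z.1 * wt φ z.2 := by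
  simp only [sum_filter]
  rw [← Equiv.sum_comp (sw_sw v).toPerm]
  exact sum_congr rfl fun z _ => if_congr Iff.rfl (wt_mix _ _ _) rfl

theorem ZZ (S S' : Finset V) : Z φ S * Z φ S' =
    ∑ z : (V → V) × (V → V) with z.1 ∈ Iv S ∧ z.2 ∈ Iv S', wt φ z.1 * wt φ z.2 := by
  rw [Z, Z, sum_mul_sum, ← sum_product']
  exact sum_congr (by ext; simp) fun _ _ => rfl

theorem four (h0 : ∀ u v, 0 < φ u v) {a' p q : V} (h1 : a ≠ p) (_ : a ≠ a') (h3 : a ≠ q) (h4 : p ≠ a')
    (h5 : p ≠ q) (h6 : a' ≠ q) : Z φ {a, p} * Z φ {a', q} ≤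
      Z φ ∅ * Z φ {a, a', p, q} + Z φ {p, q} * Z φ {a, a'} + Z φ {a', p} * Z φ {a, q} := by
  rw [ZZ, sum_sw a]
  simp only [ZZ, sum_filter, ← sum_add_distrib]
  refine sum_le_sum fun z _ => ?_
  have w := (mul_pos (wt_pos h0 z.1) (wt_pos h0 z.2)).le
  obtain ⟨z, rfl⟩ := (sw_sw a).surjective z
  rw [sw_sw a z]
  by_cases h : z.1 ∈ Iv {a, p} ∧ z.2 ∈ Iv {a', q}
  swap
  · rw [if_neg h]; positivity
  have c := orb_cl z.1 z.2 a
  have i1 := mix_Iv h.1 h.2 c
  have i2 := mix_Iv h.2 h.1 fun u hu => (c u hu).symm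
  have m1 := mem_Iv.1 h.1
  have m2 := mem_Iv.1 h.2
  have pa := par m1.1 m2.1 c
  have ha := mem_orb z.1 z.2 a
  have f1 : ∀ u, z.1 u = u ↔ u = a ∨ u = p := fun u => by rw [← mem_fx, m1.2]; simp
  have f2 : ∀ u, z.2 u = u ↔ u = a' ∨ u = q := fun u => by rw [← mem_fx, m2.2]; simp
  have d := fun u hu => @dihedral _ _ _ _ _ _ m1.1 m2.1 ((f1 a).2 (Or.inl rfl)) p u ((f1 p).2 (Or.inr rfl)) hu
  rw [m1.2, m2.2] at pa
  rw [if_pos h]
  change (sw a z).1 ∈ _ at i1
  change (sw a z).2 ∈ _ at i2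
  generalize sw a z = y at *
  generalize orb z.1 z.2 a = D at *
  by_cases hp : p ∈ D
  · have b1 : a' ∉ D := fun h => h1 (d a' ((f2 _).2 (Or.inl rfl)) hp h).symm
    have b2 : q ∉ D := fun h => h1 (d q ((f2 _).2 (Or.inr rfl)) hp h).symm
    rw [if_pos ⟨by convert i1; ext u; simp; grind, by convert i2; ext u; simp; grind⟩]
    split_ifs <;> linarith
  · rw [show {a, p} ∩ D = {a} by ext u; simp; grind] at pa
    by_cases b1 : a' ∈ D <;> by_cases b2 : q ∈ D
    · rw [show {a', q} ∩ D = {a', q} by ext u; simp; grind, card_pair h6] at pa; simp at pa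
    · rw [if_pos (c := _ ∈ Iv {a', p} ∧ _) ⟨by convert i1; ext u; simp; grind, by convert i2; ext u; simp; grind⟩]
      split_ifs <;> linarith
    · rw [if_pos (c := _ ∈ Iv {p, q} ∧ _) ⟨by convert i1; ext u; simp; grind, by convert i2; ext u; simp; grind⟩]
      split_ifs <;> linarith
    · rw [show {a', q} ∩ D = ∅ by ext u; simp; grind] at pa; simp at pa

theorem lemA (h0 : ∀ u v, 0 < φ u v) (hd : ∀ v, φ v v = 1) {a' p q : V} (h1 : a ≠ p) (h2 : a ≠ a')
    (h3 : a ≠ q) (h4 : p ≠ a') (h5 : p ≠ q) (h6 : a' ≠ q) : φ a a' * φ a' a * (Z φ {a, p} * Z φ {a', q}) ≤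
      2 * Z φ ∅ * Z φ {p, q} + φ a a' * φ a' a * (Z φ {a', p} * Z φ {a, q}) := by
  have e1 := Z_le (S := {p, q}) h0 hd (by simp [h1, h3]) (by simp [h4.symm, h6]) h2
  have e2 := Z_le (S := ∅) h0 hd (by simp) (by simp) h2
  have e3 := mul_le_mul_of_nonneg_left (four h0 h1 h2 h3 h4 h5 h6) (mul_pos (h0 a a') (h0 a' a)).le
  simp only [insert_empty_eq] at e2
  nlinarith [mul_le_mul_of_nonneg_left e1 (Z_nn h0 ∅), mul_le_mul_of_nonneg_left e2 (Z_nn h0 {p, q})]

end Vale.Agent.P308
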