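import Vale.Agent.P308.Model

/-! Every stage produces good estimates, and good estimates give an accurate output. -/

namespace Vale.Agent.P308

open Finset Function Real
open Vale.Agent.P328 (prodR)
open Vale.Agent.P317 (bit b2n sumR mapR allR allR_iff Agree Ex Ex_congr Ex_const Ex_append Ex_mono Ex_add proc Et
  Et_succ Et_mono agree_update)

set_option linter.unusedSectionVars false
set_option linter.unusedSimpArgs false

theorem sl_append {c : List Bool} {k i : ℕ} (h : (i + 1) * k ≤ c.length) (x : List Bool) :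
    sl (c ++ x) k i = sl c k i := by
  rw [Nat.succ_mul] at h
  rw [sl, sl, List.drop_append_of_le_length (by omega), List.take_append_of_le_length (by simp; omega)]

variable {p : Par} {g : List Bool} {H : ℕ → List Bool} {A G m k l : ℕ}

theorem run_append {s r : ℕ} {c : List Bool} (h : p.ib + r * p.cm ≤ c.length) (x : List Bool) :
    run p g H s (c ++ x) r = run p g H s c r := by
  induction r with
  | zero =>
    refine List.map_congr_left fun y hy => ?_
    have : y / p.n / p.n < p.N := Nat.div_lt_of_lt_mul (Nat.div_lt_of_lt_mul (by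
      simpa [Par.W, mul_comm, mul_left_comm] using hy))
    dsimp only
    rw [sl_append ((Nat.mul_le_mul_right _ this).trans (le_trans (Nat.le_add_right _ _) h))]
  | succ r ih =>
    rw [run, run, ih (le_trans (by rw [Nat.succ_mul]; omega) h), List.drop_append_of_le_length (by omega),
      sl_append (by simp; omega)]

theorem sl_trj (ρ : List Bool) (s : ℕ) : sl (trj p g ρ s) p.W = proc p.cs (fun _ => []) (st p g) ρ s := by
  induction s with
  | zero => funext i; simp [trj, sl, proc]
  | succ s ih =>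
    have e := length_trj p g ρ s
    rw [trj, proc, ← ih]
    funext i
    rcases lt_trichotomy i s with h | rfl | h
    · rw [update_of_ne h.ne, sl_append (e ▸ Nat.mul_le_mul_right _ h)]
    · rw [update_self, sl, List.drop_left' e]; exact List.take_of_length_le (length_run ..).le
    · have := Nat.mul_le_mul_right p.W (show s + 1 ≤ i from h)
      rw [Nat.succ_mul] at this
      rw [update_of_ne h.ne', sl, List.drop_of_length_le (by simp [st, length_run]; omega), sl,
        List.drop_of_length_le (by omega)]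

variable [NeZero p.n] [h2 : Fact (Even p.n)]

namespace Cond

variable (C : Cond p A G m k l)
include C

theorem hg : 80 * (Fintype.card (Fin p.n) : ℝ) ^ 2 * (2 * (1 / (2560 * p.n ^ 6))) ≤ (1 / (4 * p.n ^ 2)) ^ 2 ∧
    1 / (4 * p.n ^ 2 : ℝ) ≤ 1 := by
  have n2 : (2 : ℝ) ≤ p.n := by exact_mod_cast C.n2
  exact ⟨le_of_eq (by rw [Fintype.card_fin]; field_simp; ring), (div_le_one (by positivity)).2 (by nlinarith)⟩

theorem G0 : 0 < G := lt_of_lt_of_le (by rw [C.hM]; positivity) C.gap

theorem ker {s t : ℕ} (hG : Gd p g H A s) (h1 : t ≤ s) (h2 : t ≤ p.T) :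
    Ker (pi0 (ff p g H t)) (JJ p.M (Fin.ofNat p.n) (WW p g H t)) (1 / G) := by
  have n2 : (2 : ℝ) ≤ p.n := by exact_mod_cast C.n2
  have := C.S0
  have G0 : (0 : ℝ) < G := by exact_mod_cast C.G0
  refine ((C.sub hG t h1 h2).band evn (al_pos t) (by positivity) C.hg.2 C.hg.1).ker (by positivity) (C.wt_eq h2)
    (C.n2.trans C.Mn) (fun v => ⟨v, v.2.trans_le C.Mn, by simp⟩) 0 (by positivity) ?_
  rw [one_div_mul_eq_div, div_le_one G0, Fintype.card_fin]
  refine le_trans (le_of_eq ?_) (Nat.cast_le.2 C.gap)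
  push_cast
  field_simp
  ring

theorem W_lt {t : ℕ} (ht : t ≤ p.T) (x y : Om (Fin p.n)) : WW p g H t x * WW p g H t y < 2 ^ p.ab := by
  have a : ∀ j ≤ 2 * p.J * p.T, pw p j ≤ (p.D + 1) ^ (2 * p.J * p.T) := fun j hj => by
    obtain ⟨i, hi⟩ := Nat.exists_eq_add_of_le hj
    rw [pw, hi, Nat.add_sub_cancel_left, pow_add]
    exact Nat.mul_le_mul_right _ (Nat.pow_le_pow_left (by omega) _)
  have h1 : p.T ≤ p.J * p.T := Nat.le_mul_of_pos_left _ C.J0
  have b : ∀ x, WW p g H t x ≤ (4 * p.n ^ 2 * (p.D + 1) ^ (2 * p.J * p.T)) ^ p.n := fun x =>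
    (prod_le_pow_card _ _ (4 * p.n ^ 2 * (p.D + 1) ^ (2 * p.J * p.T)) fun v _ => by
      refine (add_le_add (Nat.mul_le_mul_left _ (a _ (by cases adj p g _ _ <;> simp only [cond] <;> linarith)))
        (Nat.mul_le_mul_left _ (a _ ?_))).trans ?_
      · rw [mul_comm 2 p.J, mul_assoc]; exact Nat.mul_le_mul_left _ (by omega)
      · rw [← add_mul]
        have : p.n ≤ 4 * p.n ^ 2 := by nlinarith
        exact Nat.mul_le_mul_right _ (by have := C.n2; omega)).trans_eq (by simp)
  exact lt_of_le_of_lt ((Nat.mul_le_mul (b x) (b y)).trans_eq (by rw [← pow_add, two_mul p.n])) C.hab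

open Classical in
theorem stage {s : ℕ} (hG : Gd p g H A s) (hs : s ≤ p.T) :
    Ex p.cs (fun c => if ok p g H A s (toSt p (st p g s H c)) then 0 else 1) ≤
      (2 * p.n ^ 2 + 5 + (p.T + 1) * p.B) / 2 ^ m := by
  have n2 : (2 : ℝ) ≤ p.n := by exact_mod_cast C.n2
  have l0 := C.lq0
  have G1 : (1 : ℝ) ≤ G := by exact_mod_cast C.G0
  have N0 : (0 : ℝ) < p.N := by exact_mod_cast C.N0
  have J1 : (1 : ℝ) ≤ p.J := by exact_mod_cast C.J0
  have A1 : (1 : ℝ) ≤ A := by exact_mod_cast lt_of_lt_of_le (by have := C.n2; positivity) C.p1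
  have d0 : 0 ≤ 4 * p.n * (p.J * lq p) := by positivity
  have pos := fun t => pi0_pos evn (ff_pos (p := p) (g := g) (H := H) t)
  have s1 := fun t => sum_pi0 evn (ff_pos (p := p) (g := g) (H := H) t)
  have ex : ∀ (j : ℕ) (x : ℝ), j ≤ x → exp (-x) ≤ 1 / 2 ^ j := fun j x h => by
    refine (exp_le_exp.2 (neg_le_neg h)).trans ?_
    rw [exp_neg, one_div, ← mul_one (j : ℝ), exp_nat_mul]
    exact inv_anti₀ (by positivity) (pow_le_pow_left₀ (by norm_num) (by linarith [add_one_le_exp 1]) _)
  have hδ : (1 + 2 * (4 * p.n * (p.J * lq p))) ^ p.N ≤ 3 / 2 := by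
    refine (pow_le_pow_left₀ (by positivity) ((add_comm _ _).trans_le (add_one_le_exp _)) _).trans ?_
    have a : 0 ≤ p.N * (2 * (4 * p.n * (p.J * lq p))) := by positivity
    have := abs_le.1 (abs_exp_sub_one_le (x := p.N * (2 * (4 * p.n * (p.J * lq p))))
      (by rw [abs_of_nonneg a]; linarith [C.del]))
    rw [abs_of_nonneg a] at this
    rw [← exp_nat_mul]; linarith [C.del]
  have hw : (1 : ℝ) / 2 ^ (2 * m) ≤ 1 / 4 := by
    have := pow_le_pow_right₀ (show (1 : ℝ) ≤ 2 by norm_num) (show 2 ≤ 2 * m by have := C.m0; omega)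
    exact one_div_le_one_div_of_le (by norm_num) (by linarith)
  have sq : √(1 / 2 ^ (2 * m)) = 1 / 2 ^ m := by
    rw [pow_mul', ← one_pow 2, ← div_pow, sqrt_sq (by positivity), one_pow]
  have an := anneal (o := san p id) (ν := fun t => pi0 (ff p g H (min t s)))
    (J := fun t => JJ p.M (Fin.ofNat p.n) (WW p g H (min t s)))
    (Λ := fun r F => Ex (p.ib + r * p.cm) fun c => F (toSt p (run p g H s c r))) (B := p.B) (k := 2 * m)
    (w := 1 / 2 ^ (2 * m)) (ε := 1 / 2 ^ p.e) (fun t => C.ker hG (min_le_right _ _) ((min_le_right _ _).trans hs))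
    (fun t => s1 _) (by positivity) ((div_le_one (by linarith)).2 G1) (by
      rw [mul_one_div, le_div_iff₀ (by linarith)]; exact_mod_cast le_trans (le_of_eq (by ring)) C.hk)
    C.N0 (by positivity) (by
      rw [mul_one_div, div_div, div_le_div_iff₀ (by positivity) (by positivity)]
      exact_mod_cast le_trans (le_of_eq (by ring)) (C.he.trans_eq (one_mul _).symm)) d0 (fun t x => by
      rcases lt_or_ge t s with h | h
      · rw [min_eq_left h.le, min_eq_left h]; exact C.pi_step t x
      · rw [min_eq_right h, min_eq_right (by omega)]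
        exact le_mul_of_one_le_left (pos _ x).le (by linarith)) (by
      have a : (32 * G * p.N : ℝ) ≤ 2 ^ p.e := by exact_mod_cast C.he
      have b : (4 * m * 2 ^ p.e * G * p.N : ℝ) ≤ p.B := by exact_mod_cast C.hB
      refine (pow_le_pow_left₀ ?_ (one_sub_le_exp_neg _) _).trans ?_
      · have : (1 : ℝ) ≤ p.N := by exact_mod_cast C.N0
        have : (1 : ℝ) ≤ 2 ^ p.e := one_le_pow₀ (by norm_num)
        rw [sub_nonneg, div_le_one (by positivity)]
        exact le_trans (mul_le_one₀ ((div_le_one (by linarith)).2 this) (by positivity)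
          ((div_le_one (by linarith)).2 G1)) (by linarith)
      · rw [← exp_nat_mul, mul_neg]
        refine ex _ _ (le_trans (le_of_eq ?_) (mul_le_mul_of_nonneg_right b (by positivity)))
        push_cast; field_simp; ring) (by nlinarith [show (0 : ℝ) ≤ 1 / 2 ^ (2 * m) by positivity]) C.B0
    (fun r F => by
      rw [Nat.succ_mul, ← add_assoc, Ex_append]
      refine Ex_congr fun c hc => ?_
      rw [← Ex_move g H _ C.hN C.hM (C.W_lt ((min_le_right _ _).trans hs))]
      refine Ex_congr fun x hx => ?_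
      rw [run, run_append hc.ge, sl, List.drop_drop, List.drop_left' hc, List.take_of_length_le hx.le])
    (((good_init nu_nn sum_nu fun F => by simpa using Ex_init g H s F).rew (pos _) (s1 _) d0 fun x => by
      rw [Nat.zero_min, (pi0_const (by have := C.a0.2; positivity) C.ff0 x).2, add_mul, one_mul]
      refine (nu_le x).trans (add_le_add_right ?_ _)
      have c0 : (0 : ℝ) < Fintype.card (Om (Fin p.n)) := by exact_mod_cast Fintype.card_pos_iff.2 ⟨x⟩
      have a : ((p.n ^ 2 * Fintype.card (Om (Fin p.n)) * (p.D + 1) : ℕ) : ℝ) ≤ (2 ^ p.kb : ℕ) := Nat.cast_le.2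
        (le_trans (by rw [card_Om]; exact Nat.mul_le_mul_right _ (Nat.mul_le_mul_left _ (df_le _))) C.hkb)
      have b := (div_le_iff₀ (by positivity)).1 C.lq_bd.1
      push_cast at a
      rw [mul_one_div, div_le_div_iff₀ (by positivity) c0]
      have : lq p ≤ 4 * p.n * (p.J * lq p) := by nlinarith [mul_le_mul_of_nonneg_right J1 l0.le]
      nlinarith [mul_le_mul_of_nonneg_left a l0.le, mul_le_mul_of_nonneg_left b (mul_pos (pow_pos (show (0 : ℝ) < p.n
        by linarith) 2) c0).le, mul_le_mul_of_nonneg_right this (show (0 : ℝ) ≤ 2 ^ p.kb by positivity)]).mono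
      (by linarith) le_rfl) p.T
  have tv := an.tv (F := fun x => if ok p g H A s x then 0 else 1) fun x => by split_ifs <;> simp
  rw [min_eq_right hs, sq] at tv
  refine tv.trans ?_
  have hf : ∑ x : Fin p.N → Om (Fin p.n), (∏ i, pi0 (ff p g H s) (x i)) * (if ok p g H A s x then 0 else 1) ≤
      ∑ a : Option (Option (Fin p.n × Fin p.n)), 2 * (1 / 2 ^ m) := by
    refine le_trans ?_ (sum_le_sum fun a _ => (hoeff (N := p.N) (ζ := 1 / A) (χ := fun x => xi p g H s a x -
      ∑ y, pi0 (ff p g H s) y * xi p g H s a y) (fun x => (pos s x).le) (s1 s) (fun x => ?_) ?_ (by positivity)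
      ((div_le_iff₀ (by linarith)).2 (by linarith))).trans (mul_le_mul_of_nonneg_left (ex _ _ ?_) (by norm_num)))
    · rw [sum_comm]
      refine sum_le_sum fun x _ => ?_
      rw [← mul_sum]
      refine mul_le_mul_of_nonneg_left ?_ (prod_nonneg fun _ _ => (pos _ _).le)
      split_ifs with h
      · positivity
      · obtain ⟨a, ha⟩ := not_forall.1 h
        exact le_trans (if_pos (not_le.1 ha)).ge (single_le_sum (f := fun a => if p.N * (1 / A : ℝ) < |∑ q,
          (xi p g H s a (x q) - ∑ y, pi0 (ff p g H s) y * xi p g H s a y)| then (1 : ℝ) else 0)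
          (fun _ _ => by positivity) (mem_univ a))
    · rw [← one_mul (xi p g H s a x), ← s1 s, sum_mul, ← sum_sub_distrib]
      refine (abs_sum_le_sum_abs _ _).trans (sum_le_sum fun y _ => ?_)
      rw [← mul_sub, abs_mul, abs_of_pos (pos s y)]
      exact mul_le_of_le_one_right (pos s y).le (abs_sub_le_iff.2 ⟨C.osc s a x y, C.osc s a y x⟩)
    · simp only [mul_sub, sum_sub_distrib, ← sum_mul, s1, one_mul, sub_self]
    · have : (4 * m * A ^ 2 : ℝ) ≤ p.N := by exact_mod_cast C.hh
      field_simp; linarith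
  simp only [sum_const, card_univ, Fintype.card_option, Fintype.card_prod, Fintype.card_fin, nsmul_eq_mul] at hf
  refine (add_le_add_left hf _).trans (le_of_eq ?_)
  push_cast; ring

open Classical in
theorem fail (s : ℕ) (hs : s ≤ p.T + 1) : Et p.cs (fun _ => []) (st p g) s (fun H => if Gd p g H A s then 0 else 1) ≤
    s * ((2 * p.n ^ 2 + 5 + (p.T + 1) * p.B) / 2 ^ m) := by
  induction s with
  | zero => simp [Et, Ex, Gd]
  | succ s ih =>
    rw [Et_succ, Nat.cast_succ, add_mul, one_mul]
    refine (Et_mono _ _ _ _ (Ψ := fun H => (if Gd p g H A s then 0 else 1) +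
      (2 * p.n ^ 2 + 5 + (p.T + 1) * p.B) / 2 ^ m) fun H => ?_).trans ?_
    · split_ifs with h
      · rw [zero_add]
        refine le_trans (le_of_eq (Ex_congr fun c _ => if_congr ?_ rfl rfl)) (C.stage h (by omega))
        have a := agree_update (le_refl s) H (st p g s H c)
        refine ⟨fun b => by simpa [ok_dep a le_rfl] using b s (by omega), fun b t ht => ?_⟩
        rw [ok_dep a (by omega)]
        rcases (Nat.lt_succ_iff.1 ht).lt_or_eq with ht | rfl
        exacts [a t ht ▸ h t ht, by rwa [update_self]]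
      · exact (Ex_mono fun _ _ => by split_ifs <;> norm_num).trans ((Ex_const _ 1).le.trans
          (le_add_of_nonneg_right (by positivity)))
    · rw [Et, Ex_add, Ex_const]
      exact add_le_add_left (ih (by omega)) _

end Cond

end Vale.Agent.P308
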