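import Vale.Agent.P308.Ker

/-! The convex potential that keeps all edge marginals large. -/

namespace Vale.Agent.P308

open Finset Function Real

set_option linter.unusedSectionVars false
set_option linter.unusedSimpArgs false
set_option linter.unusedVariables false

variable {V : Type} [Fintype V] [DecidableEq V]

noncomputable def ph (α y : V → V → ℝ) (u v : V) : ℝ := if u = v then 1 else α u v + exp (y u v)

noncomputable def mg (φ : V → V → ℝ) (u v : V) : ℝ := ∑ x : Om V, pi0 φ x * if x.1 u = v then 1 else 0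

noncomputable def qq (α y : V → V → ℝ) (u v : V) : ℝ := exp (y u v) / (α u v + exp (y u v))

noncomputable def Ps (η : ℝ) (α y : V → V → ℝ) : ℝ := log (Z (ph α y) ∅) - η * ∑ e ∈ univ.offDiag, y e.1 e.2

noncomputable def gr (η : ℝ) (α y : V → V → ℝ) (e : V × V) : ℝ := qq α y e.1 e.2 * mg (ph α y) e.1 e.2 - η

def Sub (η : ℝ) (α y : V → V → ℝ) (s : ℝ) : Prop := ∀ y', Ps η α y ≤ Ps η α y' + s

variable {φ φ' α α' y y' : V → V → ℝ} {η δ γ ζ d k L R : ℝ}

theorem Om.ne (x : Om V) (v : V) : v ≠ x.1 v := ((mem_Iv0.1 x.2).2 v).symm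

theorem ph_pos (h : ∀ u v, 0 < α u v) (u v : V) : 0 < ph α y u v := by
  have := h u v
  unfold ph; split_ifs <;> positivity

theorem qq_unit (h : ∀ u v, 0 < α u v) (u v : V) : 0 ≤ qq α y u v ∧ qq α y u v ≤ 1 := by
  have := h u v
  exact ⟨by unfold qq; positivity, (div_le_one (by positivity)).2 (by linarith)⟩

theorem sum_mg (g : V → V → ℝ) :
    ∑ x : Om V, pi0 φ x * ∑ v, g v (x.1 v) = ∑ e ∈ univ.offDiag, g e.1 e.2 * mg φ e.1 e.2 := by
  simp only [mg, mul_sum]
  rw [sum_comm (s := univ.offDiag)]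
  refine sum_congr rfl fun x _ => ?_
  rw [sum_subset (subset_univ univ.offDiag) fun e _ he => by
    rw [if_neg fun h => he (by simpa [← h] using x.ne _)]; simp, Fintype.sum_prod_type]
  simp [mul_comm]

theorem Z_ratio (hV : Even (Fintype.card V)) (h0 : ∀ u v, 0 < φ u v) :
    Z φ' ∅ / Z φ ∅ = ∑ x : Om V, pi0 φ x * ∏ v, φ' v (x.1 v) / φ v (x.1 v) := by
  rw [Z, ← sum_coe_sort, sum_div]
  refine sum_congr rfl fun x _ => ?_
  have := wt_pos h0 x
  rw [prod_div_distrib, ← wt, ← wt, pi0]; field_simp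

theorem pi0_pos (hV : Even (Fintype.card V)) (h0 : ∀ u v, 0 < φ u v) (x : Om V) : 0 < pi0 φ x :=
  div_pos (wt_pos h0 _) (Z_pos hV h0)

theorem gibbs (hV : Even (Fintype.card V)) (h0 : ∀ u v, 0 < φ u v) (h1 : ∀ u v, 0 < φ' u v) (g : V → V → ℝ)
    (h : ∀ u v, u ≠ v → exp (g u v) ≤ φ' u v / φ u v) :
    log (Z φ ∅) + ∑ e ∈ univ.offDiag, g e.1 e.2 * mg φ e.1 e.2 ≤ log (Z φ' ∅) := by
  rw [← le_sub_iff_add_le', ← log_div (Z_pos hV h1).ne' (Z_pos hV h0).ne', le_log_iff_exp_le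
    (div_pos (Z_pos hV h1) (Z_pos hV h0)), Z_ratio hV h0, ← sum_mg]
  refine (convexOn_exp.map_sum_le (fun x _ => (pi0_pos hV h0 x).le) (sum_pi0 hV h0) fun _ _ => Set.mem_univ _).trans
    (sum_le_sum fun x _ => mul_le_mul_of_nonneg_left ?_ (pi0_pos hV h0 x).le)
  rw [exp_sum]
  exact prod_le_prod (fun _ _ => (exp_pos _).le) fun v _ => h _ _ (x.ne v)

theorem ph_ratio (h : ∀ u v, 0 < α u v) {u v : V} (e : u ≠ v) :
    ph α y' u v / ph α y u v = 1 + qq α y u v * (exp (y' u v - y u v) - 1) := by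
  have := h u v
  simp only [ph, if_neg e, qq, exp_sub]; field_simp; ring

theorem Ps_ge (hV : Even (Fintype.card V)) (h : ∀ u v, 0 < α u v) (y y' : V → V → ℝ) :
    Ps η α y + ∑ e ∈ univ.offDiag, gr η α y e * (y' e.1 e.2 - y e.1 e.2) ≤ Ps η α y' := by
  have := gibbs hV (ph_pos h (y := y)) (ph_pos h (y := y')) (fun u v => qq α y u v * (y' u v - y u v))
    fun u v e => by
      have := convexOn_exp.2 (Set.mem_univ 0) (Set.mem_univ (y' u v - y u v)) (sub_nonneg.2 (qq_unit h u v).2)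
        (qq_unit (y := y) h u v).1 (by ring)
      rw [ph_ratio h e]
      simp only [smul_eq_mul, mul_zero, zero_add, exp_zero] at this
      linarith
  simp only [Ps, gr, sub_mul, sum_sub_distrib, mul_right_comm _ (mg _ _ _), ← mul_sum]
  linarith

theorem Ps_le (hV : Even (Fintype.card V)) (h : ∀ u v, 0 < α u v) (d0 : 0 ≤ δ) (d1 : 2 * Fintype.card V * δ ≤ 1)
    (hy : ∀ u v, |y' u v - y u v| ≤ δ) : Ps η α y' ≤
    Ps η α y + ∑ e ∈ univ.offDiag, gr η α y e * (y' e.1 e.2 - y e.1 e.2) + 5 * Fintype.card V ^ 2 * δ ^ 2 := by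
  have z := Z_pos hV (ph_pos h (y := y))
  have z' := Z_pos hV (ph_pos h (y := y'))
  have a := log_le_sub_one_of_pos (div_pos z' z)
  have s1 := sum_pi0 hV (ph_pos h (y := y))
  rw [log_div z'.ne' z.ne', Z_ratio hV (ph_pos h)] at a
  have b : ∑ x : Om V, pi0 (ph α y) x * ∏ v, ph α y' v (x.1 v) / ph α y v (x.1 v) ≤ ∑ x : Om V, pi0 (ph α y) x *
      (1 + 5 * Fintype.card V ^ 2 * δ ^ 2 + ∑ v, qq α y v (x.1 v) * (y' v (x.1 v) - y v (x.1 v))) := by
    refine sum_le_sum fun x _ => mul_le_mul_of_nonneg_left ?_ (pi0_pos hV (ph_pos h) x).le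
    let t := fun v => qq α y v (x.1 v) * (exp (y' v (x.1 v) - y v (x.1 v)) - 1)
    have t1 : ∀ v, |t v| ≤ 2 * δ ∧ t v ≤ qq α y v (x.1 v) * (y' v (x.1 v) - y v (x.1 v)) + δ ^ 2 := fun v => by
      have n1 : (1 : ℝ) ≤ Fintype.card V := by exact_mod_cast Fintype.card_pos_iff.2 ⟨v⟩
      have a1 := hy v (x.1 v)
      have a2 := abs_exp_sub_one_le (a1.trans (by nlinarith))
      have a3 := abs_le.1 (abs_exp_sub_one_sub_id_le (a1.trans (by nlinarith)))
      have a4 := qq_unit (y := y) h v (x.1 v)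
      have a5 := sq_le_sq' (abs_le.1 a1).1 (abs_le.1 a1).2
      refine ⟨?_, by simp only [t]; nlinarith⟩
      rw [abs_mul, abs_of_nonneg a4.1]
      exact (mul_le_of_le_one_left (abs_nonneg _) a4.2).trans (by linarith)
    have t2 : |∑ v, t v| ≤ Fintype.card V * (2 * δ) := (abs_sum_le_sum_abs _ _).trans
      ((sum_le_card_nsmul _ _ _ fun v _ => (t1 v).1).trans (by simp))
    have t3 := sum_le_sum fun v (_ : v ∈ univ) => (t1 v).2
    have t4 := abs_le.1 (abs_exp_sub_one_sub_id_le (t2.trans (by linarith)))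
    have t5 := sq_le_sq' (abs_le.1 t2).1 (abs_le.1 t2).2
    have t6 : (Fintype.card V : ℝ) ≤ Fintype.card V ^ 2 := by exact_mod_cast Nat.le_self_pow (by norm_num) _
    simp only [sum_add_distrib, sum_const, card_univ, nsmul_eq_mul] at t3
    refine le_trans (b := exp (∑ v, t v)) ?_ (by nlinarith [mul_le_mul_of_nonneg_right t6 (sq_nonneg δ)])
    rw [exp_sum]
    exact prod_le_prod (fun v _ => (div_pos (ph_pos h _ _) (ph_pos h _ _)).le) fun v _ => by
      rw [ph_ratio h (x.ne v), add_comm]; exact add_one_le_exp _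
  simp only [mul_add (pi0 _ _) (_ + _), sum_add_distrib, ← sum_mul, s1,
    sum_mg fun u v => qq α y u v * (y' u v - y u v)] at b
  simp only [Ps, gr, sub_mul, sum_sub_distrib, mul_right_comm _ (mg _ _ _), ← mul_sum]
  linarith

theorem Sub.grad (S : Sub η α y γ) (hV : Even (Fintype.card V)) (h : ∀ u v, 0 < α u v) (e0 : 0 < η) (e1 : η ≤ 1)
    (hγ : 80 * Fintype.card V ^ 2 * γ ≤ η ^ 2) {e : V × V} (he : e.1 ≠ e.2) : |gr η α y e| ≤ η / 2 := by
  have n1 : (1 : ℝ) ≤ Fintype.card V := by exact_mod_cast Fintype.card_pos_iff.2 ⟨e.1⟩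
  have : ∀ s : ℝ, |s| = 1 → -(η / 2) ≤ s * gr η α y e := fun s hs => by
    have a := Ps_le (η := η) (y := y) (y' := fun u v => y u v + if e = (u, v) then
      s * (η / (20 * Fintype.card V ^ 2)) else 0) (δ := η / (20 * Fintype.card V ^ 2)) hV h (by positivity)
      (by rw [← mul_div_assoc, div_le_one (by positivity)]; nlinarith) fun u v => by
        rw [add_sub_cancel_left]
        split_ifs
        · rw [abs_mul, hs, one_mul, abs_of_nonneg (by positivity)]
        · rw [abs_zero]; positivity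
    have b := (S _).trans (add_le_add_left a γ)
    simp only [add_sub_cancel_left, mul_ite, mul_zero, Prod.mk.eta, sum_ite_eq, mem_offDiag, mem_univ, he, ne_eq,
      not_false_eq_true, and_self, if_true] at b
    have c : 0 ≤ gr η α y e * (s * (η / (20 * Fintype.card V ^ 2))) +
      5 * Fintype.card V ^ 2 * (η / (20 * Fintype.card V ^ 2)) ^ 2 + γ := by linarith
    refine le_of_mul_le_mul_left ?_ e0
    field_simp at c
    nlinarith
  have a := this 1 (by simp)
  have b := this (-1) (by simp)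
  rw [abs_le]; constructor <;> linarith

theorem mg_eq (hd : ∀ v, φ v v = 1) {a b : V} (h : a ≠ b) : mg φ a b = φ a b * φ b a * Z φ {a, b} / Z φ ∅ := by
  rw [show ({a, b} : Finset V) = insert a (insert b ∅) from rfl, Z_add hd (by simp) (by simp) h, sum_filter,
    ← sum_coe_sort, sum_div]
  exact sum_congr rfl fun x _ => by simp only [pi0]; split_ifs <;> simp

theorem mg_nn (hV : Even (Fintype.card V)) (h0 : ∀ u v, 0 < φ u v) (a b : V) : 0 ≤ mg φ a b :=
  sum_nonneg fun x _ => mul_nonneg (pi0_pos hV h0 x).le (by positivity)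

theorem Sub.band (S : Sub η α y γ) (hV : Even (Fintype.card V)) (h : ∀ u v, 0 < α u v) (e0 : 0 < η) (e1 : η ≤ 1)
    (hγ : 80 * Fintype.card V ^ 2 * γ ≤ η ^ 2) : Band (ph α y) (η / 2) := by
  refine ⟨hV, ph_pos h, fun v => if_pos rfl, by linarith, by linarith, fun a b e => ?_⟩
  have a1 := abs_le.1 (S.grad hV h e0 e1 hγ (e := (a, b)) e)
  have a2 := mul_le_of_le_one_left (mg_nn hV (ph_pos h (y := y)) a b) (qq_unit (y := y) h a b).2
  rw [← le_div_iff₀ (Z_pos hV (ph_pos h)), ← mg_eq (φ := ph α y) (fun v => if_pos rfl) e]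
  simp only [gr] at a1
  linarith

theorem Sub.pure (S : Sub η α y γ) (hV : Even (Fintype.card V)) (h : ∀ u v, 0 < α u v) (e0 : 0 < η) (e1 : η ≤ 1)
    (hγ : 80 * Fintype.card V ^ 2 * γ ≤ η ^ 2) (e2 : 4 * Fintype.card V ^ 2 * η ≤ 1) :
    Z (ph α y) ∅ ≤ 2 * Z α ∅ := by
  have z := Z_pos hV (ph_pos h (y := y))
  have a : ∑ x : Om V, pi0 (ph α y) x * (1 - ∑ v, qq α y v (x.1 v)) ≤ Z α ∅ / Z (ph α y) ∅ := by
    rw [Z_ratio hV (ph_pos h)]
    refine sum_le_sum fun x _ => mul_le_mul_of_nonneg_left ?_ (pi0_pos hV (ph_pos h) x).le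
    rw [prod_congr rfl (g := fun v => 1 - qq α y v (x.1 v)) fun v _ => by
      have := h v (x.1 v)
      rw [ph, if_neg (x.ne v), qq]; field_simp; ring]
    induction (univ : Finset V) using Finset.induction_on with
    | empty => simp
    | insert v s hv ih =>
      rw [sum_insert hv, prod_insert hv]
      have := qq_unit (y := y) h v (x.1 v)
      nlinarith [mul_le_mul_of_nonneg_left ih (sub_nonneg.2 this.2), mul_nonneg this.1
        (sum_nonneg fun u (_ : u ∈ s) => (qq_unit (y := y) h u (x.1 u)).1)]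
  simp only [mul_sub, sum_sub_distrib, mul_one, sum_pi0 hV (ph_pos h), sum_mg (qq α y)] at a
  have b := sum_le_card_nsmul univ.offDiag (fun e => qq α y e.1 e.2 * mg (ph α y) e.1 e.2) (3 / 2 * η) fun e he => by
    have := abs_le.1 (S.grad hV h e0 e1 hγ (mem_offDiag.1 he).2.2)
    simp only [gr] at this
    linarith
  have c : ((univ : Finset V).offDiag.card : ℝ) ≤ Fintype.card V ^ 2 := by
    exact_mod_cast (card_le_univ _).trans (by simp [sq])
  rw [nsmul_eq_mul] at b
  rw [le_div_iff₀ z] at a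
  nlinarith [mul_le_mul_of_nonneg_right c e0.le]

theorem wt_mono (h0 : ∀ u v, 0 ≤ φ u v) (h : ∀ u v, u ≠ v → φ u v ≤ k * φ' u v) (x : Om V) :
    wt φ x ≤ k ^ Fintype.card V * wt φ' x := by
  rw [← card_univ, ← prod_const, wt, wt, ← prod_mul_distrib]
  exact prod_le_prod (fun _ _ => h0 _ _) fun v _ => h _ _ (x.ne v)

theorem Z_mono (h0 : ∀ u v, 0 ≤ φ u v) (h : ∀ u v, u ≠ v → φ u v ≤ k * φ' u v) :
    Z φ ∅ ≤ k ^ Fintype.card V * Z φ' ∅ := by
  rw [Z, Z, mul_sum]
  exact sum_le_sum fun x hx => wt_mono h0 h ⟨x, hx⟩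

theorem Z_one (S : Finset V) : Z (fun _ _ => 1) S = df Sᶜ.card := by simp [Z, wt, card_Iv _ S rfl]

theorem pi0_const (k0 : 0 < k) (h : ∀ u v, u ≠ v → φ u v = k) (x : Om V) :
    Z φ ∅ = Fintype.card (Om V) * k ^ Fintype.card V ∧ pi0 φ x = 1 / Fintype.card (Om V) := by
  have w : ∀ x : Om V, wt φ x = k ^ Fintype.card V := fun x => by
    rw [wt, prod_congr rfl fun v _ => h _ _ (x.ne v)]; simp
  have : Z φ ∅ = Fintype.card (Om V) * k ^ Fintype.card V := by
    rw [Z, ← sum_coe_sort]; simp only [w, sum_const, card_univ, nsmul_eq_mul]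
  exact ⟨this, by rw [pi0, this, w]; field_simp⟩

theorem mg_const (hV : Even (Fintype.card V)) (k0 : 0 < k) (h : ∀ u v, u ≠ v → φ u v = k) {a b : V} (e : a ≠ b) :
    mg φ a b = 1 / (Fintype.card V - 1) := by
  have : mg φ a b = mg (fun _ _ => 1) a b := sum_congr rfl fun x _ => by
    rw [(pi0_const k0 h x).2, (pi0_const one_pos (fun _ _ _ => rfl) x).2]
  obtain ⟨m, hm⟩ := Nat.exists_eq_add_of_le' (Fintype.one_lt_card_iff.2 ⟨a, b, e⟩)
  have d : (0 : ℝ) < df m := by exact_mod_cast (df_pos m).2 (by simpa [hm, Nat.even_add] using hV)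
  rw [this, mg_eq (fun _ => rfl) e, Z_one, Z_one, card_compl, card_pair e, compl_empty, card_univ, hm]
  simp only [df, Nat.add_sub_cancel, Nat.succ_eq_add_one]
  push_cast
  rw [show (m : ℝ) + 2 - 1 = m + 1 by ring]
  field_simp

theorem range_bd (hV : Even (Fintype.card V)) (h0 : ∀ u v, exp (-L) ≤ α u v) (h1 : ∀ u v, α u v ≤ 1) (L0 : 0 ≤ L)
    (e0 : 0 ≤ η) (e1 : 2 * Fintype.card V * η ≤ 1) (hy : Ps η α y ≤ Ps η α 0 + 1) {e : V × V}
    (he : e ∈ univ.offDiag) : η * |y e.1 e.2| ≤ Fintype.card V ^ 2 * L + Fintype.card V + 1 := by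
  have h : ∀ u v, 0 < α u v := fun u v => (exp_pos _).trans_le (h0 u v)
  have n2 : (2 : ℝ) ≤ Fintype.card V := by
    exact_mod_cast Fintype.one_lt_card_iff.2 ⟨_, _, (mem_offDiag.1 he).2.2⟩
  have z := Z_pos hV (φ := fun _ _ => 1) fun _ _ => one_pos
  have a1 : Ps η α 0 ≤ log (Z (fun _ _ : V => (1 : ℝ)) ∅) + Fintype.card V := by
    have := Z_mono (φ' := fun _ _ => 1) (k := exp 1) (fun u v => (ph_pos h (y := 0) u v).le) fun u v e => by
      have := add_one_le_exp 1
      simp only [ph, if_neg e, Pi.zero_apply, exp_zero]; linarith [h1 u v]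
    have := log_le_log (Z_pos hV (ph_pos h)) this
    rw [log_mul (by positivity) z.ne', log_pow, log_exp] at this
    simp only [Ps, Pi.zero_apply, sum_const_zero]; linarith
  have a2 := gibbs hV (fun _ _ => one_pos) (ph_pos h (y := y)) (fun u v => max (-L) (y u v)) fun u v e => by
    have := h u v
    have := exp_pos (y u v)
    rw [ph, if_neg e, div_one, exp_monotone.map_max]
    exact max_le (by linarith [h0 u v]) (by linarith)
  have a3 : ∀ s : ℝ, |s| ≤ 1 → ∀ t, -L + (η + s * η) * t ≤ max (-L) t * (1 / (Fintype.card V - 1)) := fun s hs t => by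
    rw [mul_one_div, le_div_iff₀ (by linarith)]
    have b1 : 0 ≤ (η + s * η) * (Fintype.card V - 1) := mul_nonneg (by nlinarith [abs_le.1 hs]) (by linarith)
    have b2 : (η + s * η) * (Fintype.card V - 1) ≤ 1 := by
      nlinarith [abs_le.1 hs, mul_le_mul_of_nonneg_right (abs_le.1 hs).2 (show 0 ≤ η * (Fintype.card V - 1) from
        mul_nonneg e0 (by linarith))]
    nlinarith [mul_le_mul_of_nonneg_left (le_max_left (-L) t) (sub_nonneg.2 b2),
      mul_le_mul_of_nonneg_left (le_max_right (-L) t) b1, mul_nonneg L0 b1, mul_nonneg L0 (sub_nonneg.2 n2)]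
  have c : ((univ : Finset V).offDiag.card : ℝ) ≤ Fintype.card V ^ 2 := by
    exact_mod_cast (card_le_univ _).trans (by simp [sq])
  have a4 : ∀ s : ℝ, |s| ≤ 1 → s * η * y e.1 e.2 ≤ Fintype.card V ^ 2 * L + Fintype.card V + 1 := fun s hs => by
    have := sum_le_sum (s := univ.offDiag) (f := fun e' => -L + (η + (if e' = e then s else 0) * η) * y e'.1 e'.2)
      (g := fun e => max (-L) (y e.1 e.2) * mg (fun _ _ => 1) e.1 e.2) fun e' he' => by
        rw [mg_const hV one_pos (fun _ _ _ => rfl) (mem_offDiag.1 he').2.2]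
        exact a3 _ (by split_ifs; exacts [hs, by simp]) _
    simp only [add_mul, sum_add_distrib, ite_mul, zero_mul, sum_ite_eq', he, if_true, ← mul_sum, sum_const,
      nsmul_eq_mul] at this
    simp only [Ps] at hy a1
    nlinarith [mul_le_mul_of_nonneg_right c L0]
  rcases abs_choice (y e.1 e.2) with b | b <;> rw [b]
  exacts [by simpa using a4 1 (by simp), by simpa using a4 (-1) (by simp)]

theorem Sub.step (S : Sub η α y (2 * γ)) (hV : Even (Fintype.card V)) (h0 : ∀ u v, exp (-L) ≤ α u v)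
    (h1 : ∀ u v, α u v ≤ 1) (L0 : 0 ≤ L) (e0 : 0 < η) (e1 : 2 * Fintype.card V * η ≤ 1) (g0 : 0 ≤ γ) (g1 : 2 * γ ≤ 1)
    (hR : Fintype.card V ^ 2 * L + Fintype.card V + 1 ≤ η * R) (h' : ∀ u v, 0 < α' u v)
    (h2 : ∀ u v, α' u v ≤ α u v) (h3 : ∀ u v, α u v ≤ exp d * α' u v) (hd : 0 ≤ d) (d0 : 0 ≤ δ)
    (d1 : 2 * Fintype.card V * δ ≤ 1) (d2 : δ ≤ 2 * R) (hy : ∀ u v, |y' u v - y u v| ≤ δ) (z0 : 0 ≤ ζ)
    (hs : ∀ e ∈ univ.offDiag, gr η α y e * (y' e.1 e.2 - y e.1 e.2) ≤ δ * (2 * ζ - |gr η α y e|))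
    (hp : 2 * R * (Fintype.card V ^ 2 * (δ * (2 * ζ)) + 5 * Fintype.card V ^ 2 * δ ^ 2 + Fintype.card V * d) ≤
      δ * γ) : Sub η α' y' (2 * γ) := by
  intro w
  have h : ∀ u v, 0 < α u v := fun u v => (exp_pos _).trans_le (h0 u v)
  have R0 : 0 < R := pos_of_mul_pos_right (lt_of_lt_of_le (by positivity) hR) e0.le
  have m : ∀ {α α' : V → V → ℝ} (k : ℝ) y, 0 ≤ k → (∀ u v, 0 < α u v) → (∀ u v, 0 < α' u v) →
      (∀ u v, α u v ≤ exp k * α' u v) → Ps η α y ≤ Ps η α' y + Fintype.card V * k := fun {α α'} k y k0 a b c => by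
    have := log_le_log (Z_pos hV (ph_pos a (y := y))) (Z_mono (φ' := ph α' y) (k := exp k) (fun u v => (ph_pos a u v).le)
      fun u v e => by
        simp only [ph, if_neg e]
        nlinarith [c u v, mul_le_mul_of_nonneg_right (one_le_exp k0) (exp_pos (y u v)).le])
    rw [log_mul (by positivity) (Z_pos hV (ph_pos b)).ne', log_pow, log_exp] at this
    simp only [Ps]; linarith
  have a1 := m 0 y' le_rfl h' h (by simpa using h2)
  have a2 := m d w hd h h' h3
  have a3 := Ps_le (η := η) hV h d0 d1 hy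
  have c : ((univ : Finset V).offDiag.card : ℝ) ≤ Fintype.card V ^ 2 := by
    exact_mod_cast (card_le_univ _).trans (by simp [sq])
  have a4 := sum_le_sum hs
  simp only [mul_sub δ, sum_sub_distrib, ← mul_sum, sum_const, nsmul_eq_mul] at a4
  have a5 := mul_le_mul_of_nonneg_right c (show 0 ≤ δ * (2 * ζ) by positivity)
  have G0 : 0 ≤ ∑ e ∈ univ.offDiag, |gr η α y e| := by positivity
  have a6 := mul_nonneg d0 G0
  rcases le_or_gt (Ps η α y) (Ps η α w + γ) with b | b
  · have := le_of_mul_le_mul_left (hp.trans (mul_le_mul_of_nonneg_right d2 g0)) (by positivity)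
    linarith
  · have b1 := Ps_ge (η := η) hV h y w
    have r : ∀ y, Ps η α y ≤ Ps η α 0 + 1 → ∀ e ∈ univ.offDiag, |y e.1 e.2| ≤ R := fun y hy e he =>
      le_of_mul_le_mul_left ((range_bd hV h0 h1 L0 e0.le e1 hy he).trans hR) e0
    have b2 := S 0
    have b3 := sum_le_sum (s := univ.offDiag) (f := fun e => -(2 * R) * |gr η α y e|)
      (g := fun e => gr η α y e * (w e.1 e.2 - y e.1 e.2)) fun e he => by
        have := neg_abs_le (gr η α y e * (w e.1 e.2 - y e.1 e.2))
        have := abs_sub (w e.1 e.2) (y e.1 e.2)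
        have := r w (by linarith) e he
        have := r y (by linarith) e he
        rw [abs_mul] at *
        nlinarith [abs_nonneg (gr η α y e)]
    rw [← mul_sum] at b3
    have b4 := le_of_mul_le_mul_left (hp.trans (b := δ * γ) (c := 2 * R * (δ * ∑ e ∈ univ.offDiag, |gr η α y e|))
      (by nlinarith)) (by positivity)
    linarith [S w]

end Vale.Agent.P308
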