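import Vale.Agent.P308.Init
import Vale.Agent.P308.Psi

/-! The sequence of weights produced by the algorithm. -/

namespace Vale.Agent.P308

open Finset Function Real
open Vale.Agent.P328 (prodR)
open Vale.Agent.P317 (bit b2n sumR allR allR_iff Agree)

set_option linter.unusedSectionVars false
set_option linter.unusedSimpArgs false

structure Cond (p : Par) (A G m k l : ℕ) : Prop where
  n2 : 2 ≤ p.n
  J0 : 0 < p.J
  B0 : 0 < p.B
  m0 : 0 < m
  k0 : 0 < k
  hN : p.N = 2 ^ p.κ
  hM : p.M = 2 ^ p.s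
  Mn : p.n ≤ p.M
  T1 : p.n ^ 2 * (p.D + 1) ≤ p.T
  T2 : p.T ≤ 2 * p.n ^ 2 * p.D
  d1 : 32 * p.n * p.J * p.N ≤ p.D
  p1 : 491520 * p.n ^ 14 ≤ A
  p2 : 1228800 * p.n ^ 14 * p.J ≤ p.D
  p3 : 245760 * p.n ^ 13 ≤ p.J
  ac : 128 * p.n ^ 3 * p.J * k ≤ A
  gap : p.M ^ 26 * (16 * (p.n + 1) ^ 2 * p.n ^ 8 * (128 * p.n ^ 5) ^ 6 + 1) ≤ G
  hk : 14 * m * G ≤ p.N
  he : 32 * G * p.N ≤ 2 ^ p.e
  hB : 4 * m * 2 ^ p.e * G * p.N ≤ p.B
  hh : 4 * m * A ^ 2 ≤ p.N
  hkb : p.n ^ 2 * p.n ^ p.n * (p.D + 1) ≤ 2 ^ p.kb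
  hab : (4 * p.n ^ 2 * (p.D + 1) ^ (2 * p.J * p.T)) ^ (2 * p.n) < 2 ^ p.ab
  hf : (p.T + 1) * (2 * p.n ^ 2 + 5 + (p.T + 1) * p.B) * 2 ^ l ≤ 2 ^ m

variable (p : Par) [NeZero p.n] [h2 : Fact (Even p.n)] (g : List Bool) (H : ℕ → List Bool)

noncomputable def lq : ℝ := log ((p.D + 1) / p.D)

noncomputable def SS : ℝ := (4 * p.n ^ 2 - p.n + 1) * pw p (p.J * p.T)

noncomputable def al (t : ℕ) (u v : Fin p.n) : ℝ := if adj p g u v then 1 else exp (-(t * lq p))

noncomputable def yy (t : ℕ) (u v : Fin p.n) : ℝ :=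
  log ((p.n - 1) / (4 * p.n ^ 2 - p.n + 1)) + p.J * lq p * (2 * upc p g H u v t - t)

noncomputable def ff (t : ℕ) : Fin p.n → Fin p.n → ℝ := ph (al p g t) (yy p g H t)

noncomputable def xi (s : ℕ) : Option (Option (Fin p.n × Fin p.n)) → Om (Fin p.n) → ℝ
  | none, x => if ∀ v : Fin p.n, adj p g v (x.1 v) then 1 / wt (ff p g H s) x else 0
  | some none, x => wt (ff p g H (s - 1)) x / wt (ff p g H s) x / (4 * p.n * (p.J * lq p))
  | some (some e), x => if x.1 e.1 = e.2 then 1 else 0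

def ok (A s : ℕ) (x : Fin p.N → Om (Fin p.n)) : Prop :=
  ∀ a, |∑ q, (xi p g H s a (x q) - ∑ y, pi0 (ff p g H s) y * xi p g H s a y)| ≤ p.N * (1 / A)

def Gd (A s : ℕ) : Prop := ∀ t < s, ok p g H A t (toSt p (H t))

def ZG : ℕ := (univ.filter fun x : Om (Fin p.n) => ∀ v : Fin p.n, adj p g v (x.1 v)).card

variable {p g H} {A G m k l : ℕ}

theorem al_pos (t : ℕ) (u v : Fin p.n) : 0 < al p g t u v := by unfold al; split_ifs <;> positivity

theorem ff_pos (t : ℕ) (u v : Fin p.n) : 0 < ff p g H t u v := ph_pos (al_pos t) u v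

theorem evn : Even (Fintype.card (Fin p.n)) := by simpa using h2.out

theorem ff_dep {H' : ℕ → List Bool} {s : ℕ} (h : Agree s H H') {t : ℕ} (ht : t ≤ s) : ff p g H t = ff p g H' t := by
  have : ∀ u v, upc p g H u v t = upc p g H' u v t := fun u v => by
    induction t with
    | zero => rfl
    | succ t ih => rw [upc, upc, ih (by omega), h t ht]
  funext u v
  simp only [ff, ph, yy, this]

theorem ok_dep {H' : ℕ → List Bool} {s : ℕ} (h : Agree s H H') {t : ℕ} (ht : t ≤ s) :
    ok p g H A t = ok p g H' A t := by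
  have : xi p g H t = xi p g H' t := by
    funext a x
    rcases a with _ | _ | a <;> simp only [xi, ff_dep h ht, ff_dep h ((Nat.sub_le t 1).trans ht)]
  funext x
  simp only [ok, this, ff_dep h ht]

theorem df_le (n : ℕ) : df n ≤ n ^ n := by
  induction n using Nat.strong_induction_on with
  | _ n ih =>
    rcases n with _ | _ | n
    · simp [df]
    · simp [df]
    · rw [df, pow_succ', pow_succ']
      exact Nat.mul_le_mul (by omega) ((ih n (by omega)).trans ((Nat.pow_le_pow_left (by omega) _).trans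
        (Nat.le_mul_of_pos_left _ (by omega))))

theorem card_Om : Fintype.card (Om (Fin p.n)) = df p.n := by simp [card_Iv p.n]

namespace Cond

variable (C : Cond p A G m k l)
include C

theorem N0 : 0 < p.N := by rw [C.hN]; positivity

theorem D0 : 0 < p.D := lt_of_lt_of_le (by have := C.J0; have := C.N0; have := C.n2; positivity) C.d1

theorem lq_bd : 1 / (p.D + 1 : ℝ) ≤ lq p ∧ lq p ≤ 1 / p.D := by
  have : (0 : ℝ) < p.D := by exact_mod_cast C.D0
  refine ⟨le_trans (le_of_eq ?_) (one_sub_inv_le_log_of_pos (by positivity)),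
    (log_le_sub_one_of_pos (by positivity)).trans (le_of_eq ?_)⟩ <;> field_simp <;> ring

theorem lq0 : 0 < lq p := lt_of_lt_of_le (by positivity) C.lq_bd.1

theorem del : 32 * p.n * (p.J * lq p) * p.N ≤ 1 := by
  have : (0 : ℝ) < p.D := by exact_mod_cast C.D0
  have a : (32 * p.n * p.J * p.N : ℝ) ≤ p.D := by exact_mod_cast C.d1
  have := mul_le_mul_of_nonneg_left C.lq_bd.2 (show (0 : ℝ) ≤ 32 * p.n * p.J * p.N by positivity)
  rw [mul_one_div] at this
  linarith [(div_le_one (by positivity)).2 a]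

theorem del' : 32 * p.n * (p.J * lq p) ≤ 1 := by
  have := C.lq0
  exact le_trans (le_mul_of_one_le_right (by positivity) (by exact_mod_cast C.N0)) C.del

theorem pw_eq {j : ℕ} (h : j ≤ 2 * p.J * p.T) : (pw p j : ℝ) = (p.D + 1) ^ (2 * p.J * p.T) * exp (-(j * lq p)) := by
  have : (0 : ℝ) < p.D := by exact_mod_cast C.D0
  obtain ⟨i, hi⟩ := Nat.exists_eq_add_of_le h
  rw [pw, hi, Nat.add_sub_cancel_left, exp_neg, exp_nat_mul, lq, exp_log (by positivity), div_pow, pow_add]
  push_cast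
  field_simp

theorem a0 : ((4 * p.n ^ 2 - p.n + 1 : ℕ) : ℝ) = 4 * p.n ^ 2 - p.n + 1 ∧ (0 : ℝ) < 4 * p.n ^ 2 - p.n + 1 := by
  have : p.n ≤ 4 * p.n ^ 2 := by nlinarith
  have e : ((4 * p.n ^ 2 - p.n + 1 : ℕ) : ℝ) = 4 * p.n ^ 2 - p.n + 1 := by push_cast [this]; rfl
  exact ⟨e, by rw [← e]; positivity⟩

theorem S0 : 0 < SS p := mul_pos C.a0.2 (by have := C.D0; unfold pw; positivity)

theorem w_eq {t : ℕ} (ht : t ≤ p.T) (u v : Fin p.n) : al p g t u v = aw p g t u v / SS p ∧
    exp (yy p g H t u v) = cw p t (upc p g H u v t) / SS p := by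
  have a := C.a0
  have n2 : (2 : ℝ) ≤ p.n := by exact_mod_cast C.n2
  have h1 : p.T ≤ p.J * p.T := Nat.le_mul_of_pos_left _ C.J0
  have h2 := upc_le p g H u v t
  have h3 : p.J * (p.T + t - 2 * upc p g H u v t) ≤ 2 * p.J * p.T := by
    rw [mul_comm 2 p.J, mul_assoc]; exact Nat.mul_le_mul_left _ (by omega)
  rw [aw, cw, SS, Nat.cast_mul, Nat.cast_mul, a.1, C.pw_eq h3, C.pw_eq (j := p.J * p.T) (by linarith),
    C.pw_eq (by cases adj p g u v <;> simp only [cond] <;> linarith), yy, exp_add, exp_log (div_pos (by linarith) a.2),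
    Nat.cast_pred (Nat.pos_of_neZero _), al]
  have := a.2.ne'
  generalize (4 * p.n ^ 2 - p.n + 1 : ℝ) = b at *
  constructor
  · cases adj p g u v <;> simp only [cond, Nat.cast_add, add_mul, neg_add, exp_add] <;> simp <;> field_simp
  · push_cast [show 2 * upc p g H u v t ≤ p.T + t by omega]
    field_simp
    rw [mul_assoc, ← exp_add]
    congr 2; ring

theorem ff_eq {t : ℕ} (ht : t ≤ p.T) {u v : Fin p.n} (h : u ≠ v) : ff p g H t u v = phi p g H t u v / SS p := by
  rw [ff, ph, if_neg h, (C.w_eq (H := H) ht u v).1, (C.w_eq ht u v).2, phi]; push_cast; ring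

theorem wt_eq {t : ℕ} (ht : t ≤ p.T) (x : Om (Fin p.n)) : wt (ff p g H t) x = 1 / SS p ^ p.n * WW p g H t x := by
  rw [wt, prod_congr rfl fun v _ => C.ff_eq ht (x.ne v), prod_div_distrib, WW]; simp; ring

theorem al_bd (t : ℕ) (u v : Fin p.n) : al p g (t + 1) u v ≤ al p g t u v ∧
    al p g t u v ≤ exp (lq p) * al p g (t + 1) u v ∧ al p g t u v ≤ 1 ∧ exp (-(t * lq p)) ≤ al p g t u v := by
  have := C.lq0
  have a : exp (-(t * lq p)) ≤ 1 := exp_le_one_iff.2 (neg_nonpos.2 (by positivity))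
  unfold al
  split_ifs
  · exact ⟨le_rfl, by simpa using this.le, le_rfl, a⟩
  · exact ⟨exp_le_exp.2 (by push_cast; linarith), by rw [← exp_add]; exact exp_le_exp.2 (by push_cast; linarith),
      a, le_rfl⟩

omit C in
theorem yy_succ (t : ℕ) (u v : Fin p.n) : yy p g H (t + 1) u v - yy p g H t u v =
    if 4 * p.n ^ 2 * cw p t (upc p g H u v t) * cnt p (H t) u v < p.N * phi p g H t u v then p.J * lq p
    else -(p.J * lq p) := by
  simp only [yy, upc, phi]
  split_ifs with h <;> simp [h, b2n] <;> ring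

theorem yy_abs (t : ℕ) (u v : Fin p.n) : |yy p g H (t + 1) u v - yy p g H t u v| ≤ p.J * lq p := by
  have := C.lq0
  rw [yy_succ]; split_ifs
  exacts [(abs_of_nonneg (by positivity)).le, by rw [abs_neg, abs_of_nonneg (by positivity)]]

theorem ff_step (t : ℕ) (u v : Fin p.n) (h : u ≠ v) : ff p g H t u v ≤ exp (p.J * lq p) * ff p g H (t + 1) u v ∧
    ff p g H (t + 1) u v ≤ exp (p.J * lq p) * ff p g H t u v := by
  have a := C.al_bd (g := g) t u v
  have b := abs_le.1 (C.yy_abs (g := g) (H := H) t u v)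
  have l0 := C.lq0
  have c : exp (lq p) ≤ exp (p.J * lq p) := exp_le_exp.2 (le_mul_of_one_le_left l0.le (by exact_mod_cast C.J0))
  simp only [ff, ph, if_neg h, mul_add, ← exp_add]
  exact ⟨add_le_add (a.2.1.trans (mul_le_mul_of_nonneg_right c (al_pos _ _ _).le)) (exp_le_exp.2 (by linarith)),
    add_le_add (a.1.trans (le_mul_of_one_le_left (al_pos _ _ _).le (one_le_exp (by positivity))))
      (exp_le_exp.2 (by linarith))⟩

theorem wt_step (t : ℕ) (x : Om (Fin p.n)) :
    1 - p.n * (p.J * lq p) ≤ wt (ff p g H t) x / wt (ff p g H (t + 1)) x ∧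
      wt (ff p g H t) x / wt (ff p g H (t + 1)) x ≤ 1 + 2 * (p.n * (p.J * lq p)) := by
  have a := wt_mono (fun u v => (ff_pos t u v).le) (fun u v h => (C.ff_step (g := g) (H := H) t u v h).1) x
  have b := wt_mono (fun u v => (ff_pos _ u v).le) (fun u v h => (C.ff_step (g := g) (H := H) t u v h).2) x
  have w := wt_pos (ff_pos (g := g) (H := H) (t + 1)) x.1
  have d := C.del'
  have l0 : 0 ≤ p.n * (p.J * lq p) := by have := C.lq0; positivity
  rw [Fintype.card_fin, ← exp_nat_mul] at a b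
  have e := abs_le.1 (abs_exp_sub_one_le (x := p.n * (p.J * lq p)) (by rw [abs_of_nonneg l0]; linarith))
  rw [abs_of_nonneg l0] at e
  rw [le_div_iff₀ w, div_le_iff₀ w]
  refine ⟨?_, a.trans (mul_le_mul_of_nonneg_right (by linarith) w.le)⟩
  rw [← div_le_iff₀' (exp_pos _), div_eq_mul_inv, ← exp_neg, mul_comm] at b
  exact (mul_le_mul_of_nonneg_right (by linarith [add_one_le_exp (-(p.n * (p.J * lq p)))]) w.le).trans b

theorem pi_step (t : ℕ) (x : Om (Fin p.n)) :
    pi0 (ff p g H t) x ≤ (1 + 4 * p.n * (p.J * lq p)) * pi0 (ff p g H (t + 1)) x := by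
  have a := wt_mono (fun u v => (ff_pos t u v).le) (fun u v h => (C.ff_step (g := g) (H := H) t u v h).1) x
  have b := Z_mono (fun u v => (ff_pos _ u v).le) fun u v h => (C.ff_step (g := g) (H := H) t u v h).2
  have w := wt_pos (ff_pos (g := g) (H := H) (t + 1)) x.1
  have z := fun t => Z_pos evn (ff_pos (p := p) (g := g) (H := H) t)
  have d := C.del'
  have l0 : 0 ≤ 2 * (p.n * (p.J * lq p)) := by have := C.lq0; positivity
  rw [Fintype.card_fin, ← exp_nat_mul] at a b
  have e := abs_le.1 (abs_exp_sub_one_le (x := 2 * (p.n * (p.J * lq p))) (by rw [abs_of_nonneg l0]; linarith))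
  rw [abs_of_nonneg l0, two_mul (p.n * _ : ℝ), exp_add] at e
  rw [pi0, pi0, ← mul_div_assoc, div_le_div_iff₀ (z _) (z _)]
  refine (mul_le_mul a b (z _).le (by positivity)).trans ?_
  rw [mul_mul_mul_comm, mul_assoc (1 + _)]
  exact mul_le_mul_of_nonneg_right (by linarith) (mul_pos w (z _)).le

theorem osc (s : ℕ) (a) (x y : Om (Fin p.n)) : xi p g H s a x - xi p g H s a y ≤ 1 := by
  rcases a with _ | _ | a
  · have : ∀ x, 0 ≤ xi p g H s none x ∧ xi p g H s none x ≤ 1 := fun x => by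
      have w := wt_pos (ff_pos (g := g) (H := H) s) x.1
      simp only [xi]
      split_ifs with h
      · refine ⟨by positivity, (div_le_one w).2 (le_trans (by simp) (prod_le_prod (f := fun _ => (1 : ℝ))
          (by simp) fun v _ => ?_))⟩
        simp only [ff, ph, if_neg (x.ne v), al, h v, if_true]
        linarith [exp_pos (yy p g H s v (x.1 v))]
      · simp
    linarith [this x, this y]
  · have : 0 < p.n * (p.J * lq p) := by have := C.lq0; have := C.J0; have := C.n2; positivity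
    simp only [xi]
    rw [← sub_div, div_le_one (by linarith)]
    rcases s with _ | s
    · rw [div_self (wt_pos (ff_pos _) _).ne', div_self (wt_pos (ff_pos _) _).ne']; linarith
    · rw [Nat.add_sub_cancel]
      linarith [C.wt_step (g := g) (H := H) s x, C.wt_step (g := g) (H := H) s y]
  · simp only [xi]; split_ifs <;> norm_num

theorem ff0 (u v : Fin p.n) (h : u ≠ v) : ff p g H 0 u v = 4 * p.n ^ 2 / (4 * p.n ^ 2 - p.n + 1) := by
  have n2 : (2 : ℝ) ≤ p.n := by exact_mod_cast C.n2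
  have := C.a0.2
  simp [ff, ph, h, al, yy, upc, exp_log (div_pos (show (0 : ℝ) < p.n - 1 by linarith) this)]
  rw [one_add_div this.ne']; congr 1; ring

theorem sub {s : ℕ} (hG : Gd p g H A s) (t : ℕ) (h1 : t ≤ s) (h2 : t ≤ p.T) :
    Sub (1 / (4 * p.n ^ 2)) (al p g t) (yy p g H t) (2 * (1 / (2560 * p.n ^ 6))) := by
  have n2 : (2 : ℝ) ≤ p.n := by exact_mod_cast C.n2
  have l0 := C.lq0
  have J0 : (0 : ℝ) < p.J := by exact_mod_cast C.J0
  have D0 : (0 : ℝ) < p.D := by exact_mod_cast C.D0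
  have N0 : (0 : ℝ) < p.N := by exact_mod_cast C.N0
  have A1 : (491520 * p.n ^ 14 : ℝ) ≤ A := by exact_mod_cast C.p1
  have A0 : (0 : ℝ) < A := lt_of_lt_of_le (by positivity) A1
  have n6 : (1 : ℝ) ≤ p.n ^ 6 := one_le_pow₀ (by linarith)
  induction t with
  | zero =>
    intro w
    have := Ps_ge (η := 1 / (4 * p.n ^ 2)) evn (al_pos (g := g) 0) (yy p g H 0) w
    rw [sum_eq_zero fun e he => by
      have a := C.a0.2
      rw [gr, ← ff, mg_const evn (by positivity) C.ff0 (mem_offDiag.1 he).2.2, mul_eq_zero, sub_eq_zero]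
      have : (0 : ℝ) < p.n - 1 := by linarith
      simp [qq, al, yy, upc, exp_log (div_pos this a)]
      rw [one_add_div a.ne', div_div_div_cancel_right₀ a.ne', show (4 * p.n ^ 2 - p.n + 1 + (p.n - 1) : ℝ) =
        4 * p.n ^ 2 by ring]
      left; field_simp] at this
    exact (by linarith : _ ≤ _).trans (le_add_of_nonneg_right (by positivity))
  | succ t ih =>
    have d := C.del'
    refine (ih (by omega) (by omega)).step (L := 2 * p.n ^ 2) (R := 16 * p.n ^ 6) (d := lq p) (δ := p.J * lq p)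
      (ζ := 1 / A) evn (fun u v => le_trans (exp_le_exp.2 (neg_le_neg ?_)) (C.al_bd t u v).2.2.2)
      (fun u v => (C.al_bd t u v).2.2.1) (by positivity) (by positivity) ?_ (by positivity) ?_ ?_ (al_pos _)
      (fun u v => (C.al_bd t u v).1) (fun u v => (C.al_bd t u v).2.1) l0.le (by positivity) ?_ ?_ (C.yy_abs t)
      (by positivity) (fun e he => ?_) ?_
    · have : (t : ℝ) ≤ 2 * p.n ^ 2 * p.D := by exact_mod_cast le_trans (by omega) C.T2
      exact (mul_le_mul this C.lq_bd.2 l0.le (by positivity)).trans (le_of_eq (by field_simp))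
    · rw [Fintype.card_fin]; field_simp; nlinarith
    · field_simp; linarith
    · rw [Fintype.card_fin]; field_simp
      nlinarith [pow_le_pow_left₀ (by norm_num) n2 3, mul_le_mul_of_nonneg_left (pow_le_pow_left₀ (by norm_num) n2 3)
        (show (0 : ℝ) ≤ p.n by positivity)]
    · rw [Fintype.card_fin]; nlinarith [mul_pos J0 l0]
    · nlinarith [mul_pos J0 l0]
    · have a := abs_le.1 (hG t (by omega) (some (some e)))
      have b : ∑ q, xi p g H t (some (some e)) (toSt p (H t) q) = cnt p (H t) e.1 e.2 := by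
        rw [cnt, sumR, sum_range]
        push_cast
        exact sum_congr rfl fun q _ => by simp [xi, b2n, rp_get (H t) q e.1, cond_fin, toSt]; congr
      simp only [sum_sub_distrib, b, sum_const, card_univ, Fintype.card_fin, nsmul_eq_mul] at a
      have q1 := qq_unit (y := yy p g H t) (al_pos (g := g) t) e.1 e.2
      have f0 := ff_pos (g := g) (H := H) t e.1 e.2
      have S0 := C.S0
      rw [C.ff_eq (by omega) (mem_offDiag.1 he).2.2] at f0
      have f1 := (div_pos_iff_of_pos_right S0).1 f0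
      have q2 : qq (al p g t) (yy p g H t) e.1 e.2 = cw p t (upc p g H e.1 e.2 t) / phi p g H t e.1 e.2 := by
        rw [qq, (C.w_eq (H := H) (by omega) _ _).1, (C.w_eq (by omega) _ _).2, phi]; push_cast; field_simp
      have q3 : 4 * p.n ^ 2 * cw p t (upc p g H e.1 e.2 t) * cnt p (H t) e.1 e.2 < p.N * phi p g H t e.1 e.2 ↔
          qq (al p g t) (yy p g H t) e.1 e.2 * cnt p (H t) e.1 e.2 < p.N * (1 / (4 * p.n ^ 2)) := by
        rw [q2, ← Nat.cast_lt (α := ℝ), div_mul_eq_mul_div, mul_one_div, div_lt_div_iff₀ f1 (by positivity)]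
        push_cast
        exact iff_of_eq (by ring_nf)
      change _ ≤ _ - _ * mg (ph (al p g t) (yy p g H t)) e.1 e.2 ∧ _ - _ * mg (ph (al p g t) (yy p g H t)) e.1 e.2 ≤ _ at a
      have z0 : (0 : ℝ) < 1 / A := by positivity
      have b1 := mul_le_mul_of_nonneg_left a.1 q1.1
      have b2 := mul_le_mul_of_nonneg_left a.2 q1.1
      have b3 := mul_le_mul_of_nonneg_left q1.2 (mul_pos N0 z0).le
      rw [yy_succ]
      simp only [q3]
      split_ifs with c
      · have : gr (1 / (4 * p.n ^ 2)) (al p g t) (yy p g H t) e ≤ 1 / A :=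
          le_of_mul_le_mul_left (by rw [gr]; linarith) N0
        rw [mul_comm]
        refine mul_le_mul_of_nonneg_left ?_ (by positivity)
        cases abs_cases (gr (1 / (4 * p.n ^ 2)) (al p g t) (yy p g H t) e) <;> linarith
      · have : -(1 / A) ≤ gr (1 / (4 * p.n ^ 2)) (al p g t) (yy p g H t) e :=
          le_of_mul_le_mul_left (by rw [gr]; linarith) N0
        rw [mul_neg, ← neg_mul, mul_comm]
        refine mul_le_mul_of_nonneg_left ?_ (by positivity)
        cases abs_cases (gr (1 / (4 * p.n ^ 2)) (al p g t) (yy p g H t) e) <;> linarith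
    · have a2 : (1228800 * p.n ^ 14 * p.J : ℝ) ≤ p.D := by exact_mod_cast C.p2
      have a3 : (245760 * p.n ^ 13 : ℝ) ≤ p.J := by exact_mod_cast C.p3
      have a4 := (le_div_iff₀ D0).1 C.lq_bd.2
      have a5 : 1228800 * p.n ^ 14 * p.J * lq p ≤ 1 := by nlinarith
      rw [Fintype.card_fin]
      field_simp
      nlinarith [mul_le_mul_of_nonneg_right A1 J0.le, mul_le_mul_of_nonneg_right a3 A0.le,
        mul_le_mul_of_nonneg_right a5 (mul_pos A0 J0).le]

end Cond

end Vale.Agent.P308
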