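import Mathlib

/-! Orthonormal coordinates and the two-particle operator. -/

namespace Vale.Agent.P308

open Finset Function

set_option linter.unusedSectionVars false
set_option linter.unusedSimpArgs false

variable {Ω : Type} [Fintype Ω] [DecidableEq Ω]

structure OB (π : Ω → ℝ) (o : Ω) (H : Ω → Ω → ℝ) : Prop where
  nn : ∀ x, 0 ≤ π x
  sym : ∀ a x, H a x = H x a
  orth : ∀ a b, ∑ c, H a c * H c b = if a = b then 1 else 0
  row : ∀ x, H o x = √(π x)

def mu (o a : Ω) : ℝ := if a = o then 1 else 2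

def ch (o a : Ω) : ℝ := if a = o then 0 else 1

noncomputable def Bf (π : Ω → ℝ) (J : Ω → Ω → ℝ) (f g : Ω → ℝ) : ℝ :=
  ∑ z, ∑ y, π z * J z y * ((f z - f y) * (g z - g y)) / 2

def p2 (π : Ω → ℝ) (z : Ω × Ω) : ℝ := π z.1 * π z.2

structure Ker (π : Ω → ℝ) (J : Ω × Ω → Ω × Ω → ℝ) (γ : ℝ) : Prop where
  pos : ∀ x, 0 < π x
  nn : ∀ z y, 0 ≤ J z y
  row : ∀ z, ∑ y, J z y ≤ 1
  rev : ∀ z y, p2 π z * J z y = p2 π y * J y z
  gap : ∀ f g : Ω → ℝ, γ * ∑ z, p2 π z * ((f z.1 - f z.2) ^ 2 + (g z.1 - g z.2) ^ 2) ≤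
    2 * Bf (p2 π) J (fun z => f z.1 + g z.2) fun z => f z.1 + g z.2

noncomputable def tt (π : Ω → ℝ) (H : Ω → Ω → ℝ) (a x : Ω) : ℝ := H a x * √(π x)

noncomputable def fn (π : Ω → ℝ) (H : Ω → Ω → ℝ) (g : Ω → ℝ) (x : Ω) : ℝ := ∑ a, g a * (H a x / √(π x))

variable {π : Ω → ℝ} {o : Ω} {H J : Ω → Ω → ℝ}

theorem exists_OB (h0 : ∀ x, 0 ≤ π x) (h1 : ∑ x, π x = 1) (o : Ω) : ∃ H, OB π o H := by
  let u := fun a => √(π a) - if a = o then 1 else 0
  have e : ∑ a, u a * u a = -2 * u o := by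
    simp only [u, sub_mul, mul_sub, sum_sub_distrib, Real.mul_self_sqrt (h0 _), h1]; simp; ring
  refine ⟨fun a x => (if a = x then 1 else 0) - 2 * (u a * u x) / ∑ a, u a * u a, h0,
    fun a x => by simp only [eq_comm, mul_comm], fun a b => ?_, fun x => ?_⟩
  · have : ∀ c, 2 * (u a * u c) / (∑ a, u a * u a) * (2 * (u c * u b) / ∑ a, u a * u a) =
      4 * (u a * u b) / (∑ a, u a * u a) ^ 2 * (u c * u c) := fun c => by ring
    simp only [sub_mul, mul_sub, sum_sub_distrib, this, ← mul_sum]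
    simp only [ite_mul, mul_ite, one_mul, mul_one, zero_mul, mul_zero, sum_ite_eq, sum_ite_eq', mem_univ, if_true]
    generalize ∑ a, u a * u a = s
    rcases eq_or_ne s 0 with rfl | h
    · simp
    · field_simp; ring
  · by_cases h : u o = 0
    · have := (sum_eq_zero_iff_of_nonneg fun a _ => mul_self_nonneg (u a)).1 (by rw [e, h, mul_zero]) x (mem_univ _)
      rw [h, mul_self_eq_zero.1 this]
      simp only [u, mul_self_eq_zero, sub_eq_zero] at this
      simp [this, eq_comm]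
    · rw [e]; field_simp; simp [u, eq_comm]

theorem OB.iso (O : OB π o H) (f : Ω → ℝ) : ∑ a, (∑ x, H a x * f x) ^ 2 = ∑ x, f x ^ 2 := by
  have : ∀ a, (∑ x, H a x * f x) ^ 2 = ∑ x, ∑ y, f x * f y * (H x a * H a y) := fun a => by
    rw [sq, sum_mul_sum]
    exact sum_congr rfl fun x _ => sum_congr rfl fun y _ => by rw [O.sym x]; ring
  simp only [this]
  rw [sum_comm]
  refine sum_congr rfl fun x _ => ?_
  rw [sum_comm]
  simp [← mul_sum, O.orth, sq]

theorem OB.one (O : OB π o H) : ∑ x, π x = 1 := by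
  have := O.orth o o
  simpa [O.sym _ o, O.row, Real.mul_self_sqrt (O.nn _)] using this

theorem OB.pair (O : OB π o H) : OB (p2 π) (o, o) fun a z => H a.1 z.1 * H a.2 z.2 := by
  refine ⟨fun z => mul_nonneg (O.nn _) (O.nn _), fun a x => by rw [O.sym, O.sym a.2], fun a b => ?_,
    fun z => by rw [O.row, O.row, p2, Real.sqrt_mul (O.nn _)]⟩
  rw [Fintype.sum_prod_type, sum_congr rfl fun c _ => sum_congr rfl fun d _ => mul_mul_mul_comm _ _ _ _]
  dsimp only
  rw [← sum_mul_sum, O.orth, O.orth]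
  simp [Prod.ext_iff, ite_and]; split_ifs <;> rfl

theorem OB.fn_sq (O : OB π o H) (h : ∀ x, 0 < π x) (g : Ω → ℝ) : ∑ x, π x * fn π H g x ^ 2 = ∑ a, g a ^ 2 := by
  rw [← O.iso g]
  refine sum_congr rfl fun x _ => ?_
  simp only [fn, ← mul_div_assoc, ← sum_div, div_pow, Real.sq_sqrt (O.nn x), O.sym x, mul_comm (H _ _)]
  field_simp [(h x).ne']

theorem OB.fn_mean (O : OB π o H) (g : Ω → ℝ) : ∑ x, π x * fn π H g x = g o := by
  have : ∀ a x, π x * (g a * (H a x / √(π x))) = g a * (H a x * H x o) := fun a x => by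
    rw [O.sym x, O.row]
    nth_rewrite 2 [← Real.div_sqrt]
    ring
  simp only [fn, mul_sum, this]
  rw [sum_comm]
  simp [← mul_sum, O.orth]

theorem OB.fn_hat (O : OB π o H) (h : ∀ x, 0 < π x) (F : Ω → ℝ) :
    fn π H (fun b => ∑ z, tt π H b z * F z) = F := by
  funext x
  have : ∀ b z, tt π H b z * F z * (H b x / √(π x)) = √(π z) * F z / √(π x) * (H z b * H b x) := fun b z => by
    rw [O.sym z, tt]; ring
  simp only [fn, sum_mul, this]
  rw [sum_comm]
  have := Real.sqrt_pos.2 (h x)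
  simp [← mul_sum, O.orth]; field_simp

theorem Bf_eq (rev : ∀ z y, π z * J z y = π y * J y z) (f g : Ω → ℝ) :
    Bf π J f g = ∑ z, π z * f z * ∑ y, J z y * (g z - g y) := by
  have : ∑ z, ∑ y, π z * J z y * (f y * (g y - g z)) = ∑ z, ∑ y, π z * J z y * (f z * (g z - g y)) := by
    rw [sum_comm]; simp only [rev _ _]
  have e : ∀ z y, π z * J z y * ((f z - f y) * (g z - g y)) =
    π z * J z y * (f z * (g z - g y)) + π z * J z y * (f y * (g y - g z)) := fun _ _ => by ring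
  simp only [Bf, ← sum_div, e, sum_add_distrib, this, add_self_div_two, mul_sum]
  exact sum_congr rfl fun _ _ => sum_congr rfl fun _ _ => by ring

theorem Bf_le (h0 : ∀ x, 0 ≤ π x) (nn : ∀ z y, 0 ≤ J z y) (row : ∀ z, ∑ y, J z y ≤ 1)
    (rev : ∀ z y, π z * J z y = π y * J y z) (f : Ω → ℝ) : Bf π J f f ≤ 2 * ∑ z, π z * f z ^ 2 := by
  have : ∑ z, ∑ y, π z * J z y * f y ^ 2 = ∑ z, ∑ y, π z * J z y * f z ^ 2 := by
    rw [sum_comm]; simp only [rev _ _]
  have e : ∑ z, ∑ y, π z * J z y * f z ^ 2 ≤ ∑ z, π z * f z ^ 2 := sum_le_sum fun z _ => by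
    simp only [mul_right_comm _ (J z _), ← mul_sum]
    exact mul_le_of_le_one_right (mul_nonneg (h0 z) (sq_nonneg _)) (row z)
  refine le_trans ?_ ((add_le_add e (this.trans_le e)).trans (two_mul _).ge)
  simp only [← sum_add_distrib]
  refine sum_le_sum fun z _ => sum_le_sum fun y _ => ?_
  nlinarith [mul_nonneg (mul_nonneg (h0 z) (nn z y)) (sq_nonneg (f z + f y))]

theorem Bf_fn (h g : Ω → ℝ) : Bf π J (fn π H h) (fn π H g) =
    ∑ a, h a * ∑ b, Bf π J (fun x => H a x / √(π x)) (fun x => H b x / √(π x)) * g b := by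
  simp only [Bf, fn, ← sum_sub_distrib, sum_mul_sum]
  simp only [mul_sum, sum_mul, sum_div]
  rw [sum_congr rfl fun _ _ => sum_comm, sum_comm]
  refine sum_congr rfl fun a _ => ?_
  rw [sum_congr rfl fun _ _ => sum_comm, sum_comm]
  exact sum_congr rfl fun _ _ => sum_congr rfl fun _ _ => sum_congr rfl fun _ _ => by ring

theorem Ker.coord {J : Ω × Ω → Ω × Ω → ℝ} {γ : ℝ} (K : Ker π J γ) (O : OB π o H) :
    ∃ R : Ω × Ω → Ω × Ω → ℝ, (∀ a b, R a b = R b a) ∧ (∀ b, R (o, o) b = 0) ∧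
      (∀ a (F : Ω × Ω → ℝ), ∑ z, tt π H a.1 z.1 * tt π H a.2 z.2 * ∑ y, J z y * (F z - F y) =
        ∑ b, R a b * ∑ z, tt π H b.1 z.1 * tt π H b.2 z.2 * F z) ∧
      (∀ g : Ω × Ω → ℝ, ∑ a, mu o a.1 * mu o a.2 * g a ^ 2 *
        (γ / 2 * (ch o a.1 + ch o a.2) - (γ + 5 / 2) * (ch o a.1 * ch o a.2)) ≤
        ∑ a, mu o a.1 * mu o a.2 * g a * ∑ b, R a b * g b) ∧
      ∀ g : Ω × Ω → ℝ, ∑ a, mu o a.1 * mu o a.2 * (∑ b, R a b * g b) ^ 2 ≤
        16 * ∑ a, mu o a.1 * mu o a.2 * g a ^ 2 := by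
  have O2 := O.pair
  have p0 : ∀ z, 0 < p2 π z := fun z => mul_pos (K.pos _) (K.pos _)
  have sq0 : ∀ x, √(π x) ≠ 0 := fun x => (Real.sqrt_pos.2 (K.pos x)).ne'
  have le := fun g => (Bf_le O2.nn K.nn K.row K.rev _).trans_eq (congrArg _ (O2.fn_sq p0 g))
  have w0 := fun z y => mul_nonneg (O2.nn z) (K.nn z y)
  set H2 := fun a z : Ω × Ω => H a.1 z.1 * H a.2 z.2 with hH
  have et : ∀ a z : Ω × Ω, tt π H a.1 z.1 * tt π H a.2 z.2 = tt (p2 π) H2 a z := fun a z => by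
    simp only [tt, hH, p2, Real.sqrt_mul (O.nn _)]; ring
  refine ⟨fun a b => Bf (p2 π) J (fun x => H2 a x / √(p2 π x)) fun x => H2 b x / √(p2 π x),
    fun a b => by simp only [Bf, mul_comm], fun b => ?_, fun a F => ?_, fun g => ?_, fun g => ?_⟩
  · simp [Bf, O2.row, div_self (Real.sqrt_pos.2 (p0 _)).ne']
  · have := Bf_fn (π := p2 π) (J := J) (H := H2) (Pi.single a 1) fun b => ∑ z, tt (p2 π) H2 b z * F z
    rw [O2.fn_hat p0, Bf_eq K.rev] at this
    simp only [et]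
    simp only [fn, Pi.single_apply, ite_mul, one_mul, zero_mul, sum_ite_eq', mem_univ, if_true] at this
    rw [← this]
    refine sum_congr rfl fun z _ => ?_
    rw [tt]
    nth_rewrite 1 [← Real.div_sqrt]
    ring
  · rw [← Bf_fn]
    let G := fun a : Ω × Ω => (ch o a.1 + ch o a.2 - 2 * (ch o a.1 * ch o a.2)) * g a
    let C := fun a : Ω × Ω => ch o a.1 * ch o a.2 * g a
    have e0 : ∀ (h : Ω × Ω → ℝ) (s t : ℝ), (∀ a, a ≠ (o, o) → h a = s * G a + t * C a) → ∀ z,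
        fn (p2 π) H2 h z = h (o, o) + s * fn (p2 π) H2 G z + t * fn (p2 π) H2 C z := fun h s t hh z => by
      have : h (o, o) = ∑ a, (if a = (o, o) then h a else 0) * (H2 a z / √(p2 π z)) := by
        simp [O2.row, div_self (Real.sqrt_pos.2 (p0 _)).ne']
      rw [this]
      simp only [fn, mul_sum, ← sum_add_distrib]
      refine sum_congr rfl fun a _ => ?_
      split_ifs with e
      · simp [e, G, C, ch]
      · rw [hh a e]; ring
    have e1 := e0 g 1 1 fun a _ => by simp only [G, C, ch]; grind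
    have e2 := e0 (fun a => mu o a.1 * mu o a.2 * g a) 2 4 fun a _ => by simp only [G, C, ch, mu]; grind
    have a1 : Bf (p2 π) J (fn (p2 π) H2 G) (fn (p2 π) H2 G) - 5 * Bf (p2 π) J (fn (p2 π) H2 C) (fn (p2 π) H2 C) ≤
        Bf (p2 π) J (fn (p2 π) H2 fun a => mu o a.1 * mu o a.2 * g a) (fn (p2 π) H2 g) := by
      simp only [Bf, mul_sum, ← sum_sub_distrib, e1, e2]
      refine sum_le_sum fun z _ => sum_le_sum fun y _ => ?_
      nlinarith [mul_nonneg (w0 z y) (sq_nonneg (fn (p2 π) H2 G z - fn (p2 π) H2 G y +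
        3 * (fn (p2 π) H2 C z - fn (p2 π) H2 C y)))]
    let f1 := fun x => ∑ a : Ω × Ω, ch o a.1 * (1 - ch o a.2) * g a * (H a.1 x / √(π x))
    let f2 := fun x => ∑ a : Ω × Ω, ch o a.2 * (1 - ch o a.1) * g a * (H a.2 x / √(π x))
    have e3 : fn (p2 π) H2 G = fun z => f1 z.1 + f2 z.2 := by
      funext z
      simp only [fn, f1, f2, ← sum_add_distrib, G, hH, p2, Real.sqrt_mul (O.nn _), ch]
      refine sum_congr rfl fun a _ => ?_
      have := sq0 z.1
      have := sq0 z.2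
      split_ifs with b1 b2 b2
      · ring
      · rw [b1, O.row]; field_simp; ring
      · rw [b2, O.row]; field_simp; ring
      · ring
    have a2 := K.gap f1 f2
    have a3 := O2.fn_sq p0 G
    have a4 := O2.fn_mean G
    rw [← e3] at a2
    have a5 : ∑ z, p2 π z * ((f1 z.1 - f1 z.2) ^ 2 + (f2 z.1 - f2 z.2) ^ 2) = 2 * ∑ a, G a ^ 2 := by
      have x1 : ∀ a b : Ω → ℝ, ∑ z : Ω × Ω, π z.1 * a z.1 * (π z.2 * b z.2) = (∑ x, π x * a x) * ∑ x, π x * b x :=
        fun a b => by rw [sum_mul_sum, Fintype.sum_prod_type]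
      have x2 := x1 (fun x => f1 x ^ 2) 1
      have x3 := x1 1 fun x => f1 x ^ 2
      have x4 := x1 (fun x => f2 x ^ 2) 1
      have x5 := x1 1 fun x => f2 x ^ 2
      have x6 := x1 f1 f1
      have x7 := x1 f2 f2
      have x8 := x1 f1 f2
      have x9 := x1 f1 1
      have x0 := x1 1 f2
      simp only [Pi.one_apply, mul_one, one_mul, O.one] at x2 x3 x4 x5 x9 x0
      have y1 : ∑ x, π x * f1 x + ∑ x, π x * f2 x = 0 := by
        rw [← x9, ← x0, ← sum_add_distrib, ← show G (o, o) = 0 by simp [G, ch], ← a4, e3]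
        exact sum_congr rfl fun _ _ => by simp only [p2]; ring
      have y2 : ∑ a, G a ^ 2 = ∑ x, π x * f1 x ^ 2 + ∑ x, π x * f2 x ^ 2 +
          2 * ((∑ x, π x * f1 x) * ∑ x, π x * f2 x) := by
        rw [← a3, e3, ← x2, ← x5, ← x8, mul_sum, ← sum_add_distrib, ← sum_add_distrib]
        exact sum_congr rfl fun _ _ => by simp only [p2]; ring
      have y3 : ∑ z, p2 π z * ((f1 z.1 - f1 z.2) ^ 2 + (f2 z.1 - f2 z.2) ^ 2) = ∑ x, π x * f1 x ^ 2 +
          ∑ x, π x * f1 x ^ 2 + ∑ x, π x * f2 x ^ 2 + ∑ x, π x * f2 x ^ 2 -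
          2 * ((∑ x, π x * f1 x) * ∑ x, π x * f1 x) - 2 * ((∑ x, π x * f2 x) * ∑ x, π x * f2 x) := by
        nth_rewrite 1 [← x2, ← x3, ← x4, ← x5]
        rw [← x6, ← x7]
        simp only [mul_sum, ← sum_add_distrib, ← sum_sub_distrib]
        exact sum_congr rfl fun _ _ => by simp only [p2]; ring
      rw [y2, y3, eq_neg_of_add_eq_zero_left y1]; ring
    have a6 : ∑ a, mu o a.1 * mu o a.2 * g a ^ 2 *
        (γ / 2 * (ch o a.1 + ch o a.2) - (γ + 5 / 2) * (ch o a.1 * ch o a.2)) =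
        γ * ∑ a, G a ^ 2 - 10 * ∑ a, C a ^ 2 := by
      simp only [mul_sum, ← sum_sub_distrib, G, C, mu, ch]
      exact sum_congr rfl fun a _ => by split_ifs <;> ring
    rw [a5] at a2
    linarith [le C]
  · set h := fun a => ∑ b, Bf (p2 π) J (fun x => H2 a x / √(p2 π x)) (fun x => H2 b x / √(p2 π x)) * g b
    have a1 : ∑ a, h a ^ 2 ≤ Bf (p2 π) J (fn (p2 π) H2 h) (fn (p2 π) H2 h) / 4 +
        Bf (p2 π) J (fn (p2 π) H2 g) (fn (p2 π) H2 g) := by
      refine le_trans (le_of_eq (by rw [Bf_fn]; simp only [sq]; rfl)) (b := Bf (p2 π) J (fn (p2 π) H2 h) (fn (p2 π) H2 g)) ?_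
      simp only [Bf, sum_div, ← sum_add_distrib]
      refine sum_le_sum fun z _ => sum_le_sum fun y _ => ?_
      nlinarith [mul_nonneg (w0 z y) (sq_nonneg (fn (p2 π) H2 h z - fn (p2 π) H2 h y -
        2 * (fn (p2 π) H2 g z - fn (p2 π) H2 g y)))]
    have a2 : ∑ a, mu o a.1 * mu o a.2 * h a ^ 2 ≤ 4 * ∑ a, h a ^ 2 := by
      rw [mul_sum]
      exact sum_le_sum fun a _ => mul_le_mul_of_nonneg_right (by unfold mu; split_ifs <;> norm_num) (sq_nonneg _)
    have a3 : ∑ a, g a ^ 2 ≤ ∑ a, mu o a.1 * mu o a.2 * g a ^ 2 :=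
      sum_le_sum fun a _ => le_mul_of_one_le_left (sq_nonneg _) (by unfold mu; split_ifs <;> norm_num)
    linarith [le h, le g]

end Vale.Agent.P308
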