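import Vale.Agent.P308.Guide

/-! A Poincare inequality for additive functions of two matchings. -/

namespace Vale.Agent.P308

open Finset Function

set_option linter.unusedSectionVars false

variable {V : Type} [Fintype V] [DecidableEq V]

structure Band (φ : V → V → ℝ) (η : ℝ) : Prop where
  ev : Even (Fintype.card V)
  h0 : ∀ u v, 0 < φ u v
  hd : ∀ v, φ v v = 1
  e0 : 0 < η
  e1 : η ≤ 1
  band : ∀ a b, a ≠ b → η * Z φ ∅ ≤ φ a b * φ b a * Z φ {a, b}

noncomputable def ww (φ : V → V → ℝ) (a b : V) : ℝ := Z φ {a, b} / Z φ ∅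

def ll (φ : V → V → ℝ) (a b : V) : ℝ := φ a b * φ b a

noncomputable def ga (φ : V → V → ℝ) (x : V → ℝ) (u v : V) : ℝ := if u = v then 1 else √(ll φ u v / (x u * x v))

def Eh (h : Fin 3 → V × V) (u v : V) : Prop := ∃ r, h r = (u, v) ∨ h r = (v, u)

def Low (φ : V → V → ℝ) (h : Fin 3 → V × V) : Prop := ∃ x, Feas (ww φ) x ∧
  ∀ r, ll φ (h r).1 (h r).2 ≤ 4 * Fintype.card V * (x (h r).1 * x (h r).2)

open Classical in
noncomputable def M2 (φ : V → V → ℝ) (f : (V → V) → ℝ) (z : (V → V) × (V → V)) : ℝ :=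
  ∑ h with Low φ h, ∑ q : Finset V × Finset V,
    if Tri (Eh h) (h 0).2 (h 1).2 (z, q) then (dif f z q.1 q.2 - dif f z ∅ q.2) ^ 2 else 0

variable {φ : V → V → ℝ} {η : ℝ} {x : V → ℝ} {m I F : V → V}

theorem Iv_ne (hV : Even (Fintype.card V)) : (Iv (∅ : Finset V)).Nonempty := by
  rw [← card_pos, card_Iv _ _ rfl, df_pos]; simpa

theorem Z_pos (hV : Even (Fintype.card V)) (h0 : ∀ u v, 0 < φ u v) : 0 < Z φ ∅ :=
  sum_pos (fun _ _ => wt_pos h0 _) (Iv_ne hV)

theorem mem_Iv0 : m ∈ Iv ∅ ↔ Involutive m ∧ ∀ v, m v ≠ v := by simp [mem_Iv, Finset.ext_iff]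

theorem Band.pot (B : Band φ η) : Pot (ww φ) (ll φ) := by
  have z := Z_pos B.ev B.h0
  refine ⟨fun a b h => div_pos (pos_of_mul_pos_right ((mul_pos B.e0 z).trans_le (B.band a b h))
    (mul_pos (B.h0 _ _) (B.h0 _ _)).le) z, fun a b => by rw [ww, ww, pair_comm], fun a b => mul_comm _ _,
    fun a b => mul_pos (B.h0 _ _) (B.h0 _ _), fun a b h => ?_, fun a a' p q h1 h2 h3 h4 h5 h6 => ?_⟩
  · rw [ww, ← mul_div_assoc, div_le_one z]
    exact Z_le (S := ∅) B.h0 B.hd (by simp) (by simp) h
  · have := lemA B.h0 B.hd h1 h2 h3 h4 h5 h6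
    simp only [ww, ll]
    field_simp
    linarith

theorem wt_ga (h0 : ∀ u v, 0 < φ u v) (hx : ∀ v, 0 < x v) (hm : m ∈ Iv ∅) :
    wt (ga φ x) m = wt φ m / ∏ v, x v := by
  rw [mem_Iv0] at hm
  have e1 : ∏ v, φ (m v) v = wt φ m := by
    rw [wt, ← Equiv.prod_comp hm.1.toPerm fun v => φ v (m v)]; simp [hm.1 _]
  have e2 : ∏ v, x (m v) = ∏ v, x v := Equiv.prod_comp hm.1.toPerm x
  rw [wt, prod_congr rfl fun v _ => show ga φ x v (m v) = _ from if_neg (hm.2 v).symm, ← Real.sqrt_prod _ fun v _ => by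
    have := h0 v (m v); have := h0 (m v) v; have := hx v; have := hx (m v); unfold ll; positivity]
  simp only [ll, prod_div_distrib, prod_mul_distrib, e1, e2]
  rw [← wt, ← div_mul_div_comm, Real.sqrt_mul_self (div_pos (wt_pos h0 _) (prod_pos fun v _ => hx v)).le]

theorem En_nn (h0 : ∀ u v, 0 < φ u v) (f : (V → V) → ℝ) : 0 ≤ En φ f :=
  sum_nonneg fun _ _ => sum_nonneg fun _ _ => by
    have := fun z : (V → V) × (V → V) => mul_pos (wt_pos h0 z.1) (wt_pos h0 z.2)
    split_ifs
    exacts [mul_nonneg (lt_min (this _) (this _)).le (sq_nonneg _), le_rfl]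

open Classical in
theorem Band.guide (B : Band φ η) {h : Fin 3 → V × V} (hl : Low φ h) (f : (V → V) → ℝ) :
    ∑ p with Tri (Eh h) (h 0).2 (h 1).2 p, W2 φ p.1 * (dif f p.1 p.2.1 p.2.2 - dif f p.1 ∅ p.2.2) ^ 2 ≤
      4 * (16 * Fintype.card V ^ 3 / η) ^ 6 * En φ f := by
  obtain ⟨x, hx, hl⟩ := hl
  have n1 : (1 : ℝ) ≤ Fintype.card V := by exact_mod_cast Fintype.card_pos_iff.2 ⟨(h 0).1⟩
  have z := Z_pos B.ev B.h0
  have c0 : 0 < (∏ v, x v) ^ 2 := pow_pos (prod_pos fun v _ => hx.1 v) 2
  have e : ∀ z ∈ PP, W2 (ga φ x) z = W2 φ z / (∏ v, x v) ^ 2 := fun z hz => by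
    rw [W2, wt_ga B.h0 hx.1 (mem_product.1 hz).1, wt_ga B.h0 hx.1 (mem_product.1 hz).2, W2]; ring
  have e0 := B.e0
  have := P308.guide (ψ := ga φ x) (θ := √η) (κ := √(4 * Fintype.card V)) (E := Eh h)
    (H := univ.image (fun r => (h r).1) ∪ univ.image fun r => (h r).2) B.ev (fun v => if_pos rfl) (fun u v => by
      unfold ga
      split_ifs with huv
      · exact Real.sqrt_le_one.2 B.e1
      · refine Real.sqrt_le_sqrt ?_
        have a1 := B.band u v huv
        have a2 := hx.2 u v huv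
        have a3 := mul_pos (hx.1 u) (hx.1 v)
        have a4 := B.pot.l0 u v
        rw [ww, ← mul_div_assoc, div_le_one z] at a2
        rw [le_div_iff₀ a3]
        refine le_of_mul_le_mul_right ?_ z
        rw [← ll] at a1
        nlinarith [mul_le_mul_of_nonneg_left a1 a3.le, mul_le_mul_of_nonneg_left a2 a4.le])
    (Real.sqrt_pos.2 e0) (Real.one_le_sqrt.2 (by linarith))
    ((card_union_le _ _).trans (add_le_add card_image_le card_image_le)) (fun u v ⟨r, hr⟩ => by
      refine ⟨by rcases hr with hr | hr <;> simp only [mem_union, mem_image, mem_univ, true_and] <;>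
        [exact Or.inl ⟨r, by rw [hr]⟩; exact Or.inr ⟨r, by rw [hr]⟩], ?_⟩
      unfold ga
      split_ifs
      · exact Real.one_le_sqrt.2 (by linarith)
      · refine Real.sqrt_le_sqrt ((div_le_iff₀ (mul_pos (hx.1 u) (hx.1 v))).2 ?_)
        have := hl r
        rcases hr with hr | hr <;> rw [hr] at this
        exacts [this, by rwa [B.pot.ls, mul_comm (x u)]]) (h 0).2 (h 1).2 f
  have e2 : En (ga φ x) f = En φ f / (∏ v, x v) ^ 2 := by
    simp only [En, sum_div]
    exact sum_congr rfl fun z hz => sum_congr rfl fun z' hz' => by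
      rw [e z hz, e z' hz', min_div_div_right c0.le]; split_ifs <;> ring
  rw [e2, sum_congr rfl fun p hp => by rw [e _ (mem_filter.1 hp).2.pp, div_mul_eq_mul_div], ← sum_div,
    ← mul_div_assoc, div_le_div_iff_of_pos_right c0, show 12 = 2 * 6 from rfl, pow_mul, div_pow, mul_pow,
    Real.sq_sqrt e0.le, Real.sq_sqrt (by positivity)] at this
  exact this.trans (le_of_eq (by ring))

theorem M2_nn (f : (V → V) → ℝ) (z : (V → V) × (V → V)) : 0 ≤ M2 φ f z :=
  sum_nonneg fun _ _ => sum_nonneg fun _ _ => by positivity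

theorem Band.sumM (B : Band φ η) (f : (V → V) → ℝ) : ∑ z ∈ PP, W2 φ z * M2 φ f z ≤
    Fintype.card V ^ 6 * (4 * (16 * Fintype.card V ^ 3 / η) ^ 6 * En φ f) := by
  classical
  refine (sum_le_sum_of_subset_of_nonneg (subset_univ _) fun z _ _ =>
    mul_nonneg (mul_pos (wt_pos B.h0 _) (wt_pos B.h0 _)).le (M2_nn _ _)).trans ?_
  simp only [M2, mul_sum]
  rw [sum_comm]
  refine (sum_le_card_nsmul _ _ _ fun h hh => le_trans (le_of_eq ?_) (B.guide (mem_filter.1 hh).2 f)).trans ?_
  · simp only [sum_filter, Fintype.sum_prod_type (α₂ := Finset V × Finset V), mul_ite, mul_zero, W2]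
  · have := En_nn B.h0 f
    have := B.e0
    rw [nsmul_eq_mul]
    refine mul_le_mul_of_nonneg_right ?_ (by positivity)
    exact_mod_cast (card_le_univ _).trans (le_of_eq (by simp; ring))

theorem cl_tw (hV : Even (Fintype.card V)) (hI : I ∈ Iv ∅) (hF : F ∈ Iv ∅) {U : Finset V} {a : V}
    (h : U ⊆ {a}) : cl (tw I F U) = I := by
  have h1 := mem_Iv0.1 hI
  have h2 := mem_Iv0.1 hF
  have h3 : ∀ u ∈ U, u = a := by simpa [subset_iff] using h
  refine cl_eq hV (inv_tw h1.1 h2.1) hI (a := a) (b := I a) (fun u => ?_) fun u => ?_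
  · have := h2.2 u
    simp only [tw, mix, cut]; grind
  · have := h1.2 u
    have := h1.1 u
    simp only [tw, mix, cut]; grind

set_option maxHeartbeats 1600000 in
theorem Band.cyc (B : Band φ η) (f : (V → V) → ℝ) (hI : I ∈ Iv ∅) (hF : F ∈ Iv ∅) (v : V) :
    (f (sw v (I, F)).1 - f I) ^ 2 ≤ Fintype.card V ^ 2 * M2 φ f (I, F) := by
  classical
  obtain ⟨c, L, L2, Ln, Le, c0, cL, inj, hc⟩ := cycle hI hF v
  have h1 := mem_Iv0.1 hI
  have h2 := mem_Iv0.1 hF
  have ma : ∀ i k s, k < L → s ≤ L → (c s ∈ (Ioc i k).image c ↔ i < s ∧ s ≤ k) := fun i k s hk hs => by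
    refine ⟨fun h => ?_, fun h => mem_image_of_mem _ (mem_Ioc.2 h)⟩
    obtain ⟨t, ht, e⟩ := mem_image.1 h
    rw [mem_Ioc] at ht
    rcases hs.lt_or_eq with hs | rfl
    · rwa [← inj (show t < L by omega) hs e]
    · have := inj (show t < s by omega) (show 0 < s by omega) (by rw [e, cL, c0]); omega
  have mC : ∀ s ≤ L, c s ∈ (range L).image c := fun s hs => by
    rcases hs.lt_or_eq with hs | rfl
    exacts [mem_image_of_mem _ (mem_range.2 hs), mem_image.2 ⟨0, by simp; omega, by rw [c0, cL]⟩]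
  have ed : ∀ m, m = I ∨ m = F → ∀ u ∈ (range L).image c,
      ∃ s < L, u = c s ∧ m u = c (s + 1) ∨ u = c (s + 1) ∧ m u = c s := fun m hm u hu => by
    obtain ⟨t, ht, rfl⟩ := mem_image.1 hu
    rw [mem_range] at ht
    by_cases e : m = if Even t then I else F
    · exact ⟨t, ht, Or.inl ⟨rfl, by rw [hc, e]⟩⟩
    · obtain ⟨s, hs, e1, e2⟩ : ∃ s < L, c t = c (s + 1) ∧ (Even s ↔ ¬ Even t) := by
        rcases t with _ | t
        · refine ⟨L - 1, by omega, by rw [Nat.sub_add_cancel (by omega), c0, cL], ?_⟩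
          rw [← Nat.even_add_one, Nat.even_sub (by omega)]; simp [Le]
        · exact ⟨t, by omega, rfl, by simp [Nat.even_add_one]⟩
      refine ⟨s, hs, Or.inr ⟨e1, ?_⟩⟩
      rw [e1, hc]
      have := h1.1 (c s)
      have := h2.1 (c s)
      grind
  have cC : ∀ m, m = I ∨ m = F → ∀ u, m u ∈ (range L).image c ↔ u ∈ (range L).image c := fun m hm => by
    have : ∀ u ∈ (range L).image c, m u ∈ (range L).image c := fun u hu => by
      obtain ⟨s, hs, h | h⟩ := ed m hm u hu <;> rw [h.2] <;> exact mC _ (by omega)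
    refine fun u => ⟨fun h => ?_, this u⟩
    have := this _ h
    rcases hm with rfl | rfl
    exacts [by rwa [h1.1 u] at this, by rwa [h2.1 u] at this]
  have sC : ∀ i k, k < L → (Ioc i k).image c ⊆ (range L).image c := fun i k hk =>
    image_subset_image fun t ht => by simp at ht ⊢; omega
  have pa : ∀ i k (X Y : V → V), (∀ t, i < t → t < k → (Even t → X (c t) = I (c t)) ∧ (¬ Even t → Y (c t) = F (c t))) →
      (Ioc i k).image c ⊆ orb X Y (c (i + 1)) := fun i k X Y h u hu => by
    obtain ⟨t, ht, rfl⟩ := mem_image.1 hu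
    obtain ⟨t1, t2⟩ := mem_Ioc.1 ht
    clear ht hu
    induction t, t1 using Nat.le_induction with
    | base => exact mem_orb _ _ _
    | succ t t1 ih =>
      have := orb_cl X Y _ _ (ih (by omega))
      have := h t t1 t2
      rw [hc]; grind
  have K1 : (1 : ℝ) ≤ Fintype.card V := by exact_mod_cast (by omega)
  have key : ∀ d i k : ℕ, k = i + d + 1 → k < L → ∀ x, Feas (ww φ) x →
      ll φ (c i) (c (i + 1)) ≤ 4 * Fintype.card V * (x (c i) * x (c (i + 1))) →
      ll φ (c k) (c (k + 1)) ≤ 4 * Fintype.card V * (x (c k) * x (c (k + 1))) →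
      |f (cl (tw I F ((Ioc i k).image c))) - f I| ≤ d * √(M2 φ f (I, F)) := by
    intro d
    induction d using Nat.strong_induction_on with
    | _ d ih =>
      intro i k hk kL x hx l1 l2
      rcases d with _ | d
      · rw [cl_tw B.ev hI hF (a := c k) (by simp [hk])]; simp
      obtain ⟨y, j, j1, j2, hy, l3⟩ := B.pot.split hx (c := c) (i := i) (k := k) (by omega) (by
        have : (k : ℝ) ≤ Fintype.card V := by exact_mod_cast (by omega)
        linarith [Nat.cast_nonneg (α := ℝ) i]) (inj.mono fun t ht => by simp at ht ⊢; omega)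
        (by rw [ma _ _ _ kL (by omega)]; omega) (by rw [ma _ _ _ kL (by omega)]; omega) l1 l2
      have a1 := ih (j - i - 1) (by omega) i j (by omega) (by omega) y hy (l3 _ (by simp)) (l3 _ (by simp))
      have a2 := ih (k - j - 1) (by omega) j k (by omega) kL y hy (l3 _ (by simp)) (l3 _ (by simp))
      have jL : j < L := by omega
      have T : Tri (Eh ![(c i, c (i + 1)), (c j, c (j + 1)), (c k, c (k + 1))]) (c (i + 1)) (c (j + 1))
          ((I, F), (Ioc i j).image c, (Ioc j k).image c) := by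
        refine ⟨mem_product.2 ⟨hI, hF⟩, disjoint_left.2 fun u a b => ?_, fun m hm u hu => ?_,
          Subset.antisymm (pa _ _ _ _ fun t t1 t2 => ?_) (orb_min ((ma _ _ _ jL (by omega)).2 (by omega)) ?_),
          Subset.antisymm (pa _ _ _ _ fun t t1 t2 => ?_) (orb_min ((ma _ _ _ kL (by omega)).2 (by omega)) ?_)⟩
        · obtain ⟨t, ht, rfl⟩ := mem_image.1 a
          rw [mem_Ioc] at ht
          rw [ma _ _ _ kL (by omega)] at b
          omega
        · have n1 : m u ≠ u := by rcases hm with rfl | rfl; exacts [h1.2 u, h2.2 u]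
          by_cases hC : u ∈ (range L).image c
          · obtain ⟨s, hs, h⟩ := ed m hm u hC
            have b1 := ma i j s jL hs.le
            have b2 := ma i j (s + 1) jL hs
            have b3 := ma j k s kL hs.le
            have b4 := ma j k (s + 1) kL hs
            have : s = i ∨ s = j ∨ s = k := by simp only [cut] at hu; grind
            rcases this with rfl | rfl | rfl
            exacts [⟨0, by simp; grind⟩, ⟨1, by simp; grind⟩, ⟨2, by simp; grind⟩]
          · have := cC m hm u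
            have := @sC i j jL
            have := @sC j k kL
            simp only [cut] at hu; grind
        iterate 2
          · have b1 := ma i j t jL (by omega)
            have b2 := ma i j (t + 1) jL (by omega)
            have b3 := ma j k t kL (by omega)
            have b4 := ma j k (t + 1) kL (by omega)
            rw [hc] at b2 b4
            simp only [cut]; grind
          · intro u hu; simp only [cut]; grind
      have a3 : |dif f (I, F) ((Ioc i j).image c) ((Ioc j k).image c) - dif f (I, F) ∅ ((Ioc j k).image c)| ≤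
          √(M2 φ f (I, F)) := by
        refine Real.abs_le_sqrt (le_trans ?_ (single_le_sum (fun _ _ => sum_nonneg fun _ _ => by positivity)
          (mem_filter.2 ⟨mem_univ ![(c i, c (i + 1)), (c j, c (j + 1)), (c k, c (k + 1))], y, hy, fun r => by
            fin_cases r <;> exact l3 _ (by simp)⟩)))
        refine le_trans ?_ (single_le_sum (fun _ _ => by positivity)
          (mem_univ ((Ioc i j).image c, (Ioc j k).image c)))
        exact (if_pos T).ge
      simp only [dif, empty_union, ← image_union, Ioc_union_Ioc_eq_Ioc j1.le j2.le,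
        cl_tw B.ev hI hF (empty_subset {v})] at a3
      have e : ((d + 1 : ℕ) : ℝ) = (j - i - 1 : ℕ) + (k - j - 1 : ℕ) + 1 := by exact_mod_cast (by omega)
      rw [e]
      rw [abs_le] at *
      constructor <;> linarith
  obtain ⟨y, hy, hs⟩ := B.pot.star v
  have lw : ∀ u, u ≠ v → ll φ v u ≤ 4 * Fintype.card V * (y v * y u) := fun u hu =>
    (hs u hu).trans (le_mul_of_one_le_left (mul_pos (hy.1 _) (hy.1 _)).le (by linarith))
  have nv : ∀ t, 0 < t → t < L → c t ≠ v := fun t a b h => by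
    have := inj b (show 0 < L by omega) (h.trans c0.symm); omega
  have := key (L - 2) 0 (L - 1) (by omega) (by omega) y hy (by rw [c0]; exact lw _ (nv _ (by omega) (by omega)))
    (by rw [Nat.sub_add_cancel (by omega), cL, B.pot.ls, mul_comm (y _)]; exact lw _ (nv _ (by omega) (by omega)))
  have mU : ∀ u, u ∈ (Ioc 0 (L - 1)).image c ↔ u ∈ (range L).image c ∧ u ≠ v := fun u => by
    refine ⟨fun h => ⟨sC _ _ (by omega) h, fun e => ?_⟩, fun h => ?_⟩
    · rw [e, ← c0, ma _ _ _ (by omega) (by omega)] at h; omega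
    · obtain ⟨t, ht, rfl⟩ := mem_image.1 h.1
      rw [mem_range] at ht
      rw [ma _ _ _ (by omega) ht.le]
      have : t ≠ 0 := fun e => h.2 (by rw [e, c0])
      omega
  have eo : orb I F v = (range L).image c := by
    refine Subset.antisymm (orb_min (c0 ▸ mC 0 (by omega)) fun u hu => ⟨(cC _ (Or.inl rfl) u).2 hu,
      (cC _ (Or.inr rfl) u).2 hu⟩) fun u hu => ?_
    by_cases e : u = v
    · rw [e]; exact mem_orb _ _ _
    · refine orb_min ?_ (orb_cl _ _ _) (pa 0 (L - 1) I F (by simp) ((mU u).2 ⟨hu, e⟩))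
      rw [hc, c0]; exact (orb_cl _ _ _ _ (mem_orb _ _ _)).1
  rw [cl_eq B.ev (inv_tw h1.1 h2.1) (X := (sw v (I, F)).1) (a := v) (b := F v)
    (by simpa [sw] using mix_Iv hI hF (orb_cl I F v)) (fun u => by
      have := cC _ (Or.inl rfl) u
      have := h1.2 u
      simp only [tw, sw, eo, mix, cut, mU]; grind) fun u => by
      have := cC _ (Or.inl rfl) u
      have := cC _ (Or.inr rfl) u
      have := h1.2 u
      have := h2.2 u
      have := h2.1 u
      simp only [tw, mix, cut, mU]; grind] at this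
  rw [← Real.sq_sqrt (M2_nn f (I, F)), ← mul_pow, ← sq_abs]
  refine pow_le_pow_left₀ (abs_nonneg _) (this.trans ?_) 2
  exact mul_le_mul_of_nonneg_right (by exact_mod_cast (by omega)) (Real.sqrt_nonneg _)

theorem tele (h0 : ∀ u v, 0 < φ u v) (f : (V → V) → ℝ) {M : ℝ} (M0 : 0 ≤ M)
    (h : ∀ v, ∑ z ∈ PP, W2 φ z * (f (sw v z).1 - f z.1) ^ 2 ≤ M) :
    ∑ z ∈ PP, W2 φ z * (f z.2 - f z.1) ^ 2 ≤ (Fintype.card V + 1) ^ 2 * M := by
  have : ∀ s : Finset V, ∑ z ∈ PP, W2 φ z * (f (mix z.1 z.2 (s.biUnion (orb z.1 z.2))) - f z.1) ^ 2 ≤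
      (s.card + 1) ^ 2 * M := by
    intro s
    induction s using Finset.induction_on with
    | empty => simpa [show ∀ X Y : V → V, mix X Y ∅ = X from fun _ _ => rfl]
    | insert v s hv ih =>
      have cl : ∀ X Y : V → V, Cl X Y (s.biUnion (orb X Y)) := fun X Y u hu => by
        obtain ⟨a, a1, a2⟩ := mem_biUnion.1 hu
        exact ⟨mem_biUnion.2 ⟨a, a1, (orb_cl _ _ _ _ a2).1⟩, mem_biUnion.2 ⟨a, a1, (orb_cl _ _ _ _ a2).2⟩⟩
      let R := fun z : (V → V) × (V → V) =>
        (mix z.1 z.2 (s.biUnion (orb z.1 z.2)), mix z.2 z.1 (s.biUnion (orb z.1 z.2)))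
      have RR : ∀ z, R (R z) = z := fun z => by
        simp only [R, show ∀ (X Y : V → V) U, orb (mix X Y U) (mix Y X U) = orb X Y from
          fun _ _ U => funext fun _ => orb_mix U, mix_mix]
      have RP : ∀ z ∈ PP, R z ∈ PP := fun z hz => by
        obtain ⟨a, b⟩ := mem_product.1 hz
        exact mem_product.2 ⟨by simpa using mix_Iv a b (cl _ _),
          by simpa using mix_Iv b a fun u hu => (cl _ _ u hu).symm⟩
      have e : ∑ z ∈ PP, W2 φ z * (f (sw v (R z)).1 - f (R z).1) ^ 2 ≤ M := by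
        refine le_trans (le_of_eq ?_) (h v)
        exact sum_nbij' R R RP RP (fun z _ => RR z) (fun z _ => RR z) fun z _ => by
          rw [W2, W2, wt_mix]
      have k0 : (0 : ℝ) < s.card + 1 := by positivity
      refine le_of_mul_le_mul_left ?_ k0
      rw [card_insert_of_notMem hv, Nat.cast_succ]
      generalize (s.card + 1 : ℝ) = k at *
      refine le_trans ?_ ((add_le_add (mul_le_mul_of_nonneg_left ih (show 0 ≤ k + 1 by linarith))
        (mul_le_mul_of_nonneg_left e (show 0 ≤ k * (k + 1) by positivity))).trans (le_of_eq (by ring)))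
      rw [mul_sum, mul_sum, mul_sum, ← sum_add_distrib]
      refine sum_le_sum fun z hz => ?_
      have w := mul_pos (wt_pos h0 z.1) (wt_pos h0 z.2)
      obtain ⟨a, b⟩ := mem_product.1 hz
      rw [mul_left_comm, mul_left_comm (k + 1), mul_left_comm (k * _), ← mul_add]
      refine mul_le_mul_of_nonneg_left ?_ w.le
      rw [biUnion_insert]
      by_cases hU : v ∈ s.biUnion (orb z.1 z.2)
      · rw [union_eq_right.2 (orb_min hU (cl _ _))]
        nlinarith [sq_nonneg (f (R z).1 - f z.1), sq_nonneg (f (sw v (R z)).1 - f (R z).1)]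
      · have d := orb_min (X := z.1) (Y := z.2) (mem_compl.2 hU) fun u hu => by
          simp only [mem_compl] at hu ⊢
          exact ⟨fun h => hu ((mem_Iv0.1 a).1 u ▸ (cl _ _ _ h).1), fun h => hu ((mem_Iv0.1 b).1 u ▸ (cl _ _ _ h).2)⟩
        have e2 : mix z.1 z.2 (orb z.1 z.2 v ∪ s.biUnion (orb z.1 z.2)) = (sw v (R z)).1 := by
          funext u
          have := @d u
          simp only [sw, R, orb_mix, mix, mem_union, mem_compl] at this ⊢
          grind
        rw [e2]
        nlinarith [sq_nonneg (f (R z).1 - f z.1 - k * (f (sw v (R z)).1 - f (R z).1))]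
  refine le_trans (le_of_eq (sum_congr rfl fun z _ => ?_)) (this univ)
  congr 4
  funext u
  exact (if_pos (mem_biUnion.2 ⟨u, mem_univ _, mem_orb _ _ _⟩)).symm

theorem Band.poin (B : Band φ η) (f : (V → V) → ℝ) : ∑ z ∈ PP, W2 φ z * (f z.2 - f z.1) ^ 2 ≤
    (Fintype.card V + 1) ^ 2 * (Fintype.card V ^ 8 * (4 * (16 * Fintype.card V ^ 3 / η) ^ 6 * En φ f)) := by
  have := En_nn B.h0 f
  have := B.e0
  refine tele B.h0 f (by positivity) fun v => le_trans (sum_le_sum fun z hz => ?_)
    ((mul_sum _ _ _).ge.trans ((mul_le_mul_of_nonneg_left (B.sumM f) (sq_nonneg (Fintype.card V : ℝ))).trans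
      (le_of_eq (by ring))))
  rw [mul_left_comm]
  exact mul_le_mul_of_nonneg_left (B.cyc f (mem_product.1 hz).1 (mem_product.1 hz).2 v)
    (mul_pos (wt_pos B.h0 _) (wt_pos B.h0 _)).le

end Vale.Agent.P308
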