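import Vale.Agent.P308.Algo

/-! Semantics of one move of the algorithm. -/

namespace Vale.Agent.P308

open Finset Equiv
open Function hiding swap
open Vale.Agent.P328 (prodR)
open Vale.Agent.P317 (bit b2n valU sumR allR mapR valB length_mapR allR_iff bit_mapR valB_eq Ex Ex_congr Ex_const
  Ex_append Ex_val Ex_all Ex_add Ex_mul Ex_sum Ex_mono)

set_option linter.unusedSectionVars false
set_option linter.unusedSimpArgs false

theorem cond_ite {β : Type} {b : Bool} {P : Prop} [Decidable P] (h : b = true ↔ P) (x y : β) :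
    cond b x y = if P then x else y := by
  cases b <;> simp_all

theorem cond_fin {β : Type} {n : ℕ} (a b : Fin n) (x y : β) : cond (Nat.beq a b) x y = if a = b then x else y :=
  cond_ite (by simp [Fin.ext_iff]) _ _

theorem Ex_lt {s d a : ℕ} (h : s ≤ d) (ha : a ≤ 2 ^ s) (x y : ℝ) :
    Ex d (fun l => if valU (l.take s) < a then x else y) = y + a / 2 ^ s * (x - y) := by
  obtain ⟨k, rfl⟩ := Nat.exists_eq_add_of_le h
  rw [Ex_append, Ex_congr (g := fun l => if valU l < a then x else y) fun l hl => by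
    simp only [List.take_left' hl, Ex_const], Ex_val s fun v => if v < a then x else y]
  have : ∀ v, (if v < a then x else y) = y + if v < a then x - y else 0 := fun v => by
    split_ifs <;> ring
  have e : (range (2 ^ s)).filter (· < a) = range a := by ext v; simp; omega
  simp only [this, sum_add_distrib, ← sum_filter, e, sum_const, card_range, nsmul_eq_mul]
  push_cast
  field_simp

theorem Ex_take (k d : ℕ) (G : List Bool → List Bool → ℝ) :
    Ex (k + d) (fun c => G (c.take k) (c.drop k)) = Ex k fun x => Ex d (G x) := by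
  rw [Ex_append]
  exact Ex_congr fun x hx => by simp only [List.take_left' hx, List.drop_left' hx]

theorem Ex_num {k N : ℕ} (h : N = 2 ^ k) (d : ℕ) (G : ℕ → List Bool → ℝ) :
    Ex (k + d) (fun c => G (valB N (c.take k)) (c.drop k)) = (∑ i ∈ range N, Ex d (G i)) / N := by
  rw [Ex_take k d fun x => G (valB N x), Ex_congr (g := fun x => Ex d (G (valU x))) fun x hx => by
    rw [valB_eq, min_eq_left (h ▸ hx ▸ (P337.valU_lt x).le)], Ex_val k fun i => Ex d (G i), h]
  simp

variable {p : Par} [NeZero p.n] {f f' o y X Y : ℕ → ℕ} {m o' y' X' Y' : Fin p.n → Fin p.n}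

def Rp (p : Par) (f : ℕ → ℕ) (m : Fin p.n → Fin p.n) : Prop := ∀ v : Fin p.n, f v = m v

def tf (p : Par) [NeZero p.n] (f : ℕ → ℕ) (v : Fin p.n) : Fin p.n := Fin.ofNat p.n (f v)

theorem okf_iff : okf p f = true ↔ ∀ v < p.n, f v < p.n ∧ f (f v) = v ∧ f v ≠ v := by
  simp only [okf, allR_iff, Bool.and_eq_true, Nat.ble_eq, Nat.beq_eq, Bool.not_eq_true', ← Bool.not_eq_true]
  rfl

theorem Rp.ok (h : Rp p f m) : okf p f = true ↔ m ∈ Iv ∅ := by
  rw [okf_iff, mem_Iv0]
  refine ⟨fun a => ⟨fun v => Fin.ext ?_, fun v e => (a v v.2).2.2 (by rw [h, e])⟩, fun a v hv => ?_⟩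
  · rw [← h, ← h, (a v v.2).2.1]
  · rw [show f v = _ from h ⟨v, hv⟩, h, a.1]
    exact ⟨Fin.is_lt _, rfl, fun e => a.2 _ (Fin.ext e)⟩

theorem rp_tf (h : okf p f = true) : Rp p f (tf p f) := fun v => (Nat.mod_eq_of_lt (okf_iff.1 h v v.2).1).symm

variable [h2 : Fact (Even p.n)]

theorem ok_san (f : ℕ → ℕ) : okf p (fun v => cond (okf p f) (f v) (dfl v)) = true := by
  cases h : okf p f
  · obtain ⟨k, hk⟩ := h2.out
    exact okf_iff.2 fun v hv => by simp only [cond_false, dfl]; omega
  · exact h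

def san (p : Par) [NeZero p.n] [Fact (Even p.n)] (f : ℕ → ℕ) : Om (Fin p.n) :=
  ⟨_, (rp_tf (ok_san f)).ok.1 (ok_san f)⟩

theorem rp_get (l : List Bool) (q : ℕ) : Rp p (get p l q) (san p (raw p l q)).1 := rp_tf (ok_san _)

theorem san_eq {x : Om (Fin p.n)} (h : Rp p f x.1) : san p f = x :=
  Subtype.ext (funext fun v => Fin.ext ((rp_tf (ok_san f) v).symm.trans (by simp only [h.ok.2 x.2, cond_true, h v])))

theorem san_congr (h : ∀ v < p.n, f v = f' v) : san p f = san p f' := by
  have : okf p f = okf p f' := Bool.eq_iff_iff.2 (by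
    simp only [okf_iff]
    exact forall₂_congr fun v hv => by rw [← h v hv]; exact and_congr_right fun a => by rw [h _ a])
  exact Subtype.ext (funext fun v => by simp only [san, tf, this, h v v.2])

theorem raw_enc (F : ℕ → ℕ → ℕ) {q v : ℕ} (hq : q < p.N) (hv : v < p.n) :
    raw p (enc p F) q v = min (F q v) p.n := by
  rw [raw, sumR, sum_congr rfl (g := fun u => if u < F q v then 1 else 0) fun u hu => by
    rw [mem_range] at hu
    have : (q * p.n + v + 1) * p.n ≤ p.N * p.n * p.n := Nat.mul_le_mul_right _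
      (le_trans (by rw [Nat.succ_mul]; omega) (Nat.mul_le_mul_right _ (Nat.succ_le_of_lt hq)))
    rw [enc, bit_mapR _ (by rw [Par.W]; rw [Nat.succ_mul] at this; omega), Nat.mul_add_mod_of_lt hu,
      mul_comm _ p.n, Nat.mul_add_div (by omega), Nat.div_eq_of_lt hu, add_zero, Nat.mul_add_mod_of_lt hv,
      mul_comm _ p.n, Nat.mul_add_div (by omega), Nat.div_eq_of_lt hv, add_zero, b2n]
    exact cond_ite Nat.ble_eq.to_iff _ _, ← card_filter]
  rw [← card_range (min _ _)]
  congr 1; ext u; simp [and_comm]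

def toSt (p : Par) [NeZero p.n] [Fact (Even p.n)] (l : List Bool) (q : Fin p.N) : Om (Fin p.n) := san p (raw p l q)

theorem toSt_enc {F : ℕ → ℕ → ℕ} {q : Fin p.N} {x : Om (Fin p.n)} (h : Rp p (F q) x.1) : toSt p (enc p F) q = x :=
  san_eq fun v => by rw [raw_enc F q.2 v.2, h, min_eq_left (Fin.is_lt _).le]

theorem swp_eq (a b v : Fin p.n) : swp a b v = swap a b v := by
  simp only [swp, swap_apply_def, cond_fin]
  split_ifs <;> rfl

theorem sgN_eq (a q : ℕ) (v : Fin p.n) : sgN p a q v = sg (fun r => Fin.ofNat p.n (dig p.M a r)) q v := by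
  simp only [sgN, sg, comp, ← swp_eq]; rfl

theorem rp_oN (l : List Bool) (i a q : ℕ) :
    Rp p (oN p l i a q) ((san p (raw p l i)).1 ∘ sg (fun r => Fin.ofNat p.n (dig p.M a r)) q) := fun v => by
  rw [oN, sgN_eq, rp_get]; rfl

theorem bit_orb (h1 : Rp p o o') (h2 : Rp p y y') (b : Fin p.n) (t : ℕ) (v : Fin p.n) :
    bit (orbL p o y b t) v = true ↔ v ∈ (grow o' y')^[t] {b} := by
  induction t generalizing v with
  | zero => simp [orbL, bit_mapR _ v.2, Fin.ext_iff]
  | succ t ih =>
    rw [iterate_succ_apply', orbL, grL, bit_mapR _ v.2]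
    simp only [Bool.or_eq_true, ih, Bool.not_eq_true', ← Bool.not_eq_true, allR_iff, not_forall, not_not,
      Bool.and_eq_true, Nat.beq_eq, grow, mem_union, mem_image, or_assoc]
    refine or_congr_right ⟨fun ⟨u, hu, a, c⟩ => ?_, ?_⟩
    · exact c.imp (fun c => ⟨⟨u, hu⟩, (ih _).1 a, Fin.ext (by rw [← h1, c])⟩)
        fun c => ⟨⟨u, hu⟩, (ih _).1 a, Fin.ext (by rw [← h2, c])⟩
    · rintro (⟨u, a, rfl⟩ | ⟨u, a, rfl⟩)
      exacts [⟨u, u.2, (ih _).2 a, Or.inl (h1 u)⟩, ⟨u, u.2, (ih _).2 a, Or.inr (h2 u)⟩]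

theorem rp_x (l : List Bool) (i j a : ℕ) :
    Rp p (x1 p l i j a) (psi (fun r => Fin.ofNat p.n (dig p.M a r)) (dig p.M a 25 == 0)
      (vl (san p (raw p l i), san p (raw p l j)))).1 ∧
    Rp p (x2 p l i j a) (psi (fun r => Fin.ofNat p.n (dig p.M a r)) (dig p.M a 25 == 0)
      (vl (san p (raw p l i), san p (raw p l j)))).2 := by
  have e : ∀ v : Fin p.n, (Nat.beq (dig p.M a 25) 0 || bit (orbL p (oN p l i a 0) (oN p l j a 6) (ev p a 24) p.n) v) =
      true ↔ v ∈ reg (fun r => Fin.ofNat p.n (dig p.M a r)) (dig p.M a 25 == 0)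
        (vl (san p (raw p l i), san p (raw p l j))) := fun v => by
    have := bit_orb (rp_oN l i a 0) (rp_oN l j a 6) (Fin.ofNat p.n (dig p.M a 24)) p.n v
    by_cases h : dig p.M a 25 = 0
    · simp [reg, h]
    · simpa [reg, h, orb, vl, ev, beq_false_of_ne h] using this
  constructor <;> intro v <;>
    simp only [x1, x2, mixN, sgN_eq, cond_ite (e _), psi, comp, mix, rp_oN l _ a _ _] <;> split_ifs <;> rfl

variable (p) (g : List Bool) (H : ℕ → List Bool) (t : ℕ)

def WW (x : Om (Fin p.n)) : ℕ := ∏ v : Fin p.n, phi p g H t v (x.1 v)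

variable {p}

theorem wgt_eq {x : Om (Fin p.n)} (h : Rp p f x.1) : wgt p g H t f = WW p g H t x := by
  rw [wgt, prodR, prod_range]; exact prod_congr rfl fun v _ => by rw [h]

theorem toSt_mvN (l z : List Bool) (i j : Fin p.N) (a : ℕ) (y : List Bool) (x w) (hx : x = toSt p l)
    (hw : w = lab p.M (Fin.ofNat p.n) a (pr x (i, j))) : toSt p (mvN p g H t l z i j a y) =
      if ((∀ r < p.e, bit z r = true) ∧ i ≠ j) ∧ valU (y.take (max (WW p g H t (x i) * WW p g H t (x j))
        (WW p g H t w.1 * WW p g H t w.2)).size) < WW p g H t w.1 * WW p g H t w.2 then up x (i, j) w else x := by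
  subst hx
  obtain ⟨r1, r2⟩ := rp_x (p := p) l i j a
  funext q
  refine toSt_enc fun v => ?_
  rw [lab, mv] at hw
  split_ifs at hw with c
  · have r3 : Rp p (x1 p l i j a) w.1.1 := hw ▸ r1
    have r4 : Rp p (x2 p l i j a) w.2.1 := hw ▸ r2
    split_ifs with d
    · rw [show okm p g H t l z i j a y = true by
        simpa only [okm, r1.ok.2 c.1, r2.ok.2 c.2, wgt_eq g H t r3, wgt_eq g H t r4,
          wgt_eq g H t (rp_get l _), Bool.and_self, Bool.true_and, Bool.and_eq_true, allR_iff, decide_eq_true_eq,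
          Bool.not_eq_true', ← Bool.not_eq_true, Nat.beq_eq, Fin.val_inj, toSt, ne_eq] using d]
      simp only [up, update_apply, cond_fin, cond_true]
      split_ifs
      exacts [r4 v, r3 v, rp_get l q v]
    · rw [show okm p g H t l z i j a y = false by
        simpa only [okm, r1.ok.2 c.1, r2.ok.2 c.2, wgt_eq g H t r3, wgt_eq g H t r4,
          wgt_eq g H t (rp_get l _), Bool.and_self, Bool.true_and, Bool.and_eq_true, allR_iff, decide_eq_true_eq,
          Bool.not_eq_true', ← Bool.not_eq_true, Nat.beq_eq, Fin.val_inj, toSt, ne_eq] using d]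
      exact rp_get l q v
  · have : okm p g H t l z i j a y = false := by
      rw [← Bool.not_eq_true]
      simp only [okm, Bool.and_eq_true, r1.ok, r2.ok]
      exact fun h => c h.2.1
    rw [this, hw, up_pr, ite_self]
    exact rp_get l q v

theorem Ex_move (hN : p.N = 2 ^ p.κ) (hM : p.M = 2 ^ p.s)
    (hb : ∀ x y, WW p g H t x * WW p g H t y < 2 ^ p.ab) (l : List Bool) (F : (Fin p.N → Om (Fin p.n)) → ℝ) :
    Ex p.cm (fun c => F (toSt p (move p g H t l c))) =
      Pop (JJ p.M (Fin.ofNat p.n) (WW p g H t)) (1 / 2 ^ p.e) F (toSt p l) := by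
  have hM' : p.M ^ 26 = 2 ^ (26 * p.s) := by rw [hM, ← pow_mul, mul_comm]
  have N0 : (p.N : ℝ) ≠ 0 := by rw [hN]; positivity
  have M0 : (p.M : ℝ) ≠ 0 := by rw [hM]; positivity
  set x := toSt p l with hx
  let D := fun q : Fin p.N × Fin p.N => ∑ y, JJ p.M (Fin.ofNat p.n) (WW p g H t) (pr x q) y * (F x - F (up x q y))
  have e1 : ∀ z (i j : Fin p.N), (∑ a ∈ range (p.M ^ 26), Ex p.ab fun y => F (toSt p (mvN p g H t l z i j a y))) /
      (p.M ^ 26 : ℕ) = F x - if (∀ r < p.e, bit z r = true) ∧ i ≠ j then D (i, j) else 0 := fun z i j => by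
    simp only [toSt_mvN g H t l z i j _ _ x _ hx rfl]
    split_ifs with c
    · simp only [eq_true c, true_and, apply_ite F]
      rw [sum_congr rfl fun a _ => Ex_lt (Nat.size_le.2 (max_lt (hb _ _) (hb _ _)))
        ((le_max_right _ _).trans (Nat.lt_size_self _).le) _ _]
      simp only [D, sum_JJ, sum_add_distrib, sum_const, card_range, nsmul_eq_mul]
      rw [eq_sub_iff_add_eq, Nat.cast_pow, ← add_div, add_assoc, ← sum_add_distrib,
        sum_eq_zero fun a _ => by simp only [acc, pr]; ring]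
      field_simp; ring
    · simp only [c, false_and, if_false, Ex_const, sum_const, card_range, nsmul_eq_mul, Nat.cast_pow]
      field_simp; ring
  rw [Par.cm]
  simp only [move]
  rw [Ex_take p.e _ fun z c => F (toSt p (mvN p g H t l z (valB p.N (c.take p.κ)) (valB p.N ((c.drop p.κ).take p.κ))
    (valB (p.M ^ 26) (((c.drop p.κ).drop p.κ).take (26 * p.s))) (((c.drop p.κ).drop p.κ).drop (26 * p.s))))]
  simp only [fun z d => Ex_num hN d fun i c => F (toSt p (mvN p g H t l z i (valB p.N (c.take p.κ))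
    (valB (p.M ^ 26) ((c.drop p.κ).take (26 * p.s))) ((c.drop p.κ).drop (26 * p.s)))),
    fun z i d => Ex_num hN d fun j c => F (toSt p (mvN p g H t l z i j (valB (p.M ^ 26) (c.take (26 * p.s)))
    (c.drop (26 * p.s)))), fun z i j d => Ex_num hM' d fun a c => F (toSt p (mvN p g H t l z i j a c)),
    sum_range (n := p.N), e1]
  rw [Ex_congr (g := fun z => if ∀ r < p.e, bit z r = true then F x - (∑ q ∈ univ.offDiag, D q) / p.N ^ 2 else F x)
    fun z _ => ?_, Ex_all le_rfl, Pop]
  · ring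
  · simp only [sum_sub_distrib, sub_div, ← sum_div, sum_const, card_univ, Fintype.card_fin, nsmul_eq_mul,
      mul_div_cancel_left₀ _ N0]
    split_ifs with c
    · simp only [eq_true c, true_and]
      rw [← sum_product', ← sum_filter, div_div, ← sq]
      congr 3
      ext q; simp
    · simp [c]

end Vale.Agent.P308
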