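import Vale.Agent.P308.Inv

/-! Potentials, triangulation of an alternating cycle. -/

namespace Vale.Agent.P308

open Finset Function

set_option linter.unusedSectionVars false

variable {V : Type} [Fintype V] [DecidableEq V]

structure Pot (w l : V → V → ℝ) : Prop where
  w0 : ∀ a b, a ≠ b → 0 < w a b
  ws : ∀ a b, w a b = w b a
  ls : ∀ a b, l a b = l b a
  l0 : ∀ a b, 0 < l a b
  one : ∀ a b, a ≠ b → l a b * w a b ≤ 1
  four : ∀ a a' p q, a ≠ p → a ≠ a' → a ≠ q → p ≠ a' → p ≠ q → a' ≠ q →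
    l a a' * (w a p * w a' q) ≤ 2 * w p q + l a a' * (w a' p * w a q)

def Feas (w : V → V → ℝ) (x : V → ℝ) : Prop := (∀ v, 0 < x v) ∧ ∀ a b, a ≠ b → x a * x b * w a b ≤ 1

variable {w l : V → V → ℝ} {x : V → ℝ}

theorem Pot.sat (P : Pot w l) (hV : ∀ v : V, ∃ u, u ≠ v) (hx : Feas w x) (s : Finset V) :
    ∃ y, Feas w y ∧ (∀ v, x v ≤ y v) ∧ ∀ v ∈ s, ∃ p, p ≠ v ∧ 1 ≤ y v * y p * w v p := by
  induction s using Finset.induction_on with
  | empty => exact ⟨x, hx, fun _ => le_rfl, by simp⟩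
  | insert v s _ ih =>
    obtain ⟨y, h1, h2, h3⟩ := ih
    obtain ⟨p, hp, hm⟩ := exists_max_image (univ.erase v) (fun p => y p * w v p)
      ((hV v).imp fun u hu => by simp [hu])
    have hp' := ne_of_mem_erase hp
    have q0 : 0 < y p * w v p := mul_pos (h1.1 p) (P.w0 _ _ hp'.symm)
    have e : ∀ u, y u ≤ update y v (1 / (y p * w v p)) u := fun u => by
      rcases eq_or_ne u v with rfl | h
      · rw [update_self, le_div_iff₀ q0, ← mul_assoc]; exact h1.2 _ _ hp'.symm
      · rw [update_of_ne h]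
    have e2 : ∀ b, b ≠ v → 1 / (y p * w v p) * y b * w v b ≤ 1 := fun b hb => by
      rw [mul_assoc, one_div_mul_eq_div, div_le_one q0]; exact hm b (by simp [hb])
    refine ⟨_, ⟨fun u => (h1.1 u).trans_le (e u), fun a b hab => ?_⟩, fun u => (h2 u).trans (e u), fun u hu => ?_⟩
    · rcases eq_or_ne a v with rfl | ha
      · rw [update_self, update_of_ne hab.symm]; exact e2 b hab.symm
      · rcases eq_or_ne b v with rfl | hb
        · rw [update_self, update_of_ne hab, P.ws a, mul_comm (y a)]; exact e2 a hab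
        · rw [update_of_ne ha, update_of_ne hb]; exact h1.2 a b hab
    · rcases mem_insert.1 hu with rfl | hu
      · exact ⟨p, hp', by rw [update_self, update_of_ne hp', mul_assoc, one_div_mul_cancel q0.ne']⟩
      · obtain ⟨q, q1, q2⟩ := h3 u hu
        exact ⟨q, q1, q2.trans (mul_le_mul_of_nonneg_right (mul_le_mul (e u) (e q) (h1.1 q).le
          ((h1.1 u).le.trans (e u))) (P.w0 _ _ q1.symm).le)⟩

theorem Pot.push (P : Pot w l) (hx : Feas w x) {A : Finset V} (hA : A.offDiag.Nonempty) :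
    ∃ y, Feas w y ∧ (∀ u ∈ A, ∀ v ∉ A, y u * y v = x u * x v) ∧
      ∃ u ∈ A, ∃ v ∈ A, u ≠ v ∧ 1 ≤ y u * y v * w u v := by
  obtain ⟨p, hp, hm⟩ := exists_max_image _ (fun p : V × V => x p.1 * x p.2 * w p.1 p.2) hA
  rw [mem_offDiag] at hp
  have q0 := mul_pos (mul_pos (hx.1 p.1) (hx.1 p.2)) (P.w0 _ _ hp.2.2)
  have q1 := hx.2 _ _ hp.2.2
  obtain ⟨t, t0, ht⟩ : ∃ t : ℝ, 0 < t ∧ t * t = x p.1 * x p.2 * w p.1 p.2 :=
    ⟨_, Real.sqrt_pos.2 q0, Real.mul_self_sqrt q0.le⟩
  refine ⟨fun v => if v ∈ A then x v / t else x v * t, ⟨fun v => ?_, fun a b hab => ?_⟩,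
    fun u hu v hv => by simp only [hu, hv, if_true, if_false]; field_simp,
    _, hp.1, _, hp.2.1, hp.2.2, by simp only [hp.1, hp.2.1, if_true]; field_simp; linarith⟩
  · have := hx.1 v
    dsimp only
    split_ifs <;> positivity
  · have h := hx.2 a b hab
    have h0 := mul_pos (mul_pos (hx.1 a) (hx.1 b)) (P.w0 _ _ hab)
    dsimp only
    split_ifs with ha hb hb
    · have := hm (a, b) (mem_offDiag.2 ⟨ha, hb, hab⟩)
      field_simp; linarith
    · field_simp; linarith
    · field_simp; linarith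
    · nlinarith

theorem Pot.split (P : Pot w l) (hx : Feas w x) {K : ℝ} {c : ℕ → V} {i k : ℕ} (hk : i + 2 ≤ k)
    (hK : 4 * (k - i : ℝ) ≤ K) (hc : Set.InjOn c (Set.Ioc i k)) (hi : c i ∉ (Ioc i k).image c)
    (hk' : c (k + 1) ∉ (Ioc i k).image c) (h1 : l (c i) (c (i + 1)) ≤ K * (x (c i) * x (c (i + 1))))
    (h2 : l (c k) (c (k + 1)) ≤ K * (x (c k) * x (c (k + 1)))) : ∃ y j, i < j ∧ j < k ∧ Feas w y ∧
      ∀ t, t = i ∨ t = j ∨ t = k → l (c t) (c (t + 1)) ≤ K * (y (c t) * y (c (t + 1))) := by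
  have ne : ∀ s t, i < s → s < t → t ≤ k → c s ≠ c t := fun s t a b d h => by
    have := hc ⟨a, by omega⟩ ⟨by omega, d⟩ h; omega
  have m : ∀ s, i < s → s ≤ k → c s ∈ (Ioc i k).image c := fun s a b => mem_image_of_mem _ (by simp [a, b])
  obtain ⟨x1, f1, f2, u, hu, v, hv, huv, f3⟩ := P.push hx (A := (Ioc i k).image c)
    ⟨(c (i + 1), c k), mem_offDiag.2 ⟨m _ (by omega) (by omega), m _ (by omega) le_rfl,
      ne _ _ (by omega) (by omega) le_rfl⟩⟩
  obtain ⟨y, g1, g2, g3⟩ := P.sat (fun a => by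
    by_cases h : u = a
    exacts [⟨v, h ▸ huv.symm⟩, ⟨u, h⟩]) f1 univ
  have k2 : (2 : ℝ) ≤ k - i := by have : ((i + 2 : ℕ) : ℝ) ≤ k := by exact_mod_cast hk
                                  push_cast at this; linarith
  have K0 : 0 < K := by linarith
  have mo : ∀ a b, x1 a * x1 b ≤ y a * y b := fun a b => mul_le_mul (g2 a) (g2 b) (f1.1 b).le (g1.1 a).le
  by_contra hn
  have st : ∀ j, i < j → j < k → K * (y (c j) * y (c (j + 1))) < l (c j) (c (j + 1)) := fun j a b => by
    by_contra h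
    refine hn ⟨y, j, a, b, g1, ?_⟩
    rintro t (rfl | rfl | rfl)
    · refine h1.trans (mul_le_mul_of_nonneg_left (le_trans (le_of_eq ?_) (mo _ _)) K0.le)
      rw [mul_comm, ← f2 _ (m _ (by omega) (by omega)) _ hi, mul_comm]
    · exact not_lt.1 h
    · exact h2.trans (mul_le_mul_of_nonneg_left ((f2 _ (m _ (by omega) le_rfl) _ hk').ge.trans (mo _ _)) K0.le)
  have st2 : ∀ j, i < j → j < k → K * (y (c j) * y (c (j + 1)) * w (c j) (c (j + 1))) < 1 := fun j a b => by
    have h := ne j (j + 1) a (by omega) b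
    nlinarith [mul_lt_mul_of_pos_right (st j a b) (P.w0 _ _ h), P.one _ _ h]
  have key : ∀ s t, i < s → s < t → t ≤ k → ¬ 1 ≤ y (c s) * y (c t) * w (c s) (c t) := by
    intro s t a b d h
    have : ∀ j, s ≤ j → j < t → 1 - 2 * (j - s : ℝ) / K ≤ y (c j) * y (c t) * w (c j) (c t) := by
      intro j hj
      induction j, hj using Nat.le_induction with
      | base => simpa using fun _ => h
      | succ j hj ih =>
        intro hjt
        obtain ⟨q, q1, q2⟩ := g3 (c (j + 1)) (mem_univ _)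
        have j0 : (0 : ℝ) ≤ 2 * (j - s : ℝ) / K := by
          have : (s : ℝ) ≤ j := by exact_mod_cast hj
          exact div_nonneg (by linarith) K0.le
        rw [show 1 - 2 * ((j + 1 : ℕ) - s : ℝ) / K = 1 - 2 * (j - s : ℝ) / K - 2 / K by push_cast; ring]
        have K2 : 0 < 2 / K := by positivity
        by_cases hq : c t = q
        · rw [hq]; linarith
        have n1 := ne j t (by omega) (by omega) d
        have n2 := ne j (j + 1) (by omega) (by omega) (by omega)
        have n3 : c j ≠ q := fun e => by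
          have := st2 j (by omega) (by omega)
          rw [← e, P.ws, mul_comm (y _)] at q2
          nlinarith
        have n4 := ne (j + 1) t (by omega) hjt d
        have := P.four _ _ _ _ n1 n2 n3 n4.symm hq q1.symm
        have s1 := st j (by omega) (by omega)
        have i1 := ih (by omega)
        have t1 := g1.2 _ _ hq
        have t2 := g1.2 _ _ n3
        have t3 := g1.2 _ _ q1.symm
        have p1 := mul_pos (mul_pos (g1.1 (c (j + 1))) (g1.1 (c t))) (P.w0 _ _ n4)
        have p2 := mul_pos (mul_pos (g1.1 (c j)) (g1.1 (c t))) (P.w0 _ _ n1)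
        have p3 := mul_pos (g1.1 (c j)) (g1.1 (c (j + 1)))
        have l0 := P.l0 (c j) (c (j + 1))
        have r := mul_le_mul_of_nonneg_left this (mul_pos p3 (mul_pos (g1.1 (c t)) (g1.1 q))).le
        refine le_of_mul_le_mul_left ?_ l0
        have u1 : 2 * (y (c j) * y (c (j + 1))) ≤ l (c j) (c (j + 1)) * (2 / K) := by
          rw [← mul_div_assoc, le_div_iff₀ K0]; linarith
        nlinarith [mul_le_mul_of_nonneg_left q2 (mul_pos l0 p2).le, mul_le_mul_of_nonneg_left t1 p3.le,
          mul_le_mul_of_nonneg_left t2 (mul_pos l0 p1).le, mul_le_mul_of_nonneg_left i1 l0.le]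
    obtain ⟨j, rfl⟩ : ∃ j, t = j + 1 := ⟨t - 1, by omega⟩
    have a1 := this j (by omega) (by omega)
    have a2 := st2 j (by omega) d
    have a3 : 2 * (j - s : ℝ) / K ≤ 1 / 2 := by
      have : (j : ℝ) ≤ k := by exact_mod_cast (by omega)
      have : (i : ℝ) ≤ s := by exact_mod_cast a.le
      rw [div_le_iff₀ K0]; linarith
    nlinarith
  obtain ⟨s, hs, rfl⟩ := mem_image.1 hu
  obtain ⟨t, ht, rfl⟩ := mem_image.1 hv
  rw [mem_Ioc] at hs ht
  have f4 := f3.trans (mul_le_mul_of_nonneg_right (mo _ _) (P.w0 _ _ huv).le)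
  rcases lt_trichotomy s t with h | rfl | h
  · exact key s t hs.1 h ht.2 f4
  · exact huv rfl
  · exact key t s ht.1 h hs.2 (by rwa [P.ws, mul_comm (y _)])

theorem Pot.star (P : Pot w l) (v : V) : ∃ y, Feas w y ∧ ∀ u, u ≠ v → l v u ≤ y v * y u := by
  let S : ℝ := 1 + ∑ p : V × V, |w p.1 p.2 / (w v p.1 * w v p.2)|
  have S1 : 1 ≤ S := le_add_of_nonneg_right (by positivity)
  refine ⟨fun u => if u = v then S else 1 / (S * w v u), ⟨fun u => ?_, fun a b hab => ?_⟩, fun u hu => ?_⟩
  · dsimp only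
    split_ifs with h
    · linarith
    · have := P.w0 v u (Ne.symm h); positivity
  · dsimp only
    split_ifs with ha hb hb
    · exact absurd (ha.trans hb.symm) hab
    · have := P.w0 v b (Ne.symm hb); subst ha; field_simp; rfl
    · have := P.w0 v a (Ne.symm ha); subst hb; rw [P.ws a]; field_simp; rfl
    · have := P.w0 v b (Ne.symm hb)
      have := P.w0 v a (Ne.symm ha)
      have h : w a b / (w v a * w v b) ≤ S := (le_abs_self _).trans ((single_le_sum
        (f := fun p : V × V => |w p.1 p.2 / (w v p.1 * w v p.2)|) (fun _ _ => abs_nonneg _)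
        (mem_univ (a, b))).trans (by simp [S]))
      rw [div_le_iff₀ (by positivity)] at h
      field_simp
      nlinarith [mul_le_mul_of_nonneg_right S1 (show 0 ≤ S * (w v a * w v b) by positivity)]
  · have := P.w0 v u hu.symm
    have := P.one v u hu.symm
    simp only [if_true, hu, if_false]
    field_simp; linarith

theorem cycle {I F : V → V} (hI : I ∈ Iv ∅) (hF : F ∈ Iv ∅) (v : V) : ∃ (c : ℕ → V) (L : ℕ), 2 ≤ L ∧
    L ≤ Fintype.card V ∧ Even L ∧ c 0 = v ∧ c L = v ∧ Set.InjOn c (Set.Iio L) ∧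
      ∀ t, c (t + 1) = (if Even t then I else F) (c t) := by
  classical
  simp only [mem_Iv, Finset.ext_iff, mem_fx, notMem_empty, iff_false] at hI hF
  let c : ℕ → V := fun t => Nat.rec v (fun t a => (if Even t then I else F) a) t
  have hc : ∀ t, c (t + 1) = (if Even t then I else F) (c t) := fun _ => rfl
  have hb : ∀ t, c t = (if Even t then I else F) (c (t + 1)) := fun t => by
    rw [hc]; split_ifs
    exacts [(hI.1 _).symm, (hF.1 _).symm]
  have hn : ∀ t, c (t + 1) ≠ c t := fun t => by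
    rw [hc]; split_ifs
    exacts [hI.2 _, hF.2 _]
  have ex : ∃ t, ∃ s < t, c s = c t := by
    obtain ⟨s, t, h1, h2⟩ := Finite.exists_ne_map_eq_of_infinite c
    rcases lt_or_gt_of_ne h1 with h | h
    exacts [⟨t, s, h, h2⟩, ⟨s, t, h, h2.symm⟩]
  obtain ⟨L, ⟨s, s1, s2⟩, h0⟩ := wellFounded_lt.has_min {t | ∃ s < t, c s = c t} ex
  have inj : Set.InjOn c (Set.Iio L) := fun a ha b hb h => by
    rcases lt_trichotomy a b with h1 | h1 | h1
    exacts [absurd hb (h0 b ⟨a, h1, h⟩), h1, absurd ha (h0 a ⟨b, h1, h.symm⟩)]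
  obtain ⟨L, rfl⟩ : ∃ M, L = M + 1 := ⟨L - 1, by omega⟩
  have h1 : ¬ (Even L ↔ Even s) := fun h => by
    have e : c L = c (s + 1) := by rw [hb L, ← s2, hc]; simp only [h]
    by_cases h2 : s = L
    · exact hn s (by rw [s2, h2])
    · have := inj (show L < L + 1 by omega) (show s + 1 < L + 1 by omega) e
      rw [this, Nat.even_add_one] at h
      exact iff_not_self h.symm
  have h2 : s = 0 := by
    by_contra h
    obtain ⟨s, rfl⟩ : ∃ M, s = M + 1 := ⟨s - 1, by omega⟩
    have e : c L = c s := by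
      rw [hb L, ← s2, hb s]
      rw [Nat.even_add_one] at h1
      simp only [show Even L ↔ Even s by tauto]
    have := inj (show L < L + 1 by omega) (show s < L + 1 by omega) e
    omega
  subst h2
  have h3 : ¬ Even L := by simpa using h1
  refine ⟨c, L + 1, ?_, ?_, Nat.even_add_one.2 h3, rfl, s2.symm, inj, hc⟩
  · rcases L with _ | L
    exacts [absurd Even.zero h3, by omega]
  · simpa using card_le_card_of_injOn c (s := range (L + 1)) (t := univ) (by simp) (by simpa using inj)

end Vale.Agent.P308
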